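import Vale.Agent.P101.MathlibUsed
import Vale.Agent.P101.StmtChar
import Vale.Agent.P101.StmtZ
attribute [-instance] ProperSMul.toContinuousSMul IsTopologicalTorsor.toContinuousSMul IdemSemiring.toCanonicallyOrderedAdd IdemSemiring.toMulLeftMono IdemSemiring.toMulRightMono AddQuantale.instAddLeftMono AddQuantale.instAddRightMono Quantale.instMulLeftMono Quantale.instMulRightMono FiniteDimensional.rclike_to_real IsScalarTower.complexToReal FiniteDimensional.complexToReal

set_option linter.all false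

namespace AFast493285x7a
theorem a0 {x1 : Type} [x2 : Fintype x1] [x3 : DecidableEq x1] : StarModule ℂ C(↑unitInterval, Matrix x1 x1 ℂ) := inferInstance
theorem a1 : IsTopologicalSemiring ℂ := inferInstance
theorem a2 {x1 : Type} [x2 : Fintype x1] [x3 : DecidableEq x1] : SubringClass (StarSubalgebra ℂ C(↑unitInterval, Matrix x1 x1 ℂ)) C(↑unitInterval, Matrix x1 x1 ℂ) := inferInstance
theorem a3 : IsTopologicalRing ℂ := inferInstance
theorem a4 {x1 : Type} [x2 : Fintype x1] [x3 : DecidableEq x1] : StarModule ℂ C(↑unitInterval, Matrix (x1 × Option x1) (x1 × Option x1) ℂ) := inferInstance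
theorem a5 {x1 : ℕ} {x2 : ℕ} : StarModule ℂ C(↑unitInterval, Matrix (Fin x1 × Fin x2) (Fin x1 × Fin x2) ℂ) := inferInstance
theorem a6.{u1, u2} {x1 : Type u1} {x2 : Type u2} [x3 : CStarAlgebra x2] : SubringClass (StarSubalgebra ℂ (x1 → x2)) (x1 → x2) := inferInstance
@[reducible] noncomputable def a7 {x1 : Type} [x2 : DecidableEq x1] [x3 : Fintype x1] : Semiring C(↑unitInterval, Matrix x1 x1 ℂ) := inferInstance
theorem a8 {x1 : Type} [x2 : Fintype x1] : IsTopologicalSemiring (Matrix x1 x1 ℂ) := inferInstance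
theorem a9 {x1 : Type} [x2 : Fintype x1] [x3 : DecidableEq x1] : ContinuousConstSMul ℂ (Matrix x1 x1 ℂ) := inferInstance
theorem a10 {x1 : ℕ} {x2 : ℕ} : SubringClass (StarSubalgebra ℂ C(↑unitInterval, Matrix (Fin x1 × Fin x2) (Fin x1 × Fin x2) ℂ)) C(↑unitInterval, Matrix (Fin x1 × Fin x2) (Fin x1 × Fin x2) ℂ) := inferInstance
@[reducible] noncomputable def a11 {x1 : Type} [x2 : DecidableEq x1] [x3 : Fintype x1] : Ring C(↑unitInterval, Matrix x1 x1 ℂ) := inferInstance
@[reducible] noncomputable def a12.{u1, u2} {x1 : Type u1} {x2 : Type u2} [x3 : CStarAlgebra x2] : SetLike (StarSubalgebra ℂ (x1 → x2)) (x1 → x2) := inferInstance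
@[reducible] noncomputable def a13 {x1 : Type} [x2 : DecidableEq x1] [x3 : Fintype x1] : Semiring C(↑unitInterval, Matrix (x1 × Option x1) (x1 × Option x1) ℂ) := inferInstance
@[reducible] noncomputable def a14.{u1, u2} {x1 : Type u1} {x2 : Type u2} [x3 : CStarAlgebra x2] {x4 : StarSubalgebra ℂ (x1 → x2)} : Add ↥x4 := inferInstance
@[reducible] noncomputable def a15.{u1, u2} {x1 : Type u1} {x2 : Type u2} [x3 : CStarAlgebra x2] {x4 : StarSubalgebra ℂ (x1 → x2)} : Distrib ↥x4 := inferInstance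
@[reducible] noncomputable def a16.{u1, u2} {x1 : Type u1} {x2 : Type u2} [x3 : CStarAlgebra x2] {x4 : StarSubalgebra ℂ (x1 → x2)} : Semiring ↥x4 := inferInstance
theorem a17 : IsTopologicalDivisionRing ℂ := inferInstance
@[reducible] noncomputable def a18.{u1, u2} {x1 : Type u1} {x2 : Type u2} [x3 : CStarAlgebra x2] {x4 : StarSubalgebra ℂ (x1 → x2)} : Mul ↥x4 := inferInstance
@[reducible] noncomputable def a19.{u1, u2} {x1 : Type u1} {x2 : Type u2} [x3 : CStarAlgebra x2] {x4 : StarSubalgebra ℂ (x1 → x2)} : Ring ↥x4 := inferInstance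
theorem a20.{u1, u2} {x1 : Type u1} {x2 : Type u2} [x3 : CStarAlgebra x2] : StarModule ℂ (x1 → x2) := inferInstance
@[reducible] noncomputable def a21 {x1 : ℕ} {x2 : ℕ} : Semiring C(↑unitInterval, Matrix (Fin x1 × Fin x2) (Fin x1 × Fin x2) ℂ) := inferInstance
theorem a22 {x1 : Type} [x2 : Fintype x1] : IsTopologicalRing (Matrix x1 x1 ℂ) := inferInstance
theorem a23 {x1 : Type} [x2 : Fintype x1] : IsTopologicalSemiring (Matrix (x1 × Option x1) (x1 × Option x1) ℂ) := inferInstance
theorem a24 {x1 : Type} [x2 : Fintype x1] [x3 : DecidableEq x1] : ContinuousConstSMul ℂ (Matrix (x1 × Option x1) (x1 × Option x1) ℂ) := inferInstance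
theorem a25 {x1 : ℕ} {x2 : ℕ} : ContinuousConstSMul ℂ (Matrix (Fin x1 × Fin x2) (Fin x1 × Fin x2) ℂ) := inferInstance
theorem a26 {x1 : ℕ} {x2 : ℕ} : IsTopologicalSemiring (Matrix (Fin x1 × Fin x2) (Fin x1 × Fin x2) ℂ) := inferInstance
@[reducible] noncomputable def a27 {x1 : ℕ} {x2 : ℕ} : Ring C(↑unitInterval, Matrix (Fin x1 × Fin x2) (Fin x1 × Fin x2) ℂ) := inferInstance
@[reducible] def a28.{u1, u2} {x1 : Type u1} {x2 : Type u2} {x3 : x1} [x4 : CStarAlgebra x2] : StarMul ((fun a => x2) x3) := inferInstance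
@[reducible] noncomputable def a29 {x1 : Type} [x2 : Fintype x1] [x3 : DecidableEq x1] : SetLike (StarSubalgebra ℂ C(↑unitInterval, Matrix x1 x1 ℂ)) C(↑unitInterval, Matrix x1 x1 ℂ) := inferInstance
theorem a30 : CovariantClass ℝ ℝ (Function.swap fun x1 x2 => x1 + x2) fun x1 x2 => x1 ≤ x2 := inferInstance
@[reducible] noncomputable def a31 {x1 : Type} [x2 : Fintype x1] [x3 : DecidableEq x1] : Algebra ℂ C(↑unitInterval, Matrix x1 x1 ℂ) := inferInstance
theorem a32 {x1 : Type} : StarModule ℂ (Matrix x1 x1 ℂ) := inferInstance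
@[reducible] noncomputable def a33.{u1, u2} {x1 : Type u1} {x2 : Type u2} [x3 : CStarAlgebra x2] {x4 : StarSubalgebra ℂ (x1 → x2)} : NonUnitalNonAssocRing ↥x4 := inferInstance
@[reducible] noncomputable def a34.{u1, u2} {x1 : Type u1} {x2 : Type u2} [x3 : CStarAlgebra x2] {x4 : StarSubalgebra ℂ (x1 → x2)} {x5 : RingCon ↥x4} : NonUnitalNonAssocSemiring x5.Quotient := inferInstance
theorem a35 : IsSemitopologicalSemiring ℂ := inferInstance
end AFast493285x7a
attribute [local instance] AFast493285x7a.a0 AFast493285x7a.a1 AFast493285x7a.a2 AFast493285x7a.a3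
  AFast493285x7a.a4 AFast493285x7a.a5 AFast493285x7a.a6 AFast493285x7a.a7 AFast493285x7a.a8
  AFast493285x7a.a9 AFast493285x7a.a10 AFast493285x7a.a11 AFast493285x7a.a12 AFast493285x7a.a13
  AFast493285x7a.a14 AFast493285x7a.a15 AFast493285x7a.a16 AFast493285x7a.a17 AFast493285x7a.a18
  AFast493285x7a.a19 AFast493285x7a.a20 AFast493285x7a.a21 AFast493285x7a.a22 AFast493285x7a.a23
  AFast493285x7a.a24 AFast493285x7a.a25 AFast493285x7a.a26 AFast493285x7a.a27 AFast493285x7a.a28
  AFast493285x7a.a29 AFast493285x7a.a30 AFast493285x7a.a31 AFast493285x7a.a32 AFast493285x7a.a33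
  AFast493285x7a.a34 AFast493285x7a.a35
namespace AFast493285x7b
theorem a0 {x1 : Type} [x2 : Fintype x1] [x3 : DecidableEq x1] : NonUnitalSubsemiringClass (StarSubalgebra ℂ C(↑unitInterval, Matrix x1 x1 ℂ)) C(↑unitInterval, Matrix x1 x1 ℂ) := inferInstance
theorem a1 {x1 : Type} [x2 : Fintype x1] [x3 : DecidableEq x1] : AddSubgroupClass (StarSubalgebra ℂ C(↑unitInterval, Matrix x1 x1 ℂ)) C(↑unitInterval, Matrix x1 x1 ℂ) := inferInstance
end AFast493285x7b
attribute [local instance] AFast493285x7b.a0 AFast493285x7b.a1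
section

section

open Filter Topology
open scoped Kronecker

namespace Vale.Agent.P101

universe u v

/-- Bounded functions `x : ι → A` with `‖x i * a - a * x i‖ → 0` along `μ` for every `a : A`. -/
def centralSeq (A : Type u) [CStarAlgebra A] {ι : Type v} (μ : Filter ι) :
    StarSubalgebra ℂ (ι → A) where
  carrier := {x | (∃ C : ℝ, ∀ i, ‖x i‖ ≤ C) ∧
    ∀ a : A, Tendsto (fun i => ‖x i * a - a * x i‖) μ (𝓝 0)}
  mul_mem' := by
    rintro x y ⟨⟨C, hC⟩, hx⟩ ⟨⟨D, hD⟩, hy⟩
    refine ⟨⟨C * D, fun i => ?_⟩, fun a => ?_⟩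
    · exact (norm_mul_le _ _).trans
        (mul_le_mul (hC i) (hD i) (norm_nonneg _) ((norm_nonneg _).trans (hC i)))
    · have h : Tendsto (fun i => C * ‖y i * a - a * y i‖ + ‖x i * a - a * x i‖ * D) μ (𝓝 0) := by
        simpa using ((hy a).const_mul C).add ((hx a).mul_const D)
      refine squeeze_zero (fun i => norm_nonneg _) (fun i => ?_) h
      have e : (x * y) i * a - a * (x * y) i
          = x i * (y i * a - a * y i) + (x i * a - a * x i) * y i := by
        simp only [Pi.mul_apply]; noncomm_ring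
      rw [e]
      refine (norm_add_le _ _).trans (add_le_add ?_ ?_)
      · exact (norm_mul_le _ _).trans (mul_le_mul_of_nonneg_right (hC i) (norm_nonneg _))
      · exact (norm_mul_le _ _).trans (mul_le_mul_of_nonneg_left (hD i) (norm_nonneg _))
  add_mem' := by
    rintro x y ⟨⟨C, hC⟩, hx⟩ ⟨⟨D, hD⟩, hy⟩
    refine ⟨⟨C + D, fun i => (norm_add_le _ _).trans (add_le_add (hC i) (hD i))⟩, fun a => ?_⟩
    have h : Tendsto (fun i => ‖x i * a - a * x i‖ + ‖y i * a - a * y i‖) μ (𝓝 0) := by
      simpa using (hx a).add (hy a)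
    refine squeeze_zero (fun i => norm_nonneg _) (fun i => ?_) h
    have e : (x + y) i * a - a * (x + y) i = (x i * a - a * x i) + (y i * a - a * y i) := by
      simp only [Pi.add_apply]; noncomm_ring
    rw [e]
    exact norm_add_le _ _
  algebraMap_mem' := by
    intro r
    refine ⟨⟨‖algebraMap ℂ A r‖, fun i => le_rfl⟩, fun a => ?_⟩
    have : (fun i : ι => ‖(algebraMap ℂ (ι → A) r) i * a - a * (algebraMap ℂ (ι → A) r) i‖)
        = fun _ => (0 : ℝ) := by
      funext i
      simp [Pi.algebraMap_apply, Algebra.commutes r a]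
    rw [this]
    exact tendsto_const_nhds
  star_mem' := by
    rintro x ⟨⟨C, hC⟩, hx⟩
    refine ⟨⟨C, fun i => by simpa using hC i⟩, fun a => ?_⟩
    refine (hx (star a)).congr (fun i => ?_)
    have e : (star x) i * a - a * (star x) i = -star (x i * star a - star a * x i) := by
      simp only [Pi.star_apply, star_sub, star_mul, star_star]; noncomm_ring
    rw [e, norm_neg, norm_star]

/-- The congruence on `centralSeq A μ` identifying `x` and `y` when `‖x i - y i‖ → 0` along
`μ`. -/
def nullCon (A : Type u) [CStarAlgebra A] {ι : Type v} (μ : Filter ι) :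
    RingCon (centralSeq A μ) where
  r x y := Tendsto (fun i => ‖(x : ι → A) i - (y : ι → A) i‖) μ (𝓝 0)
  iseqv :=
    { refl := fun x => by
        simp only [sub_self, norm_zero]; exact tendsto_const_nhds
      symm := fun {x y} h => by
        refine h.congr (fun i => ?_)
        rw [norm_sub_rev]
      trans := fun {x y z} h₁ h₂ => by
        have h : Tendsto (fun i => ‖(x : ι → A) i - (y : ι → A) i‖
            + ‖(y : ι → A) i - (z : ι → A) i‖) μ (𝓝 0) := by simpa using h₁.add h₂
        exact squeeze_zero (fun i => norm_nonneg _) (fun i => norm_sub_le_norm_sub_add_norm_sub _ _ _) h }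
  add' := fun {w x y z} h₁ h₂ => by
    have h : Tendsto (fun i => ‖(w : ι → A) i - (x : ι → A) i‖
        + ‖(y : ι → A) i - (z : ι → A) i‖) μ (𝓝 0) := by simpa using h₁.add h₂
    refine squeeze_zero (fun i => norm_nonneg _) (fun i => ?_) h
    have e : ((w + y : centralSeq A μ) : ι → A) i - ((x + z : centralSeq A μ) : ι → A) i
        = ((w : ι → A) i - (x : ι → A) i) + ((y : ι → A) i - (z : ι → A) i) := by
      simp only [AddMemClass.coe_add, Pi.add_apply]; abel
    rw [e]
    exact norm_add_le _ _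
  mul' := fun {w x y z} h₁ h₂ => by
    obtain ⟨C, hC⟩ := x.2.1
    obtain ⟨D, hD⟩ := y.2.1
    have h : Tendsto (fun i => ‖(w : ι → A) i - (x : ι → A) i‖ * D
        + C * ‖(y : ι → A) i - (z : ι → A) i‖) μ (𝓝 0) := by
      simpa using (h₁.mul_const D).add (h₂.const_mul C)
    refine squeeze_zero (fun i => norm_nonneg _) (fun i => ?_) h
    have e : ((w * y : centralSeq A μ) : ι → A) i - ((x * z : centralSeq A μ) : ι → A) i
        = ((w : ι → A) i - (x : ι → A) i) * (y : ι → A) i
          + (x : ι → A) i * ((y : ι → A) i - (z : ι → A) i) := by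
      simp only [MulMemClass.coe_mul, Pi.mul_apply]; noncomm_ring
    rw [e]
    refine (norm_add_le _ _).trans (add_le_add ?_ ?_)
    · exact (norm_mul_le _ _).trans (mul_le_mul_of_nonneg_left (hD i) (norm_nonneg _))
    · exact (norm_mul_le _ _).trans (mul_le_mul_of_nonneg_right (hC i) (norm_nonneg _))

/-- The central sequence algebra `A_μ ∩ A'`. -/
abbrev Fcs (A : Type u) [CStarAlgebra A] {ι : Type v} (μ : Filter ι) : Type (max u v) :=
  (nullCon A μ).Quotient

/-- Pointwise involution on the central sequence algebra. -/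
noncomputable instance (A : Type u) [CStarAlgebra A] {ι : Type v} (μ : Filter ι) : StarRing (Fcs A μ) where
  star := Quotient.map' star (fun x y h => by
    refine Tendsto.congr (fun i => ?_) h
    show _ = ‖((star x : centralSeq A μ) : ι → A) i - ((star y : centralSeq A μ) : ι → A) i‖
    rw [show ((star x : centralSeq A μ) : ι → A) i - ((star y : centralSeq A μ) : ι → A) i
      = star ((x : ι → A) i - (y : ι → A) i) by simp, norm_star])
  star_involutive := by
    rintro ⟨x⟩
    exact congrArg (Quotient.mk'' (s₁ := (nullCon A μ).toSetoid)) (star_star x)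
  star_mul := by
    rintro ⟨x⟩ ⟨y⟩
    exact congrArg (Quotient.mk'' (s₁ := (nullCon A μ).toSetoid)) (star_mul x y)
  star_add := by
    rintro ⟨x⟩ ⟨y⟩
    exact congrArg (Quotient.mk'' (s₁ := (nullCon A μ).toSetoid)) (star_add x y)

/-- The dimension drop algebra `I(p, q)`: continuous `f : [0,1] → M_p ⊗ M_q` with
`f 0 ∈ M_p ⊗ 1` and `f 1 ∈ 1 ⊗ M_q`. -/
def dimDrop (p q : ℕ) :
    StarSubalgebra ℂ C(unitInterval, Matrix (Fin p × Fin q) (Fin p × Fin q) ℂ) where
  carrier := {f | (∃ x : Matrix (Fin p) (Fin p) ℂ, f 0 = x ⊗ₖ (1 : Matrix (Fin q) (Fin q) ℂ)) ∧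
    ∃ y : Matrix (Fin q) (Fin q) ℂ, f 1 = (1 : Matrix (Fin p) (Fin p) ℂ) ⊗ₖ y}
  mul_mem' := by
    rintro f g ⟨⟨x, hx⟩, ⟨y, hy⟩⟩ ⟨⟨x', hx'⟩, ⟨y', hy'⟩⟩
    refine ⟨⟨x * x', ?_⟩, ⟨y * y', ?_⟩⟩
    · simp [hx, hx', ← Matrix.mul_kronecker_mul]
    · simp [hy, hy', ← Matrix.mul_kronecker_mul]
  add_mem' := by
    rintro f g ⟨⟨x, hx⟩, ⟨y, hy⟩⟩ ⟨⟨x', hx'⟩, ⟨y', hy'⟩⟩
    refine ⟨⟨x + x', ?_⟩, ⟨y + y', ?_⟩⟩
    · simp [hx, hx', Matrix.add_kronecker]
    · simp [hy, hy', Matrix.kronecker_add]
  algebraMap_mem' := by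
    intro r
    refine ⟨⟨r • 1, ?_⟩, ⟨r • 1, ?_⟩⟩
    · rw [Matrix.smul_kronecker, Matrix.one_kronecker_one, Algebra.algebraMap_eq_smul_one]
      rfl
    · rw [Matrix.kronecker_smul, Matrix.one_kronecker_one, Algebra.algebraMap_eq_smul_one]
      rfl
  star_mem' := by
    rintro f ⟨⟨x, hx⟩, ⟨y, hy⟩⟩
    refine ⟨⟨star x, ?_⟩, ⟨star y, ?_⟩⟩
    · simp [hx, Matrix.star_eq_conjTranspose, Matrix.conjTranspose_kronecker]
    · simp [hy, Matrix.star_eq_conjTranspose, Matrix.conjTranspose_kronecker]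

end Vale.Agent.P101
end
end
namespace AFast493285x158a
@[reducible] noncomputable def a0.{u1, u2} {x1 : Type u1} {x2 : Type u2} [x3 : CStarAlgebra x2] {x4 : Filter x1} : Semiring ↥(Vale.Agent.P101.centralSeq x2 x4) := inferInstance
@[reducible] noncomputable def a1.{u1, u2} {x1 : Type u1} {x2 : Type u2} [x3 : CStarAlgebra x2] {x4 : Filter x1} : Ring ↥(Vale.Agent.P101.centralSeq x2 x4) := inferInstance
@[reducible] noncomputable def a2.{u1, u2} {x1 : Type u1} {x2 : Type u2} [x3 : CStarAlgebra x2] {x4 : Filter x1} : Mul ↥(Vale.Agent.P101.centralSeq x2 x4) := inferInstance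
@[reducible] noncomputable def a3.{u1, u2} {x1 : Type u1} {x2 : Type u2} [x3 : CStarAlgebra x2] {x4 : Filter x1} : Add ↥(Vale.Agent.P101.centralSeq x2 x4) := inferInstance
@[reducible] noncomputable def a4.{u1, u2} {x1 : Type u1} {x2 : Type u2} [x3 : CStarAlgebra x2] {x4 : Filter x1} : Distrib ↥(Vale.Agent.P101.centralSeq x2 x4) := inferInstance
@[reducible] noncomputable def a5.{u1, u2} {x1 : Type u1} {x2 : Type u2} [x3 : CStarAlgebra x2] {x4 : Filter x1} : NonUnitalNonAssocSemiring (Vale.Agent.P101.nullCon x2 x4).Quotient := inferInstance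
@[reducible] noncomputable def a6.{u1, u2} {x1 : Type u1} {x2 : Type u2} [x3 : CStarAlgebra x2] {x4 : Filter x1} : NonAssocSemiring ↥(Vale.Agent.P101.centralSeq x2 x4) := inferInstance
@[reducible] noncomputable def a7.{u1, u2} {x1 : Type u1} {x2 : Type u2} [x3 : CStarAlgebra x2] {x4 : Filter x1} : NonUnitalNonAssocSemiring ↥(Vale.Agent.P101.centralSeq x2 x4) := inferInstance
end AFast493285x158a
attribute [local instance] AFast493285x158a.a0 AFast493285x158a.a1 AFast493285x158a.a2
  AFast493285x158a.a3 AFast493285x158a.a4 AFast493285x158a.a5 AFast493285x158a.a6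
  AFast493285x158a.a7
namespace AFast493285x158b
@[reducible] noncomputable def a0 {x1 : ℕ} {x2 : ℕ} : Module ℂ ↥(Vale.Agent.P101.dimDrop x1 x2) := inferInstance
@[reducible] noncomputable def a1 {x1 : ℕ} {x2 : ℕ} : Semiring ↥(Vale.Agent.P101.dimDrop x1 x2) := inferInstance
@[reducible] noncomputable def a2 {x1 : ℕ} {x2 : ℕ} : Ring ↥(Vale.Agent.P101.dimDrop x1 x2) := inferInstance
@[reducible] noncomputable def a3 {x1 : ℕ} {x2 : ℕ} : NonAssocSemiring ↥(Vale.Agent.P101.dimDrop x1 x2) := inferInstance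
theorem a4 {x1 : ℕ} {x2 : ℕ} : AddHomClass (↥(Vale.Agent.P101.dimDrop x1 x2) →⋆ₐ[ℂ] Matrix (Fin x1 × Fin x2) (Fin x1 × Fin x2) ℂ) (↥(Vale.Agent.P101.dimDrop x1 x2)) (Matrix (Fin x1 × Fin x2) (Fin x1 × Fin x2) ℂ) := inferInstance
theorem a5 {x1 : ℕ} {x2 : ℕ} : LinearMapClass (↥(Vale.Agent.P101.dimDrop x1 x2) →⋆ₐ[ℂ] Matrix (Fin x1 × Fin x2) (Fin x1 × Fin x2) ℂ) ℂ (↥(Vale.Agent.P101.dimDrop x1 x2)) (Matrix (Fin x1 × Fin x2) (Fin x1 × Fin x2) ℂ) := inferInstance
@[reducible] noncomputable def a6 {x1 : ℕ} {x2 : ℕ} : MulOneClass ↥(Vale.Agent.P101.dimDrop x1 x2) := inferInstance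
@[reducible] noncomputable def a7 {x1 : ℕ} {x2 : ℕ} : MulZeroOneClass ↥(Vale.Agent.P101.dimDrop x1 x2) := inferInstance
@[reducible] noncomputable def a8 {x1 : ℕ} {x2 : ℕ} : MulOne ↥(Vale.Agent.P101.dimDrop x1 x2) := inferInstance
@[reducible] noncomputable def a9 {x1 : ℕ} {x2 : ℕ} : AddCommMonoidWithOne ↥(Vale.Agent.P101.dimDrop x1 x2) := inferInstance
@[reducible] noncomputable def a10 {x1 : ℕ} {x2 : ℕ} : AddZero ↥(Vale.Agent.P101.dimDrop x1 x2) := inferInstance
@[reducible] noncomputable def a11 {x1 : ℕ} {x2 : ℕ} : AddZeroClass ↥(Vale.Agent.P101.dimDrop x1 x2) := inferInstance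
@[reducible] noncomputable def a12 {x1 : ℕ} {x2 : ℕ} : AddMonoid ↥(Vale.Agent.P101.dimDrop x1 x2) := inferInstance
@[reducible] noncomputable def a13 {x1 : ℕ} {x2 : ℕ} : AddMonoidWithOne ↥(Vale.Agent.P101.dimDrop x1 x2) := inferInstance
@[reducible] noncomputable def a14 {x1 : ℕ} {x2 : ℕ} : Add ↥(Vale.Agent.P101.dimDrop x1 x2) := inferInstance
@[reducible] noncomputable def a15 {x1 : ℕ} {x2 : ℕ} : Mul ↥(Vale.Agent.P101.dimDrop x1 x2) := inferInstance
@[reducible] noncomputable def a16 {x1 : ℕ → ℕ} {x2 : ℕ} {x3 : ℕ → ℕ} : Add ↥(Vale.Agent.P101.dimDrop (x1 x2) (x3 x2)) := inferInstance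
@[reducible] noncomputable def a17 {x1 : ℕ → ℕ} {x2 : ℕ} {x3 : ℕ → ℕ} : Mul ↥(Vale.Agent.P101.dimDrop (x1 x2) (x3 x2)) := inferInstance
@[reducible] noncomputable def a18 {x1 : ℕ → ℕ} {x2 : ℕ} {x3 : ℕ → ℕ} : Distrib ↥(Vale.Agent.P101.dimDrop (x1 x2) (x3 x2)) := inferInstance
@[reducible] noncomputable def a19 {x1 : ℕ → ℕ} {x2 : ℕ} {x3 : ℕ → ℕ} : Semiring ↥(Vale.Agent.P101.dimDrop (x1 x2) (x3 x2)) := inferInstance
@[reducible] noncomputable def a20 {x1 : ℕ → ℕ} {x2 : ℕ} {x3 : ℕ → ℕ} : Ring ↥(Vale.Agent.P101.dimDrop (x1 x2) (x3 x2)) := inferInstance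
theorem a21 {x1 : ℕ} {x2 : ℕ} : OneHomClass (↥(Vale.Agent.P101.dimDrop x1 x2) →⋆ₐ[ℂ] Matrix (Fin x1 × Fin x2) (Fin x1 × Fin x2) ℂ) (↥(Vale.Agent.P101.dimDrop x1 x2)) (Matrix (Fin x1 × Fin x2) (Fin x1 × Fin x2) ℂ) := inferInstance
theorem a22 {x1 : ℕ} {x2 : ℕ} : MonoidHomClass (↥(Vale.Agent.P101.dimDrop x1 x2) →⋆ₐ[ℂ] Matrix (Fin x1 × Fin x2) (Fin x1 × Fin x2) ℂ) (↥(Vale.Agent.P101.dimDrop x1 x2)) (Matrix (Fin x1 × Fin x2) (Fin x1 × Fin x2) ℂ) := inferInstance
theorem a23 {x1 : ℕ} {x2 : ℕ} : ZeroHomClass (↥(Vale.Agent.P101.dimDrop x1 x2) →⋆ₐ[ℂ] Matrix (Fin x1 × Fin x2) (Fin x1 × Fin x2) ℂ) (↥(Vale.Agent.P101.dimDrop x1 x2)) (Matrix (Fin x1 × Fin x2) (Fin x1 × Fin x2) ℂ) := inferInstance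
theorem a24 {x1 : ℕ} {x2 : ℕ} : MonoidWithZeroHomClass (↥(Vale.Agent.P101.dimDrop x1 x2) →⋆ₐ[ℂ] Matrix (Fin x1 × Fin x2) (Fin x1 × Fin x2) ℂ) (↥(Vale.Agent.P101.dimDrop x1 x2)) (Matrix (Fin x1 × Fin x2) (Fin x1 × Fin x2) ℂ) := inferInstance
@[reducible] noncomputable def a25.{u1, u2} {x1 : Type u1} [x2 : CStarAlgebra x1] {x3 : Type u2} {x4 : Filter x3} : Star (Vale.Agent.P101.Fcs x1 x4) := inferInstance
@[reducible] noncomputable def a26.{u1, u2} {x1 : Type u1} [x2 : CStarAlgebra x1] {x3 : Type u2} {x4 : Filter x3} : InvolutiveStar (Vale.Agent.P101.Fcs x1 x4) := inferInstance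
@[reducible] noncomputable def a27.{u1, u2} {x1 : Type u1} [x2 : CStarAlgebra x1] {x3 : Type u2} {x4 : Filter x3} : StarAddMonoid (Vale.Agent.P101.Fcs x1 x4) := inferInstance
end AFast493285x158b
attribute [local instance] AFast493285x158b.a0 AFast493285x158b.a1 AFast493285x158b.a2
  AFast493285x158b.a3 AFast493285x158b.a4 AFast493285x158b.a5 AFast493285x158b.a6
  AFast493285x158b.a7 AFast493285x158b.a8 AFast493285x158b.a9 AFast493285x158b.a10
  AFast493285x158b.a11 AFast493285x158b.a12 AFast493285x158b.a13 AFast493285x158b.a14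
  AFast493285x158b.a15 AFast493285x158b.a16 AFast493285x158b.a17 AFast493285x158b.a18
  AFast493285x158b.a19 AFast493285x158b.a20 AFast493285x158b.a21 AFast493285x158b.a22
  AFast493285x158b.a23 AFast493285x158b.a24 AFast493285x158b.a25 AFast493285x158b.a26
  AFast493285x158b.a27

section

section

/-! C*-structure on quotients of algebras of bounded functions `ι → B` by the functions that are
null along a filter. -/

open Filter Topology

namespace Vale.Agent.P101

universe u v

namespace SeqQuot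

variable {B : Type u} [CStarAlgebra B] {ι : Type v}

/-- Essential supremum of the norm along `μ`. -/
noncomputable def nrm (μ : Filter ι) (x : ι → B) : ℝ :=
  sInf {r : ℝ | 0 ≤ r ∧ ∀ᶠ i in μ, ‖x i‖ ≤ r}

lemma nrm_nonneg (μ : Filter ι) (x : ι → B) : 0 ≤ nrm μ x :=
  Real.sInf_nonneg fun _ hr => hr.1

lemma nrm_le {μ : Filter ι} {x : ι → B} {r : ℝ} (h0 : 0 ≤ r) (h : ∀ᶠ i in μ, ‖x i‖ ≤ r) :
    nrm μ x ≤ r :=
  csInf_le ⟨0, fun _ hs => hs.1⟩ ⟨h0, h⟩

lemma eventually_lt {μ : Filter ι} {x : ι → B} (hb : ∃ K : ℝ, ∀ i, ‖x i‖ ≤ K) {c : ℝ}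
    (h : nrm μ x < c) : ∀ᶠ i in μ, ‖x i‖ < c := by
  obtain ⟨K, hK⟩ := hb
  obtain ⟨r, ⟨_, hr⟩, hrc⟩ := exists_lt_of_csInf_lt
    (s := {r : ℝ | 0 ≤ r ∧ ∀ᶠ i in μ, ‖x i‖ ≤ r})
    ⟨max K 0, le_max_right _ _, Eventually.of_forall fun i => (hK i).trans (le_max_left _ _)⟩ h
  exact hr.mono fun i hi => hi.trans_lt hrc

lemma nrm_add_le {μ : Filter ι} {x y : ι → B} (hx : ∃ K : ℝ, ∀ i, ‖x i‖ ≤ K)
    (hy : ∃ K : ℝ, ∀ i, ‖y i‖ ≤ K) : nrm μ (x + y) ≤ nrm μ x + nrm μ y := by
  refine le_of_forall_pos_le_add fun ε hε => ?_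
  have h1 := eventually_lt hx (μ := μ) (c := nrm μ x + ε / 2) (by linarith)
  have h2 := eventually_lt hy (μ := μ) (c := nrm μ y + ε / 2) (by linarith)
  refine nrm_le (by linarith [nrm_nonneg μ x, nrm_nonneg μ y]) ?_
  filter_upwards [h1, h2] with i hi1 hi2
  exact (norm_add_le _ _).trans (by linarith)

lemma nrm_neg {μ : Filter ι} (x : ι → B) : nrm μ (-x) = nrm μ x := by
  unfold nrm; simp

lemma nrm_mul_le {μ : Filter ι} {x y : ι → B} (hx : ∃ K : ℝ, ∀ i, ‖x i‖ ≤ K)
    (hy : ∃ K : ℝ, ∀ i, ‖y i‖ ≤ K) : nrm μ (x * y) ≤ nrm μ x * nrm μ y := by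
  have key : ∀ ε > 0, nrm μ (x * y) ≤ (nrm μ x + ε) * (nrm μ y + ε) := by
    intro ε hε
    have h1 := eventually_lt hx (μ := μ) (c := nrm μ x + ε) (by linarith)
    have h2 := eventually_lt hy (μ := μ) (c := nrm μ y + ε) (by linarith)
    have h3 := nrm_nonneg μ x
    have h4 := nrm_nonneg μ y
    refine nrm_le (by positivity) ?_
    filter_upwards [h1, h2] with i hi1 hi2
    exact (norm_mul_le _ _).trans (mul_le_mul hi1.le hi2.le (norm_nonneg _) (by positivity))
  have hlim : Tendsto (fun ε : ℝ => (nrm μ x + ε) * (nrm μ y + ε)) (𝓝[>] 0)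
      (𝓝 ((nrm μ x + 0) * (nrm μ y + 0))) := by
    apply Tendsto.mono_left _ nhdsWithin_le_nhds
    have : Continuous (fun ε : ℝ => (nrm μ x + ε) * (nrm μ y + ε)) := by fun_prop
    exact this.tendsto 0
  rw [add_zero, add_zero] at hlim
  refine ge_of_tendsto hlim ?_
  filter_upwards [self_mem_nhdsWithin] with ε hε
  exact key ε hε

lemma nrm_smul {μ : Filter ι} (c : ℂ) {x : ι → B} (hx : ∃ K : ℝ, ∀ i, ‖x i‖ ≤ K) :
    nrm μ (c • x) ≤ ‖c‖ * nrm μ x := by
  have key : ∀ ε > 0, nrm μ (c • x) ≤ ‖c‖ * (nrm μ x + ε) := by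
    intro ε hε
    have h1 := eventually_lt hx (μ := μ) (c := nrm μ x + ε) (by linarith)
    have h3 := nrm_nonneg μ x
    refine nrm_le (by positivity) ?_
    filter_upwards [h1] with i hi1
    rw [Pi.smul_apply, norm_smul]
    exact mul_le_mul_of_nonneg_left hi1.le (norm_nonneg _)
  have hlim : Tendsto (fun ε : ℝ => ‖c‖ * (nrm μ x + ε)) (𝓝[>] 0)
      (𝓝 (‖c‖ * (nrm μ x + 0))) := by
    apply Tendsto.mono_left _ nhdsWithin_le_nhds
    have : Continuous (fun ε : ℝ => ‖c‖ * (nrm μ x + ε)) := by fun_prop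
    exact this.tendsto 0
  rw [add_zero] at hlim
  refine ge_of_tendsto hlim ?_
  filter_upwards [self_mem_nhdsWithin] with ε hε
  exact key ε hε

lemma nrm_sq_le {μ : Filter ι} {x : ι → B} (hx : ∃ K : ℝ, ∀ i, ‖x i‖ ≤ K) :
    nrm μ x * nrm μ x ≤ nrm μ (star x * x) := by
  have hb : ∃ K : ℝ, ∀ i, ‖(star x * x) i‖ ≤ K := by
    obtain ⟨K, hK⟩ := hx
    refine ⟨K * K, fun i => ?_⟩
    rw [Pi.mul_apply, Pi.star_apply, CStarRing.norm_star_mul_self]
    exact mul_le_mul (hK i) (hK i) (norm_nonneg _) ((norm_nonneg _).trans (hK i))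
  refine le_of_forall_pos_le_add fun ε hε => ?_
  have h1 := eventually_lt hb (μ := μ) (c := nrm μ (star x * x) + ε) (by linarith)
  have h0 := nrm_nonneg μ (star x * x)
  have h2 : nrm μ x ≤ Real.sqrt (nrm μ (star x * x) + ε) := by
    refine nrm_le (Real.sqrt_nonneg _) ?_
    filter_upwards [h1] with i hi
    rw [Pi.mul_apply, Pi.star_apply, CStarRing.norm_star_mul_self] at hi
    exact Real.le_sqrt_of_sq_le (by rw [sq]; exact hi.le)
  calc nrm μ x * nrm μ x ≤ Real.sqrt (nrm μ (star x * x) + ε) *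
        Real.sqrt (nrm μ (star x * x) + ε) :=
        mul_le_mul h2 h2 (nrm_nonneg _ _) (Real.sqrt_nonneg _)
    _ = nrm μ (star x * x) + ε := Real.mul_self_sqrt (by linarith)

lemma nrm_eq_zero_iff {μ : Filter ι} {x : ι → B} (hx : ∃ K : ℝ, ∀ i, ‖x i‖ ≤ K) :
    nrm μ x = 0 ↔ Tendsto (fun i => ‖x i‖) μ (𝓝 0) := by
  constructor
  · intro h
    rw [Metric.tendsto_nhds]
    intro ε hε
    have := eventually_lt hx (μ := μ) (c := ε) (by rw [h]; exact hε)
    filter_upwards [this] with i hi
    rwa [dist_zero_right, norm_norm]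
  · intro h
    refine le_antisymm ?_ (nrm_nonneg _ _)
    refine le_of_forall_pos_le_add fun ε hε => ?_
    rw [zero_add]
    refine nrm_le hε.le ?_
    have := (Metric.tendsto_nhds.mp h) ε hε
    filter_upwards [this] with i hi
    rw [dist_zero_right, norm_norm] at hi
    exact hi.le

/-- Conditions on an algebra of functions making its quotient by null functions a C*-algebra. -/
structure IsSeqAlg (μ : Filter ι) (C : StarSubalgebra ℂ (ι → B)) : Prop where
  bdd : ∀ x ∈ C, ∃ K : ℝ, ∀ i, ‖x i‖ ≤ K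
  cut : ∀ x ∈ C, ∀ s ∈ μ, s.indicator x ∈ C
  lim : ∀ x : ι → B, (∀ ε : ℝ, 0 < ε → ∃ y ∈ C, ∀ i, ‖x i - y i‖ ≤ ε) → x ∈ C

/-- The congruence of equality up to null functions. -/
def nullConG (μ : Filter ι) (C : StarSubalgebra ℂ (ι → B)) (hC : IsSeqAlg μ C) : RingCon C where
  r x y := Tendsto (fun i => ‖(x : ι → B) i - (y : ι → B) i‖) μ (𝓝 0)
  iseqv :=
    { refl := fun x => by
        simp only [sub_self, norm_zero]; exact tendsto_const_nhds
      symm := fun {x y} h => by
        refine h.congr (fun i => ?_)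
        rw [norm_sub_rev]
      trans := fun {x y z} h₁ h₂ => by
        have h : Tendsto (fun i => ‖(x : ι → B) i - (y : ι → B) i‖
            + ‖(y : ι → B) i - (z : ι → B) i‖) μ (𝓝 0) := by simpa using h₁.add h₂
        exact squeeze_zero (fun i => norm_nonneg _)
          (fun i => norm_sub_le_norm_sub_add_norm_sub _ _ _) h }
  add' := fun {w x y z} h₁ h₂ => by
    have h : Tendsto (fun i => ‖(w : ι → B) i - (x : ι → B) i‖
        + ‖(y : ι → B) i - (z : ι → B) i‖) μ (𝓝 0) := by simpa using h₁.add h₂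
    refine squeeze_zero (fun i => norm_nonneg _) (fun i => ?_) h
    have e : ((w + y : C) : ι → B) i - ((x + z : C) : ι → B) i
        = ((w : ι → B) i - (x : ι → B) i) + ((y : ι → B) i - (z : ι → B) i) := by
      simp only [AddMemClass.coe_add, Pi.add_apply]; abel
    rw [e]
    exact norm_add_le _ _
  mul' := fun {w x y z} h₁ h₂ => by
    obtain ⟨K, hK⟩ := hC.bdd x x.2
    obtain ⟨D, hD⟩ := hC.bdd y y.2
    have h : Tendsto (fun i => ‖(w : ι → B) i - (x : ι → B) i‖ * D
        + K * ‖(y : ι → B) i - (z : ι → B) i‖) μ (𝓝 0) := by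
      simpa using (h₁.mul_const D).add (h₂.const_mul K)
    refine squeeze_zero (fun i => norm_nonneg _) (fun i => ?_) h
    have e : ((w * y : C) : ι → B) i - ((x * z : C) : ι → B) i
        = ((w : ι → B) i - (x : ι → B) i) * (y : ι → B) i
          + (x : ι → B) i * ((y : ι → B) i - (z : ι → B) i) := by
      simp only [MulMemClass.coe_mul, Pi.mul_apply]; noncomm_ring
    rw [e]
    refine (norm_add_le _ _).trans (add_le_add ?_ ?_)
    · exact (norm_mul_le _ _).trans (mul_le_mul_of_nonneg_left (hD i) (norm_nonneg _))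
    · exact (norm_mul_le _ _).trans (mul_le_mul_of_nonneg_right (hK i) (norm_nonneg _))

section Con

variable {μ : Filter ι} {C : StarSubalgebra ℂ (ι → B)} (hC : IsSeqAlg μ C) (c : RingCon C)
  (hc : ∀ x y : C, c x y ↔ Tendsto (fun i => ‖(x : ι → B) i - (y : ι → B) i‖) μ (𝓝 0))

include hC in
lemma nrm_congr (x y : C)
    (h : Tendsto (fun i => ‖(x : ι → B) i - (y : ι → B) i‖) μ (𝓝 0)) :
    nrm μ (x : ι → B) = nrm μ (y : ι → B) := by
  have key : ∀ x y : C, Tendsto (fun i => ‖(x : ι → B) i - (y : ι → B) i‖) μ (𝓝 0) →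
      nrm μ (x : ι → B) ≤ nrm μ (y : ι → B) := by
    intro x y h
    have e : (x : ι → B) = ((x - y : C) : ι → B) + (y : ι → B) := by
      simp
    have h0 : nrm μ ((x - y : C) : ι → B) = 0 := by
      rw [nrm_eq_zero_iff (hC.bdd _ (x - y).2)]
      exact h.congr fun i => by simp
    rw [e]
    refine (nrm_add_le (hC.bdd _ (x - y).2) (hC.bdd _ y.2)).trans ?_
    rw [h0, zero_add]
  refine le_antisymm (key x y h) (key y x (h.congr fun i => norm_sub_rev _ _))

/-- The quotient norm. -/
noncomputable def qnrm (q : c.Quotient) : ℝ := nrm μ ((Quotient.out q : C) : ι → B)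

include hC hc in
lemma qnrm_mk (x : C) : qnrm (μ := μ) c (x : c.Quotient) = nrm μ (x : ι → B) := by
  unfold qnrm
  apply nrm_congr hC
  rw [← hc]
  exact (c.eq).mp (Quotient.out_eq _)

/-- The norm on the quotient as a ring norm. -/
noncomputable def ringNorm : RingNorm c.Quotient where
  toFun := qnrm (μ := μ) c
  map_zero' := by
    change qnrm (μ := μ) c ((0 : C) : c.Quotient) = 0
    rw [qnrm_mk hC c hc, nrm_eq_zero_iff (hC.bdd _ (0 : C).2)]
    simp only [ZeroMemClass.coe_zero, Pi.zero_apply, norm_zero]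
    exact tendsto_const_nhds
  add_le' := by
    rintro ⟨x⟩ ⟨y⟩
    change qnrm (μ := μ) c ((x + y : C) : c.Quotient) ≤ qnrm (μ := μ) c (x : c.Quotient) +
      qnrm (μ := μ) c (y : c.Quotient)
    rw [qnrm_mk hC c hc, qnrm_mk hC c hc, qnrm_mk hC c hc]
    exact nrm_add_le (hC.bdd _ x.2) (hC.bdd _ y.2)
  neg' := by
    rintro ⟨x⟩
    change qnrm (μ := μ) c ((-x : C) : c.Quotient) = qnrm (μ := μ) c (x : c.Quotient)
    rw [qnrm_mk hC c hc, qnrm_mk hC c hc]
    exact nrm_neg _
  mul_le' := by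
    rintro ⟨x⟩ ⟨y⟩
    change qnrm (μ := μ) c ((x * y : C) : c.Quotient) ≤ qnrm (μ := μ) c (x : c.Quotient) *
      qnrm (μ := μ) c (y : c.Quotient)
    rw [qnrm_mk hC c hc, qnrm_mk hC c hc, qnrm_mk hC c hc]
    exact nrm_mul_le (hC.bdd _ x.2) (hC.bdd _ y.2)
  eq_zero_of_map_eq_zero' := by
    rintro ⟨x⟩ h
    change qnrm (μ := μ) c (x : c.Quotient) = 0 at h
    rw [qnrm_mk hC c hc, nrm_eq_zero_iff (hC.bdd _ x.2)] at h
    change (x : c.Quotient) = ((0 : C) : c.Quotient)
    rw [c.eq, hc]
    exact h.congr fun i => by simp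

include hC hc in
/-- Completeness of the quotient. -/
lemma complete_aux : @CompleteSpace c.Quotient
    (ringNorm hC c hc).toNormedRing.toPseudoMetricSpace.toUniformSpace := by
  let _ := (ringNorm hC c hc).toNormedRing
  have hnorm : ∀ x : C, ‖(x : c.Quotient)‖ = nrm μ (x : ι → B) := fun x => qnrm_mk hC c hc x
  refine Metric.complete_of_convergent_controlled_sequences (fun n => (1 / 2) / 2 ^ n)
    (fun n => by positivity) ?_
  intro u hu
  choose x hx using fun n => (Quotient.mk_surjective (s := c.toSetoid) (u n))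
  have hx' : ∀ n, ((x n : C) : c.Quotient) = u n := hx
  have hd : ∀ n, nrm μ ((x (n + 1) - x n : C) : ι → B) < (1 / 2) / 2 ^ n := by
    intro n
    have := hu n (n + 1) n (by omega) le_rfl
    rw [← hx', ← hx', dist_eq_norm] at this
    rw [← hnorm]
    exact this
  have hU : ∀ n, {i | ‖((x (n + 1) - x n : C) : ι → B) i‖ < (1 / 2) / 2 ^ n} ∈ μ := fun n =>
    eventually_lt (hC.bdd _ (x (n + 1) - x n).2) (hd n)
  let e : ℕ → C := fun n => ⟨Set.indicator
    {i | ‖((x (n + 1) - x n : C) : ι → B) i‖ < (1 / 2) / 2 ^ n}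
    ((x (n + 1) - x n : C) : ι → B), hC.cut _ (x (n + 1) - x n).2 _ (hU n)⟩
  have he_bound : ∀ n i, ‖(e n : ι → B) i‖ ≤ (1 / 2) / 2 ^ n := by
    intro n i
    simp only [e]
    by_cases hi : i ∈ {i | ‖((x (n + 1) - x n : C) : ι → B) i‖ < (1 / 2) / 2 ^ n}
    · rw [Set.indicator_of_mem hi]
      exact le_of_lt hi
    · rw [Set.indicator_of_notMem hi, norm_zero]
      positivity
  have he_class : ∀ n, ((e n : C) : c.Quotient) = ((x (n + 1) - x n : C) : c.Quotient) := by
    intro n
    rw [c.eq, hc]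
    refine tendsto_const_nhds.congr' ?_
    filter_upwards [hU n] with i hi
    have hi' : i ∈ {i | ‖((x (n + 1) - x n : C) : ι → B) i‖ < (1 / 2) / 2 ^ n} := hi
    simp only [e]
    rw [Set.indicator_of_mem hi', sub_self, norm_zero]
  let y : ℕ → C := fun n => x 0 + ∑ m ∈ Finset.range n, e m
  have hy_class : ∀ n, ((y n : C) : c.Quotient) = u n := by
    intro n
    rw [← hx']
    induction n with
    | zero => simp [y]
    | succ n ih =>
      have : y (n + 1) = y n + e n := by
        simp only [y]; rw [Finset.sum_range_succ, add_assoc]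
      rw [this, RingCon.coe_add, ih, he_class, ← RingCon.coe_add]
      congr 1
      abel
  have hstep : ∀ i n, dist ((y n : ι → B) i) ((y (n + 1) : ι → B) i) ≤ 1 / 2 / 2 ^ n := by
    intro i n
    have : y (n + 1) = y n + e n := by
      simp only [y]; rw [Finset.sum_range_succ, add_assoc]
    rw [this, dist_comm, dist_eq_norm]
    simpa using he_bound n i
  choose z hz using fun i => cauchySeq_tendsto_of_complete
    (cauchySeq_of_le_geometric_two (hstep i))
  have hzy : ∀ n i, ‖z i - (y n : ι → B) i‖ ≤ 1 / 2 ^ n := by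
    intro n i
    rw [← dist_eq_norm, dist_comm]
    exact dist_le_of_le_geometric_two_of_tendsto (hstep i) (hz i) n
  have hzC : z ∈ C := by
    refine hC.lim z fun ε hε => ?_
    obtain ⟨n, hn⟩ := exists_pow_lt_of_lt_one hε (by norm_num : (1 / 2 : ℝ) < 1)
    refine ⟨y n, (y n).2, fun i => (hzy n i).trans ?_⟩
    rw [one_div_pow] at hn
    exact hn.le
  refine ⟨((⟨z, hzC⟩ : C) : c.Quotient), ?_⟩
  rw [tendsto_iff_norm_sub_tendsto_zero]
  have hb : ∀ n, ‖u n - ((⟨z, hzC⟩ : C) : c.Quotient)‖ ≤ (1 / 2) ^ n := by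
    intro n
    rw [← hy_class n, ← RingCon.coe_sub, hnorm]
    refine nrm_le (by positivity) (Eventually.of_forall fun i => ?_)
    rw [one_div_pow]
    refine le_trans (le_of_eq ?_) (hzy n i)
    rw [norm_sub_rev]; rfl
  exact squeeze_zero (fun n => norm_nonneg _) hb
    (tendsto_pow_atTop_nhds_zero_of_lt_one (by norm_num) (by norm_num))

/-- The C*-algebra structure on the quotient. -/
@[reducible]
noncomputable def cstar (hs : StarRing c.Quotient)
    (hstar : ∀ x : C, star (x : c.Quotient) = ((star x : C) : c.Quotient)) :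
    CStarAlgebra c.Quotient :=
  let N : NormedRing c.Quotient := (ringNorm hC c hc).toNormedRing
  have hnorm : ∀ x : C, ‖(x : c.Quotient)‖ = nrm μ (x : ι → B) := fun x => qnrm_mk hC c hc x
  { N, hs, (inferInstance : Algebra ℂ c.Quotient) with
    complete := (complete_aux hC c hc).complete
    norm_mul_self_le := by
      rintro ⟨x⟩
      change ‖(x : c.Quotient)‖ * ‖(x : c.Quotient)‖ ≤ ‖star (x : c.Quotient) * (x : c.Quotient)‖
      rw [hstar, ← RingCon.coe_mul, hnorm, hnorm]
      exact nrm_sq_le (hC.bdd _ x.2)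
    norm_smul_le := by
      rintro r ⟨x⟩
      change ‖((r • x : C) : c.Quotient)‖ ≤ ‖r‖ * ‖(x : c.Quotient)‖
      rw [hnorm, hnorm]
      exact nrm_smul r (hC.bdd _ x.2)
    star_smul := by
      rintro r ⟨x⟩
      change star ((r • x : C) : c.Quotient) = star r • star (x : c.Quotient)
      rw [hstar, hstar, star_smul]
      rfl }

end Con

end SeqQuot

open SeqQuot

lemma isSeqAlg_centralSeq (A : Type u) [CStarAlgebra A] {ι : Type v} (μ : Filter ι) :
    IsSeqAlg μ (centralSeq A μ) where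
  bdd x hx := hx.1
  cut := by
    rintro x ⟨⟨K, hK⟩, hx⟩ s hs
    refine ⟨⟨K, fun i => ?_⟩, fun a => ?_⟩
    · by_cases hi : i ∈ s
      · rw [Set.indicator_of_mem hi]; exact hK i
      · rw [Set.indicator_of_notMem hi, norm_zero]
        exact (norm_nonneg _).trans (hK i)
    · refine (hx a).congr' ?_
      filter_upwards [hs] with i hi
      rw [Set.indicator_of_mem hi]
  lim := by
    intro x hx
    refine ⟨?_, fun a => ?_⟩
    · obtain ⟨y, ⟨⟨K, hK⟩, -⟩, hy⟩ := hx 1 one_pos
      refine ⟨1 + K, fun i => ?_⟩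
      calc ‖x i‖ = ‖(x i - y i) + y i‖ := by rw [sub_add_cancel]
        _ ≤ 1 + K := (norm_add_le _ _).trans (add_le_add (hy i) (hK i))
    · rw [Metric.tendsto_nhds]
      intro ε hε
      obtain ⟨y, ⟨-, hyc⟩, hy⟩ := hx (ε / (2 * (2 * ‖a‖ + 1))) (by positivity)
      have h1 := (Metric.tendsto_nhds.mp (hyc a)) (ε / 2) (by positivity)
      filter_upwards [h1] with i hi
      rw [dist_zero_right, norm_norm] at hi ⊢
      have e : x i * a - a * x i = (y i * a - a * y i) +
          ((x i - y i) * a - a * (x i - y i)) := by noncomm_ring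
      have h2 : ‖(x i - y i) * a - a * (x i - y i)‖ ≤
          2 * ‖a‖ * (ε / (2 * (2 * ‖a‖ + 1))) := by
        refine (norm_sub_le _ _).trans ?_
        have h3 : ‖(x i - y i) * a‖ ≤ (ε / (2 * (2 * ‖a‖ + 1))) * ‖a‖ :=
          (norm_mul_le _ _).trans (mul_le_mul_of_nonneg_right (hy i) (norm_nonneg _))
        have h4 : ‖a * (x i - y i)‖ ≤ ‖a‖ * (ε / (2 * (2 * ‖a‖ + 1))) :=
          (norm_mul_le _ _).trans (mul_le_mul_of_nonneg_left (hy i) (norm_nonneg _))
        linarith
      have h5 : 2 * ‖a‖ * (ε / (2 * (2 * ‖a‖ + 1))) < ε / 2 := by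
        rw [← sub_pos]
        have : ε / 2 - 2 * ‖a‖ * (ε / (2 * (2 * ‖a‖ + 1))) = ε / (2 * (2 * ‖a‖ + 1)) := by
          field_simp; ring
        rw [this]; positivity
      rw [e]
      exact (norm_add_le _ _).trans_lt (by linarith)

/-- The central sequence algebra is a C*-algebra. -/
noncomputable instance instCStarFcs (A : Type u) [CStarAlgebra A] {ι : Type v} (μ : Filter ι) :
    CStarAlgebra (Fcs A μ) :=
  cstar (isSeqAlg_centralSeq A μ) (nullCon A μ) (fun _ _ => Iff.rfl) inferInstance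
    (fun _ => rfl)

end Vale.Agent.P101
end
end

section

section

/-! The C*-structure on `Fcs A μ` is the instance `instCStarFcs` of `SeqQuot.lean`. -/
end
end

section

section

/-! Algebraic tools: fullness of a set, commuting families of homomorphisms (legs). -/

open scoped BigOperators

namespace Vale.Agent.P101

universe u v

section Full

variable {F : Type u} [Ring F]

/-- `1` lies in the two-sided ideal generated by `S`. -/
def Full (S : Set F) : Prop := (1 : F) ∈ TwoSidedIdeal.span S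

theorem Full.of_sum {S : Set F} {κ : Type v} (s : Finset κ) (l x r : κ → F)
    (hx : ∀ i ∈ s, x i ∈ S) (h : ∑ i ∈ s, l i * x i * r i = 1) : Full S := by
  unfold Full
  rw [← h]
  exact sum_mem fun i hi => TwoSidedIdeal.mul_mem_right _ _ _
    (TwoSidedIdeal.mul_mem_left _ _ _ (TwoSidedIdeal.subset_span (hx i hi)))

theorem Full.exists_sum {S : Set F} (h : Full S) :
    ∃ (n : ℕ) (l x r : Fin n → F), (∀ i, x i ∈ S) ∧ ∑ i, l i * x i * r i = 1 := by
  have key : ∀ y ∈ TwoSidedIdeal.span S,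
      ∃ (n : ℕ) (l x r : Fin n → F), (∀ i, x i ∈ S) ∧ ∑ i, l i * x i * r i = y := by
    intro y hy
    rw [TwoSidedIdeal.mem_span_iff_mem_addSubgroup_closure] at hy
    induction hy using AddSubgroup.closure_induction with
    | mem z hz =>
      obtain ⟨a, s, b, hs, rfl⟩ : ∃ a s b, s ∈ S ∧ a * s * b = z := by
        simpa [Set.mem_mul, and_assoc, and_left_comm] using hz
      exact ⟨1, fun _ => a, fun _ => s, fun _ => b, fun _ => hs, by simp⟩
    | zero => exact ⟨0, Fin.elim0, Fin.elim0, Fin.elim0, fun i => i.elim0, by simp⟩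
    | add z w _ _ hz hw =>
      obtain ⟨n, l, x, r, hx, e⟩ := hz
      obtain ⟨m, l', x', r', hx', e'⟩ := hw
      refine ⟨n + m, Fin.append l l', Fin.append x x', Fin.append r r', ?_, ?_⟩
      · intro i
        refine Fin.addCases (fun i => ?_) (fun i => ?_) i
        · simpa using hx i
        · simpa using hx' i
      · rw [Fin.sum_univ_add]; simp [e, e']
    | neg z _ hz =>
      obtain ⟨n, l, x, r, hx, e⟩ := hz
      exact ⟨n, fun i => - l i, x, r, hx, by simp [← e]⟩
  exact key 1 h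

theorem Full.mem_of {S : Set F} (h : Full S) (I : TwoSidedIdeal F) (hI : ∀ x ∈ S, x ∈ I) :
    (1 : F) ∈ I :=
  TwoSidedIdeal.span_le.2 hI h

theorem Full.of_forall {S : Set F} (h : ∀ I : TwoSidedIdeal F, (∀ x ∈ S, x ∈ I) → (1 : F) ∈ I) :
    Full S :=
  h _ fun _ hx => TwoSidedIdeal.subset_span hx

theorem Full.mono {S T : Set F} (h : Full S) (hST : ∀ x ∈ S, x ∈ TwoSidedIdeal.span T) : Full T :=
  h.mem_of _ hST

theorem Full.map {S : Set F} (h : Full S) {G : Type v} [Ring G] (f : F →+* G) :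
    Full (f '' S) := by
  obtain ⟨n, l, x, r, hx, e⟩ := h.exists_sum
  refine Full.of_sum Finset.univ (fun i => f (l i)) (fun i => f (x i)) (fun i => f (r i))
    (fun i _ => ⟨_, hx i, rfl⟩) ?_
  rw [← map_one f, ← e, map_sum]
  simp

end Full

section Legs

variable {F : Type u} {G : Type v} [Ring F] [StarRing F] [Algebra ℂ F] [Ring G] [StarRing G]
  [Algebra ℂ G] {κ : Type*} [Fintype κ] [dec : DecidableEq κ]

/-- Pairwise commuting unital star-homomorphisms `F → G`, indexed by `κ`. -/
structure Legs (κ : Type*) (F : Type u) (G : Type v) [Ring F] [StarRing F] [Algebra ℂ F]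
    [Ring G] [StarRing G] [Algebra ℂ G] where
  /-- the homomorphisms -/
  σ : κ → F →⋆ₐ[ℂ] G
  comm : ∀ i j, i ≠ j → ∀ x y, Commute (σ i x) (σ j y)

namespace Legs

variable (L : Legs κ F G)

/-- the ordered-irrelevant product `∏ i, σ i (z i)`, as a monoid hom. -/
noncomputable def prodHom : (κ → F) →* G :=
  MonoidHom.noncommPiCoprod (fun i => ((L.σ i : F →⋆ₐ[ℂ] G) : F →* G))
    (fun i j h x y => L.comm i j h x y)

theorem prodHom_mulSingle (i : κ) (a : F) : L.prodHom (Pi.mulSingle i a) = L.σ i a :=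
  MonoidHom.noncommPiCoprod_mulSingle _ _ _

theorem prodHom_update (i : κ) (z : κ → F) (a : F) :
    L.prodHom (Function.update z i a) = L.σ i a * L.prodHom (Function.update z i 1) := by
  have : Function.update z i a = Pi.mulSingle i a * Function.update z i 1 := by
    ext j
    by_cases h : j = i
    · subst h; simp
    · simp [Function.update_of_ne h, Pi.mulSingle_eq_of_ne h]
  rw [this, map_mul, prodHom_mulSingle]

theorem prodHom_update' (i : κ) (z : κ → F) (a : F) :
    L.prodHom (Function.update z i a) = L.prodHom (Function.update z i 1) * L.σ i a := by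
  have : Function.update z i a = Function.update z i 1 * Pi.mulSingle i a := by
    ext j
    by_cases h : j = i
    · subst h; simp
    · simp [Function.update_of_ne h, Pi.mulSingle_eq_of_ne h]
  rw [this, map_mul, prodHom_mulSingle]

/-- `∏ i, σ i (z i)` as a multilinear map. -/
noncomputable def prodMul : MultilinearMap ℂ (fun _ : κ => F) G where
  toFun z := L.prodHom z
  map_update_add' := by
    intro inst z i a b
    obtain rfl : inst = dec := Subsingleton.elim _ _
    rw [L.prodHom_update i z (a + b), L.prodHom_update i z a, L.prodHom_update i z b, map_add,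
      add_mul]
  map_update_smul' := by
    intro inst z i c a
    obtain rfl : inst = dec := Subsingleton.elim _ _
    rw [L.prodHom_update i z (c • a), L.prodHom_update i z a, map_smul, smul_mul_assoc]

omit dec in
@[simp] theorem prodMul_apply (z : κ → F) : L.prodMul z = L.prodHom z := rfl

omit dec in
theorem prodHom_eq_zero (z : κ → F) (i : κ) (h : z i = 0) : L.prodHom z = 0 :=
  L.prodMul.map_coord_zero i h

theorem prodHom_sum {α : κ → Type*} [∀ i, Fintype (α i)] (g : ∀ i, α i → F) :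
    L.prodHom (fun i => ∑ j, g i j) = ∑ r : (∀ i, α i), L.prodHom (fun i => g i (r i)) :=
  L.prodMul.map_sum g

theorem star_prodHom (z : κ → F) : star (L.prodHom z) = L.prodHom (star z) := by
  classical
  have key : ∀ s : Finset κ, ∀ z : κ → F, (∀ i, i ∉ s → z i = 1) →
      star (L.prodHom z) = L.prodHom (star z) := by
    intro s
    induction s using Finset.induction_on with
    | empty =>
      intro z hz
      have : z = 1 := funext fun i => hz i (Finset.notMem_empty i)
      subst this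
      simp
    | insert i s hi ih =>
      intro z hz
      have e1 : z = Function.update z i (z i) := (Function.update_eq_self i z).symm
      have e2 : star z = Function.update (star z) i (star (z i)) := by
        ext j; by_cases h : j = i
        · subst h; simp
        · simp [Function.update_of_ne h]
      have e3 : star (Function.update z i 1) = Function.update (star z) i 1 := by
        ext j; by_cases h : j = i
        · subst h; simp
        · simp [Function.update_of_ne h]
      conv_lhs => rw [e1, L.prodHom_update i z (z i), star_mul]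
      conv_rhs => rw [e2, L.prodHom_update' i (star z) (star (z i))]
      rw [ih (Function.update z i 1), e3, map_star]
      intro j hj
      by_cases h : j = i
      · subst h; simp
      · rw [Function.update_of_ne h]
        exact hz j (by simp [h, hj])
  exact key Finset.univ z (fun i hi => absurd (Finset.mem_univ i) hi)

end Legs

end Legs

end Vale.Agent.P101
end
end

section

section

/-! Data structures passed between the steps. -/

open scoped BigOperators

namespace Vale.Agent.P101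

universe u

/-- A partition of unity `f_s` (hat functions of one self-adjoint element) such that the elements
`f_s b f_t` with `|s - t| ≥ 7` generate the whole algebra as an ideal. -/
structure PartData (F : Type u) [Ring F] where
  M : ℕ
  f : Fin M → F
  comm : ∀ s t, Commute (f s) (f t)
  orth : ∀ s t : Fin M, 2 ≤ |((s : ℕ) : ℤ) - ((t : ℕ) : ℤ)| → f s * f t = 0
  sum_eq : ∑ s, f s = 1
  full : Full {x : F | ∃ (s t : Fin M) (b : F),
    7 ≤ |((s : ℕ) : ℤ) - ((t : ℕ) : ℤ)| ∧ x = f s * b * f t}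

/-- The data carried by one leg. -/
structure LegData (F : Type u) [Ring F] [StarRing F] where
  V : F
  P : F
  β : F
  E : F
  N : ℕ
  d : Fin N → F
  β_sa : star β = β
  E_sa : star E = E
  VV : V * V = 0
  VP : V * P = -(P * V)
  VsP : star V * P = -(P * star V)
  PsP : star P * P = β * β
  PPs : P * star P = β * β
  VsV : star V * V + V * star V = 1 - β * β
  βV : Commute β V
  βP : Commute β P
  Eβ : E * β = 0
  EV : E * V = 0
  VE : star V * V * E = E
  full : ∑ r, star (d r) * (E * E) * d r = 1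

/-- The relations produced by step 7. -/
structure AbsData (F : Type u) [Ring F] [StarRing F] [PartialOrder F] where
  w : F
  S : F
  b : F
  b_sa : star b = b
  ww : w * w = 0
  sum_eq : star w * w + w * star w = 1 - b * b
  bw : Commute b w
  bS : b * S = 0
  SS : star S * S = b * b
  le : b ^ 4 ≤ star S * (star w * w) * S

/-- The Rordam-Winter relations `R_2`. -/
structure RelData (F : Type u) [Ring F] [StarRing F] where
  w : F
  s : F
  ww : w * w = 0
  sum_eq : star w * w + w * star w + star s * s = 1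
  ws : star w * w * s = s

end Vale.Agent.P101
end
end

section

section

/-! Commuting copies of a central sequence algebra in a central sequence algebra over a product
index set. -/

open Filter Topology

namespace Vale.Agent.P101

universe u v

section Pull

variable {A : Type u} [CStarAlgebra A] {ι ι' : Type v} {μ : Filter ι} {μ' : Filter ι'}

/-- pull-back of central sequences along a map of index sets -/
def pullSeq (f : ι' → ι) (hf : Tendsto f μ' μ) : centralSeq A μ →⋆ₐ[ℂ] centralSeq A μ' where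
  toFun x := ⟨fun i => (x : ι → A) (f i), by
    obtain ⟨⟨C, hC⟩, hx⟩ := x.2
    exact ⟨⟨C, fun i => hC (f i)⟩, fun a => (hx a).comp hf⟩⟩
  map_one' := rfl
  map_mul' _ _ := rfl
  map_zero' := rfl
  map_add' _ _ := rfl
  commutes' _ := rfl
  map_star' _ := rfl

/-- pull-back on central sequence algebras -/
noncomputable def pull (f : ι' → ι) (hf : Tendsto f μ' μ) : Fcs A μ →⋆ₐ[ℂ] Fcs A μ' :=
  { (nullCon A μ).liftₐ (((nullCon A μ').mkₐ ℂ).comp
      (pullSeq (A := A) f hf : centralSeq A μ →ₐ[ℂ] centralSeq A μ')) (by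
      intro x y hxy
      have h : Tendsto (fun i => ‖(x : ι → A) i - (y : ι → A) i‖) μ (𝓝 0) := hxy
      refine Quotient.sound (?_ : (nullCon A μ') _ _)
      exact h.comp hf) with
    map_star' := by
      rintro ⟨x⟩
      rfl }

theorem pull_mk (f : ι' → ι) (hf : Tendsto f μ' μ) (x : centralSeq A μ) :
    pull f hf (Quotient.mk'' x : Fcs A μ) = (Quotient.mk'' (pullSeq (A := A) f hf x) : Fcs A μ') :=
  rfl

end Pull

section Curry

variable {A : Type u} [CStarAlgebra A] {ι ι' : Type v} (μ : Filter ι) (μ' : Filter ι')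

theorem tendsto_fst_curry : Tendsto Prod.fst (μ'.curry μ) μ' := by
  intro s hs
  have hs' : ∀ᶠ x in μ', x ∈ s := hs
  exact hs'.mono fun x hx => Filter.Eventually.of_forall fun _ => hx

theorem tendsto_snd_curry : Tendsto Prod.snd (μ'.curry μ) μ := by
  intro s hs
  have hs' : ∀ᶠ x in μ, x ∈ s := hs
  show ∀ᶠ _ in μ', ∀ᶠ y in μ, y ∈ s
  exact Filter.Eventually.of_forall fun _ => hs'

theorem curry_neBot [NeBot μ] [NeBot μ'] : NeBot (μ'.curry μ) := by
  refine ⟨fun h => ?_⟩
  have h1 : ∀ᶠ p : ι' × ι in μ'.curry μ, False := by rw [h]; trivial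
  rw [eventually_curry_iff] at h1
  obtain ⟨x, hx⟩ := h1.exists
  obtain ⟨_, hy⟩ := hx.exists
  exact hy

theorem pull_commute (x : Fcs A μ') (y : Fcs A μ) :
    Commute (pull Prod.fst (tendsto_fst_curry μ μ') x : Fcs A (μ'.curry μ))
      (pull Prod.snd (tendsto_snd_curry μ μ') y) := by
  induction x using Quotient.inductionOn' with
  | h x =>
  induction y using Quotient.inductionOn' with
  | h y =>
  rw [pull_mk, pull_mk]
  refine Quotient.sound (?_ : (nullCon A (μ'.curry μ)) _ _)
  show Tendsto (fun p : ι' × ι => ‖(x : ι' → A) p.1 * (y : ι → A) p.2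
    - (y : ι → A) p.2 * (x : ι' → A) p.1‖) (μ'.curry μ) (𝓝 0)
  refine Filter.Tendsto.curry (f := fun i j => ‖(x : ι' → A) i * (y : ι → A) j
    - (y : ι → A) j * (x : ι' → A) i‖) (Filter.Eventually.of_forall fun i => ?_)
  have := y.2.2 ((x : ι' → A) i)
  simpa only [norm_sub_rev] using this

end Curry

/-- Reindexing of legs. -/
def Legs.reindex {κ κ' : Type*} {F : Type*} {G : Type*} [Ring F] [StarRing F] [Algebra ℂ F]
    [Ring G] [StarRing G] [Algebra ℂ G] (L : Legs κ F G) (e : κ' → κ)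
    (he : Function.Injective e) : Legs κ' F G where
  σ i := L.σ (e i)
  comm i j h := L.comm (e i) (e j) (fun h' => h (he h'))

theorem exists_legs_fin (A : Type u) [CStarAlgebra A] (k : ℕ) (ι : Type)
    (μ : Filter ι) [NeBot μ] :
    ∃ (ι' : Type) (μ' : Filter ι') (_ : NeBot μ'), Nonempty (Legs (Fin k) (Fcs A μ) (Fcs A μ')) := by
  induction k with
  | zero => exact ⟨ι, μ, inferInstance, ⟨⟨fun i => i.elim0, fun i => i.elim0⟩⟩⟩
  | succ k ih =>
    obtain ⟨ι', μ', hμ', ⟨L⟩⟩ := ih
    refine ⟨ι' × ι, μ'.curry μ, curry_neBot μ μ', ⟨⟨fun i => Fin.cases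
      (pull Prod.snd (tendsto_snd_curry μ μ'))
      (fun i => (pull Prod.fst (tendsto_fst_curry μ μ')).comp (L.σ i)) i, ?_⟩⟩⟩
    intro i j
    refine Fin.cases ?_ (fun i => ?_) i
    · refine Fin.cases (fun h => (h rfl).elim) (fun j _ x y => ?_) j
      exact (pull_commute μ μ' (L.σ j y) x).symm
    · refine Fin.cases (fun _ x y => ?_) (fun j h x y => ?_) j
      · exact pull_commute μ μ' (L.σ i x) y
      · have h' : i ≠ j := fun e => h (congrArg Fin.succ e)
        exact (L.comm i j h' x y).map (pull (A := A) Prod.fst (tendsto_fst_curry μ μ'))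

theorem exists_legs (A : Type u) [CStarAlgebra A] (κ : Type) [Fintype κ] (ι : Type)
    (μ : Filter ι) [NeBot μ] :
    ∃ (ι' : Type) (μ' : Filter ι') (_ : NeBot μ'), Nonempty (Legs κ (Fcs A μ) (Fcs A μ')) := by
  obtain ⟨ι', μ', hμ', ⟨L⟩⟩ := exists_legs_fin A (Fintype.card κ) ι μ
  exact ⟨ι', μ', hμ', ⟨L.reindex (Fintype.equivFin κ) (Fintype.equivFin κ).injective⟩⟩

end Vale.Agent.P101
end
end

section

section

/-! Data structures for the general version (`l` modes, gluing). -/

open scoped BigOperators Kronecker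

namespace Vale.Agent.P101

universe u

/-- Block data with `l` commuting modes (`l = 1` is `LegData`). -/
structure ModeData (l : ℕ) (F : Type u) [Ring F] [StarRing F] where
  V : Fin l → F
  P : Fin l → F
  β : F
  E : F
  N : ℕ
  d : Fin N → F
  β_sa : star β = β
  E_sa : star E = E
  VV : ∀ i, V i * V i = 0
  VP : ∀ i, V i * P i = -(P i * V i)
  VsP : ∀ i, star (V i) * P i = -(P i * star (V i))
  PsP : ∀ i, star (P i) * P i = β * β
  PPs : ∀ i, P i * star (P i) = β * β
  VsV : ∀ i, star (V i) * V i + V i * star (V i) = 1 - β * β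
  cVV : ∀ i j, i ≠ j → Commute (V i) (V j)
  cVVs : ∀ i j, i ≠ j → Commute (V i) (star (V j))
  cVP : ∀ i j, i ≠ j → Commute (V i) (P j)
  cVPs : ∀ i j, i ≠ j → Commute (V i) (star (P j))
  cPP : ∀ i j, i ≠ j → Commute (P i) (P j)
  cPPs : ∀ i j, i ≠ j → Commute (P i) (star (P j))
  βV : ∀ i, Commute β (V i)
  βP : ∀ i, Commute β (P i)
  Eβ : E * β = 0
  EV : ∀ i, E * V i = 0
  VE : ∀ i, star (V i) * V i * E = E
  full : ∑ r, star (d r) * (E * E) * d r = 1

/-- Output of the general step 7. `Q` is the product `w 0 * w 1 * ... * w (l-1)`. -/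
structure ModeAbsData (l : ℕ) (F : Type u) [Ring F] [StarRing F] [PartialOrder F] where
  w : Fin l → F
  Q : F
  S : F
  b : F
  b_sa : star b = b
  ww : ∀ i, w i * w i = 0
  sum_eq : ∀ i, star (w i) * w i + w i * star (w i) = 1 - b * b
  comm : ∀ i j, i ≠ j → Commute (w i) (w j)
  comms : ∀ i j, i ≠ j → Commute (w i) (star (w j))
  bw : ∀ i, Commute b (w i)
  Q_eq : Q = (List.ofFn w).prod
  bS : b * S = 0
  le : b ^ (2 * (l + 1)) ≤ star S * (star Q * Q) * S

/-- An order zero system `g` with leftover `z`, and `z` absorbed into the corner `e`, once for each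
index in `γ`. -/
structure GlueData (α γ : Type) [Fintype α] [DecidableEq α] [DecidableEq γ] (F : Type u)
    [Ring F] [StarRing F] where
  g : α → F
  e : F
  z : F
  s : γ → F
  gg : ∀ k l, star (g k) * g l = if k = l then e else 0
  sum_eq : ∑ k, g k * star (g k) = 1 - z
  gz : ∀ k, Commute (g k) z
  ss : ∀ a b, star (s a) * s b = if a = b then z else 0
  es : ∀ a, e * s a = s a

/-- Continuous `f : [0,1] → M_α ⊗ M_β`, equal to some `x ⊗ 1` on `[0,1/3]` and to some `1 ⊗ y` on
`[2/3,1]`. -/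
def glueAlg (α β : Type) [Fintype α] [DecidableEq α] [Fintype β] [DecidableEq β] :
    StarSubalgebra ℂ C(unitInterval, Matrix (α × β) (α × β) ℂ) where
  carrier := {f |
    (∃ x : Matrix α α ℂ, ∀ t : unitInterval, (t : ℝ) ≤ 1 / 3 →
      f t = x ⊗ₖ (1 : Matrix β β ℂ)) ∧
    ∃ y : Matrix β β ℂ, ∀ t : unitInterval, 2 / 3 ≤ (t : ℝ) →
      f t = (1 : Matrix α α ℂ) ⊗ₖ y}
  mul_mem' := by
    rintro f g ⟨⟨x, hx⟩, ⟨y, hy⟩⟩ ⟨⟨x', hx'⟩, ⟨y', hy'⟩⟩
    refine ⟨⟨x * x', fun t ht => ?_⟩, ⟨y * y', fun t ht => ?_⟩⟩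
    · simp [hx t ht, hx' t ht, ← Matrix.mul_kronecker_mul]
    · simp [hy t ht, hy' t ht, ← Matrix.mul_kronecker_mul]
  add_mem' := by
    rintro f g ⟨⟨x, hx⟩, ⟨y, hy⟩⟩ ⟨⟨x', hx'⟩, ⟨y', hy'⟩⟩
    refine ⟨⟨x + x', fun t ht => ?_⟩, ⟨y + y', fun t ht => ?_⟩⟩
    · simp [hx t ht, hx' t ht, Matrix.add_kronecker]
    · simp [hy t ht, hy' t ht, Matrix.kronecker_add]
  algebraMap_mem' := by
    intro r
    refine ⟨⟨r • 1, fun t ht => ?_⟩, ⟨r • 1, fun t ht => ?_⟩⟩
    · rw [Matrix.smul_kronecker, Matrix.one_kronecker_one, Algebra.algebraMap_eq_smul_one]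
      rfl
    · rw [Matrix.kronecker_smul, Matrix.one_kronecker_one, Algebra.algebraMap_eq_smul_one]
      rfl
  star_mem' := by
    rintro f ⟨⟨x, hx⟩, ⟨y, hy⟩⟩
    refine ⟨⟨star x, fun t ht => ?_⟩, ⟨star y, fun t ht => ?_⟩⟩
    · simp [hx t ht, Matrix.star_eq_conjTranspose, Matrix.conjTranspose_kronecker]
    · simp [hy t ht, Matrix.star_eq_conjTranspose, Matrix.conjTranspose_kronecker]

end Vale.Agent.P101
end
end

section

section

/-! Step 1: a C*-algebra without characters is generated, as a two-sided ideal, by commutators. -/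

open scoped BigOperators ComplexStarModule
open Metric

namespace Vale.Agent.P101

universe u v

section Quot

variable {R : Type u} [NormedRing R] [NormedAlgebra ℂ R] (I : Ideal R) [I.IsTwoSided]

/-- norm structure on the quotient of a noncommutative normed ring by a closed two-sided ideal -/
@[reducible] noncomputable def quotNormedRing [IsClosed (I : Set R)] : NormedRing (R ⧸ I) :=
  { Ideal.Quotient.ring I, Submodule.Quotient.normedAddCommGroup I with
    norm_mul_le := fun x y => le_of_forall_pos_le_add fun ε hε => by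
      have := ((nhds_basis_ball.prod_nhds nhds_basis_ball).tendsto_iff nhds_basis_ball).mp
        (continuous_mul.tendsto (‖x‖, ‖y‖)) ε hε
      simp only [Set.mem_prod, mem_ball, and_imp, Prod.forall, Prod.exists] at this
      rcases this with ⟨ε₁, ε₂, ⟨h₁, h₂⟩, h⟩
      obtain ⟨a, rfl, ha⟩ := Submodule.Quotient.norm_mk_lt x h₁
      obtain ⟨b, rfl, hb⟩ := Submodule.Quotient.norm_mk_lt y h₂
      simp only [dist, abs_sub_lt_iff] at h
      have h3 := Submodule.Quotient.norm_mk_le (S := I) a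
      have h4 := Submodule.Quotient.norm_mk_le (S := I) b
      specialize h ‖a‖ ‖b‖ ⟨by linarith, by linarith⟩ ⟨by linarith, by linarith⟩
      calc
        _ ≤ ‖a * b‖ := Submodule.Quotient.norm_mk_le (S := I) (a * b)
        _ ≤ ‖a‖ * ‖b‖ := norm_mul_le a b
        _ ≤ _ := (sub_lt_iff_lt_add'.mp h.1).le }

end Quot

/-- A maximal left ideal of a complex Banach algebra containing all commutators is the kernel of a
character. -/
theorem exists_algHom_of_maximal {F : Type u} [NormedRing F] [NormedAlgebra ℂ F] [CompleteSpace F]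
    (M : Ideal F) [hM : M.IsMaximal] (hc : ∀ a b : F, a * b - b * a ∈ M) :
    Nonempty (F →ₐ[ℂ] ℂ) := by
  have : M.IsTwoSided := ⟨fun {a} b ha => by
    have h1 : a * b = b * a + (a * b - b * a) := by abel
    rw [h1]
    exact M.add_mem (M.mul_mem_left _ ha) (hc a b)⟩
  have : IsClosed (M : Set F) := Ideal.IsMaximal.isClosed
  let _ : NormedRing (F ⧸ M) := quotNormedRing M
  let _ : NormedAlgebra ℂ (F ⧸ M) :=
    { Submodule.Quotient.normedSpace M ℂ, Ideal.Quotient.algebra ℂ with }
  have : CompleteSpace (F ⧸ M) := Submodule.Quotient.completeSpace M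
  have hunit : ∀ {a : F ⧸ M}, IsUnit a ↔ a ≠ 0 := by
    intro a
    obtain ⟨x, rfl⟩ := Ideal.Quotient.mk_surjective a
    have h10 : (1 : F ⧸ M) ≠ 0 := by
      rw [← map_one (Ideal.Quotient.mk M), Ne, Ideal.Quotient.eq_zero_iff_mem]
      exact (Ideal.ne_top_iff_one M).1 hM.ne_top
    constructor
    · rintro ⟨u, hu⟩ h0
      apply h10
      rw [← u.mul_inv, hu, h0, zero_mul]
    · intro h
      have hx : x ∉ M := fun h' => h (Ideal.Quotient.eq_zero_iff_mem.2 h')
      obtain ⟨y, i, hi, e⟩ := hM.exists_inv hx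
      have e1 : Ideal.Quotient.mk M y * Ideal.Quotient.mk M x = 1 := by
        rw [← map_mul, ← map_one (Ideal.Quotient.mk M), ← e, map_add,
          Ideal.Quotient.eq_zero_iff_mem.2 hi, add_zero]
      have e2 : Ideal.Quotient.mk M x * Ideal.Quotient.mk M y = 1 := by
        rw [← e1, ← map_mul, ← map_mul, ← sub_eq_zero, ← map_sub,
          Ideal.Quotient.eq_zero_iff_mem]
        exact hc x y
      exact ⟨⟨_, _, e2, e1⟩, rfl⟩
  let e : ℂ ≃ₐ[ℂ] (F ⧸ M) := NormedRing.algEquivComplexOfComplete (A := F ⧸ M) hunit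
  let f : F →ₐ[ℂ] F ⧸ M := Ideal.Quotient.mkₐ ℂ M
  exact ⟨(e.symm.toAlgHom).comp f⟩

theorem step1 {F : Type u} [CStarAlgebra F] (h : IsEmpty (F →⋆ₐ[ℂ] ℂ)) :
    Full {x : F | ∃ a b : F, IsSelfAdjoint a ∧ x = a * b - b * a} := by
  by_contra hcon
  set S : Set F := {x : F | ∃ a b : F, IsSelfAdjoint a ∧ x = a * b - b * a} with hS
  have hne : (TwoSidedIdeal.span S).asIdeal ≠ ⊤ := by
    rw [Ideal.ne_top_iff_one]
    intro h1
    exact hcon (TwoSidedIdeal.mem_asIdeal.1 h1)
  obtain ⟨M, hM, hle⟩ := Ideal.exists_le_maximal _ hne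
  have hsa : ∀ a b : F, IsSelfAdjoint a → a * b - b * a ∈ M := fun a b ha =>
    hle (TwoSidedIdeal.mem_asIdeal.2 (TwoSidedIdeal.subset_span ⟨a, b, ha, rfl⟩))
  have hc : ∀ a b : F, a * b - b * a ∈ M := by
    intro a b
    have e : a * b - b * a = ((ℜ a : F) * b - b * (ℜ a : F))
        + ((ℑ a : F) * (Complex.I • b) - (Complex.I • b) * (ℑ a : F)) := by
      conv_lhs => rw [← realPart_add_I_smul_imaginaryPart a]
      simp only [add_mul, mul_add, smul_mul_assoc, mul_smul_comm]
      abel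
    rw [e]
    exact M.add_mem (hsa _ _ (ℜ a).2) (hsa _ _ (ℑ a).2)
  obtain ⟨φ⟩ := exists_algHom_of_maximal M hc
  exact h.false { φ with
    map_star' := fun x => WeakDual.Complex.instStarHomClass.map_star φ x }

end Vale.Agent.P101
end
end

section

section

/-! Step 2: from finitely many self-adjoint elements with full commutators to one. -/

open scoped BigOperators

namespace Vale.Agent.P101

universe u v

section Alg

variable {F : Type u} {G : Type v} [CStarAlgebra F] [CStarAlgebra G] {n : ℕ}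

theorem comm_sum_leg {κ : Type*} [Fintype κ] [DecidableEq κ] (L : Legs κ F G) (a : F) (i : κ)
    (b : F) :
    (∑ k, L.σ k a) * L.σ i b = L.σ i b * (∑ k, L.σ k a) + L.σ i (a * b - b * a) := by
  have h : ∑ k, (L.σ k a * L.σ i b - L.σ i b * L.σ k a) = L.σ i (a * b - b * a) := by
    rw [Finset.sum_eq_single i]
    · simp
    · intro k _ hk
      rw [(L.comm k i hk a b).eq, sub_self]
    · intro h; exact absurd (Finset.mem_univ _) h
  rw [Finset.sum_sub_distrib, ← Finset.sum_mul, ← Finset.mul_sum] at h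
  rw [← h]; abel

theorem double_comm {R : Type*} [Ring R] (S Y Y' D D' : R) (h1 : S * Y = Y * S + D)
    (h2 : S * Y' = Y' * S + D') (h4 : D * Y' = Y' * D)
    (h5 : D * D' = D' * D) :
    (S * S * Y - Y * (S * S)) * Y' - Y' * (S * S * Y - Y * (S * S)) = D * D' + D * D' := by
  have e1 : S * S * Y - Y * (S * S) = S * D + D * S := by
    have : S * S * Y = S * (Y * S + D) := by rw [mul_assoc, h1]
    rw [this, mul_add, ← mul_assoc, h1]
    noncomm_ring
  rw [e1]
  have e2 : (S * D + D * S) * Y' = S * (Y' * D) + D * (Y' * S + D') := by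
    rw [add_mul, mul_assoc, mul_assoc, h4, h2]
  rw [e2, ← mul_assoc S Y' D, h2]
  have e3 : D * (Y' * S + D') = Y' * D * S + D * D' := by
    rw [mul_add, ← mul_assoc, h4]
  rw [e3, h5]
  noncomm_ring

/-- The contraction of two different legs lies in the ideal. -/
theorem contraction_mem {κ : Type*} [Fintype κ] [DecidableEq κ] (L : Legs κ F G) (a : Fin n → F)
    (I : TwoSidedIdeal G)
    (hI : ∀ y, (∑ j, (∑ i, L.σ i (a j)) * (∑ i, L.σ i (a j))) * y
      - y * (∑ j, (∑ i, L.σ i (a j)) * (∑ i, L.σ i (a j))) ∈ I)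
    (i l : κ) (hil : i ≠ l) (b b' : F) :
    ∑ c, L.σ i (a c * b - b * a c) * L.σ l (a c * b' - b' * a c) ∈ I := by
  set q := ∑ j, (∑ i, L.σ i (a j)) * (∑ i, L.σ i (a j)) with hq
  have h1 : (q * L.σ i b - L.σ i b * q) * L.σ l b' - L.σ l b' * (q * L.σ i b - L.σ i b * q)
      ∈ I :=
    I.sub_mem (I.mul_mem_right _ _ (hI _)) (I.mul_mem_left _ _ (hI _))
  have h2 : (q * L.σ i b - L.σ i b * q) * L.σ l b' - L.σ l b' * (q * L.σ i b - L.σ i b * q)
      = ∑ c, (L.σ i (a c * b - b * a c) * L.σ l (a c * b' - b' * a c)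
        + L.σ i (a c * b - b * a c) * L.σ l (a c * b' - b' * a c)) := by
    have e1 : q * L.σ i b - L.σ i b * q = ∑ c, ((∑ k, L.σ k (a c)) * (∑ k, L.σ k (a c)) * L.σ i b
        - L.σ i b * ((∑ k, L.σ k (a c)) * (∑ k, L.σ k (a c)))) := by
      rw [hq, Finset.sum_mul, Finset.mul_sum, ← Finset.sum_sub_distrib]
    rw [e1, Finset.sum_mul, Finset.mul_sum, ← Finset.sum_sub_distrib]
    refine Finset.sum_congr rfl fun c _ => ?_
    exact double_comm _ _ _ _ _ (comm_sum_leg L (a c) i b) (comm_sum_leg L (a c) l b')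
      (L.comm i l hil _ b').eq (L.comm i l hil _ _).eq
  rw [h2, Finset.sum_add_distrib] at h1
  have h3 := I.mul_mem_left ((2⁻¹ : ℂ) • (1 : G)) _ h1
  rwa [smul_mul_assoc, one_mul, ← two_smul ℂ (∑ c, L.σ i (a c * b - b * a c)
    * L.σ l (a c * b' - b' * a c)), smul_smul, inv_mul_cancel₀ two_ne_zero, one_smul] at h3

/-- The commutator vectors. -/
def cv (a : Fin n → F) (b : Fin (n + 1) → F) (i : Fin (n + 1)) (c : Fin n) : F :=
  a c * b i - b i * a c

theorem cv_star (a : Fin n → F) (ha : ∀ j, IsSelfAdjoint (a j)) (b : Fin (n + 1) → F)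
    (i : Fin (n + 1)) (c : Fin n) :
    star (cv a b i c) = a c * (-star (b i)) - (-star (b i)) * a c := by
  simp only [cv, star_sub, star_mul, (ha c).star_eq]
  noncomm_ring

/-- The off-diagonal terms of the antisymmetrizer lie in the ideal. -/
theorem perm_term_mem (L : Legs (Fin (n + 1)) F G) (a : Fin n → F)
    (ha : ∀ j, IsSelfAdjoint (a j)) (I : TwoSidedIdeal G)
    (hI : ∀ y, (∑ j, (∑ i, L.σ i (a j)) * (∑ i, L.σ i (a j))) * y
      - y * (∑ j, (∑ i, L.σ i (a j)) * (∑ i, L.σ i (a j))) ∈ I)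
    (b : Fin (n + 1) → F) (π : Equiv.Perm (Fin (n + 1))) (hπ : π ≠ 1) :
    ∑ j : Fin (n + 1) → Fin n,
      L.prodHom (fun i => star (cv a b i (j i)) * cv a b i (j (π i))) ∈ I := by
  obtain ⟨i, hi⟩ : ∃ i, π i ≠ i := by
    by_contra hcon
    push Not at hcon
    exact hπ (Equiv.ext hcon)
  set l := π i with hl
  have hπl : π l ≠ l := fun h => hi (π.injective (by rw [h]))
  rw [← Equiv.sum_comp (Equiv.funSplitAt l (Fin n)).symm, Fintype.sum_prod_type_right]
  refine sum_mem fun j' _ => ?_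
  -- the common index function away from `l`
  let J : Fin n → Fin (n + 1) → Fin n := fun c => (Equiv.funSplitAt l (Fin n)).symm (c, j')
  have hJl : ∀ c, J c l = c := fun c => by simp [J, Equiv.funSplitAt, Equiv.piSplitAt]
  have hJne : ∀ c k (hk : k ≠ l), J c k = j' ⟨k, hk⟩ := fun c k hk => by
    simp [J, Equiv.funSplitAt, Equiv.piSplitAt, hk]
  have hne : i ≠ l := Ne.symm hi
  let A : Fin (n + 1) → F := fun k =>
    if hk : k = l then 1 else
      if k = i then star (cv a b k (j' ⟨k, hk⟩)) else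
        if hπk : π k = l then 1 else star (cv a b k (j' ⟨k, hk⟩)) * cv a b k (j' ⟨π k, hπk⟩)
  let B : Fin (n + 1) → F := Pi.mulSingle l (cv a b l (j' ⟨π l, hπl⟩))
  have hz : ∀ c, L.prodHom (fun k => star (cv a b k (J c k)) * cv a b k (J c (π k)))
      = L.prodHom A * (L.σ i (cv a b i c) * L.σ l (star (cv a b l c))) * L.prodHom B := by
    intro c
    have e : (fun k => star (cv a b k (J c k)) * cv a b k (J c (π k)))
        = A * (Pi.mulSingle i (cv a b i c) * Pi.mulSingle l (star (cv a b l c))) * B := by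
      funext k
      simp only [Pi.mul_apply]
      by_cases hk : k = l
      · subst hk
        rw [hJl, hJne c _ hπl]
        simp [A, B, Pi.mulSingle_eq_of_ne hi]
      · by_cases hki : k = i
        · subst hki
          rw [hJne c k hk, ← hl, hJl]
          simp [A, B, hk, Pi.mulSingle_eq_of_ne hk]
        · have hπk : π k ≠ l := fun h => hki (π.injective (by rw [h]))
          rw [hJne c k hk, hJne c _ hπk]
          simp [A, B, hk, hki, hπk, Pi.mulSingle_eq_of_ne hk, Pi.mulSingle_eq_of_ne hki]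
    rw [e, map_mul, map_mul, map_mul, L.prodHom_mulSingle, L.prodHom_mulSingle]
  have hgoal : ∑ c, L.prodHom (fun k => star (cv a b k (J c k)) * cv a b k (J c (π k)))
      = L.prodHom A * (∑ c, L.σ i (a c * b i - b i * a c)
        * L.σ l (a c * (-star (b l)) - (-star (b l)) * a c)) * L.prodHom B := by
    rw [Finset.mul_sum, Finset.sum_mul]
    refine Finset.sum_congr rfl fun c _ => ?_
    rw [hz c, cv_star a ha b l c]
    rfl
  exact hgoal ▸ I.mul_mem_right _ _ (I.mul_mem_left _ _
    (contraction_mem L a I hI i l hne _ _))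

/-- The alternating sum over permutations vanishes for each index function. -/
theorem alt_sum_eq_zero (L : Legs (Fin (n + 1)) F G) (a : Fin n → F) (b : Fin (n + 1) → F)
    (j : Fin (n + 1) → Fin n) :
    ∑ π : Equiv.Perm (Fin (n + 1)), ((Equiv.Perm.sign π : ℤˣ) : ℤ) •
      L.prodHom (fun i => cv a b i (j (π i))) = 0 := by
  obtain ⟨p, q, hpq, hj⟩ : ∃ p q, p ≠ q ∧ j p = j q := by
    obtain ⟨p, q, hpq, h⟩ := Fintype.exists_ne_map_eq_of_card_lt j (by simp)
    exact ⟨p, q, hpq, h⟩
  set Sg := ∑ π : Equiv.Perm (Fin (n + 1)), ((Equiv.Perm.sign π : ℤˣ) : ℤ) •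
      L.prodHom (fun i => cv a b i (j (π i))) with hSg
  have h1 : Sg = -Sg := by
    conv_lhs => rw [hSg, ← Equiv.sum_comp (Equiv.mulLeft (Equiv.swap p q))]
    rw [hSg, ← Finset.sum_neg_distrib]
    refine Finset.sum_congr rfl fun π _ => ?_
    have h2 : ∀ k, j ((Equiv.mulLeft (Equiv.swap p q) π) k) = j (π k) := by
      intro k
      simp only [Equiv.coe_mulLeft, Equiv.Perm.coe_mul, Function.comp_apply]
      by_cases hkp : π k = p
      · rw [hkp, Equiv.swap_apply_left, hj]
      · by_cases hkq : π k = q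
        · rw [hkq, Equiv.swap_apply_right, hj]
        · rw [Equiv.swap_apply_of_ne_of_ne hkp hkq]
    simp only [h2]
    simp [Equiv.Perm.sign_swap hpq]
  have h3 : (2 : ℂ) • Sg = 0 := by
    rw [two_smul]
    nth_rewrite 1 [h1]
    exact neg_add_cancel _
  exact (smul_eq_zero.1 h3).resolve_left two_ne_zero

/-- The Gram element. -/
def gram (a : Fin n → F) (b : F) : F := ∑ c, star (a c * b - b * a c) * (a c * b - b * a c)

theorem prod_gram_mem (L : Legs (Fin (n + 1)) F G) (a : Fin n → F)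
    (ha : ∀ j, IsSelfAdjoint (a j)) (I : TwoSidedIdeal G)
    (hI : ∀ y, (∑ j, (∑ i, L.σ i (a j)) * (∑ i, L.σ i (a j))) * y
      - y * (∑ j, (∑ i, L.σ i (a j)) * (∑ i, L.σ i (a j))) ∈ I)
    (b : Fin (n + 1) → F) :
    L.prodHom (fun i => gram a (b i)) ∈ I := by
  have h0 : (0 : G) = ∑ π : Equiv.Perm (Fin (n + 1)), ((Equiv.Perm.sign π : ℤˣ) : ℤ) •
      ∑ j : Fin (n + 1) → Fin n,
        L.prodHom (fun i => star (cv a b i (j i)) * cv a b i (j (π i))) := by
    have e1 : ∀ j : Fin (n + 1) → Fin n,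
        star (L.prodHom (fun i => cv a b i (j i))) *
        ∑ π : Equiv.Perm (Fin (n + 1)), ((Equiv.Perm.sign π : ℤˣ) : ℤ) •
          L.prodHom (fun i => cv a b i (j (π i))) = 0 := fun j => by
      rw [alt_sum_eq_zero L a b j, mul_zero]
    have e2 : (0 : G) = ∑ j : Fin (n + 1) → Fin n,
        star (L.prodHom (fun i => cv a b i (j i))) *
        ∑ π : Equiv.Perm (Fin (n + 1)), ((Equiv.Perm.sign π : ℤˣ) : ℤ) •
          L.prodHom (fun i => cv a b i (j (π i))) := by
      simp only [e1, Finset.sum_const_zero]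
    rw [e2]
    simp only [Finset.mul_sum, Finset.smul_sum]
    rw [Finset.sum_comm]
    refine Finset.sum_congr rfl fun π _ => Finset.sum_congr rfl fun j _ => ?_
    rw [mul_smul_comm, L.star_prodHom, ← map_mul]
    rfl
  rw [Fintype.sum_eq_add_sum_compl (1 : Equiv.Perm (Fin (n + 1)))] at h0
  have h1 : L.prodHom (fun i => gram a (b i)) = ∑ j : Fin (n + 1) → Fin n,
        L.prodHom (fun i => star (cv a b i (j i)) * cv a b i (j i)) := by
    rw [← L.prodHom_sum (α := fun _ => Fin n) (fun i c => star (cv a b i c) * cv a b i c)]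
    rfl
  have h2 : L.prodHom (fun i => gram a (b i)) = - ∑ π ∈ ({1} : Finset (Equiv.Perm (Fin (n + 1))))ᶜ,
      ((Equiv.Perm.sign π : ℤˣ) : ℤ) •
      ∑ j : Fin (n + 1) → Fin n,
        L.prodHom (fun i => star (cv a b i (j i)) * cv a b i (j (π i))) := by
    rw [eq_neg_iff_add_eq_zero, h0, h1]
    simp
  rw [h2]
  refine I.neg_mem (sum_mem fun π hπ => ?_)
  have hπ1 : π ≠ 1 := by simpa using hπ
  exact zsmul_mem (perm_term_mem L a ha I hI b π hπ1) _

end Alg

section CStar

variable {F : Type u} [CStarAlgebra F]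

open scoped ComplexOrder in
/-- If `∑ l_r u_r = 1` then `∑ u_r⋆ u_r` dominates a positive multiple of one; with any family of
positive elements dominating `u_r⋆ u_r` the sum is invertible. -/
theorem isUnit_sum_of_sum_eq_one {m : ℕ} (l u z : Fin m → F) (h : ∑ r, l r * u r = 1)
    (hz : ∀ r, ∃ w : ℕ, ∃ t : Fin w → F, z r = star (u r) * u r + ∑ k, star (t k) * t k) :
    IsUnit (∑ r, z r) := by
  let _ := CStarAlgebra.spectralOrder F
  have _ := CStarAlgebra.spectralOrderedRing F
  rcases subsingleton_or_nontrivial F with hs | hn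
  · exact isUnit_of_subsingleton _
  -- `1 ≤ C ∑ u⋆u`
  have hpos : ∀ x : F, 0 ≤ star x * x := fun x => star_mul_self_nonneg x
  have key : ∀ (s : Finset (Fin m)) (x : Fin m → F),
      star (∑ r ∈ s, x r) * (∑ r ∈ s, x r) ≤ ((2 : ℝ) ^ s.card) • ∑ r ∈ s, star (x r) * x r := by
    intro s x
    induction s using Finset.induction_on with
    | empty => simp
    | insert r s hr ih =>
      rw [Finset.sum_insert hr, Finset.sum_insert hr, Finset.card_insert_of_notMem hr]
      set X := x r
      set Y := ∑ r ∈ s, x r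
      set W := ∑ r ∈ s, star (x r) * x r
      have h1 : star (X + Y) * (X + Y) ≤ (2 : ℝ) • (star X * X) + (2 : ℝ) • (star Y * Y) := by
        have h2 := hpos (X - Y)
        have h3 : (2 : ℝ) • (star X * X) + (2 : ℝ) • (star Y * Y)
            = star (X + Y) * (X + Y) + star (X - Y) * (X - Y) := by
          rw [two_smul, two_smul, star_add, star_sub]; noncomm_ring
        rw [h3]
        exact le_add_of_nonneg_right h2
      refine h1.trans ?_
      rw [pow_succ, smul_add]
      refine add_le_add ?_ ?_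
      · have h4 : (1 : ℝ) ≤ 2 ^ s.card := one_le_pow₀ (by norm_num)
        have h5 : (2 : ℝ) ≤ 2 ^ s.card * 2 := by linarith
        exact smul_le_smul_of_nonneg_right h5 (hpos X)
      · rw [mul_comm, mul_smul]
        exact smul_le_smul_of_nonneg_left ih (by norm_num)
  have h1 : (1 : F) ≤ ((2 : ℝ) ^ m) • ∑ r, star (l r * u r) * (l r * u r) := by
    have := key Finset.univ (fun r => l r * u r)
    rw [h] at this
    simpa using this
  have h2 : ∀ r, star (l r * u r) * (l r * u r) ≤ ‖star (l r) * l r‖ • z r := by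
    intro r
    have h3 : star (l r * u r) * (l r * u r) = star (u r) * (star (l r) * l r) * u r := by
      rw [star_mul]; simp only [mul_assoc]
    rw [h3]
    refine (CStarAlgebra.star_left_conjugate_le_norm_smul
      (hb := IsSelfAdjoint.star_mul_self (l r))).trans ?_
    refine smul_le_smul_of_nonneg_left ?_ (norm_nonneg _)
    obtain ⟨w, t, ht⟩ := hz r
    rw [ht]
    exact le_add_of_nonneg_right (Finset.sum_nonneg fun k _ => hpos _)
  have hznn : ∀ r, 0 ≤ z r := by
    intro r
    obtain ⟨w, t, ht⟩ := hz r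
    rw [ht]
    exact add_nonneg (hpos _) (Finset.sum_nonneg fun k _ => hpos _)
  obtain ⟨C, hC0, hC⟩ : ∃ C : ℝ, 0 < C ∧ ∀ r, ‖star (l r) * l r‖ ≤ C := by
    refine ⟨1 + ∑ r, ‖star (l r) * l r‖, by positivity, fun r => ?_⟩
    have := Finset.single_le_sum (f := fun r => ‖star (l r) * l r‖)
      (fun i _ => norm_nonneg _) (Finset.mem_univ r)
    linarith
  have h3 : (1 : F) ≤ ((2 : ℝ) ^ m * C) • ∑ r, z r := by
    refine h1.trans ?_
    rw [mul_smul]
    refine smul_le_smul_of_nonneg_left ?_ (by positivity)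
    rw [Finset.smul_sum]
    exact Finset.sum_le_sum fun r _ => (h2 r).trans (smul_le_smul_of_nonneg_right (hC r) (hznn r))
  have h4 : IsUnit (((2 : ℝ) ^ m * C) • ∑ r, z r) :=
    CStarAlgebra.isUnit_of_le 1 h3 ⟨zero_le_one, isUnit_one⟩
  have h5 : ((2 : ℝ) ^ m * C) ≠ 0 := by positivity
  have h6 := (isUnit_smul_iff (Units.mk0 _ h5) (∑ r, z r)).1 (by simpa [Units.smul_def] using h4)
  exact h6

end CStar

theorem step2 {F : Type u} {G : Type v} [CStarAlgebra F] [CStarAlgebra G] (n : ℕ) (a : Fin n → F)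
    (ha : ∀ j, IsSelfAdjoint (a j)) (hfull : Full {x : F | ∃ j b, x = a j * b - b * a j})
    (L : Legs (Fin (n + 1)) F G) :
    ∃ q : G, IsSelfAdjoint q ∧ Full {x : G | ∃ y, x = q * y - y * q} := by
  refine ⟨∑ j, (∑ i, L.σ i (a j)) * (∑ i, L.σ i (a j)), ?_, ?_⟩
  · rw [IsSelfAdjoint, star_sum]
    refine Finset.sum_congr rfl fun j _ => ?_
    rw [star_mul, star_sum]
    simp only [← map_star, (ha j).star_eq]
  · refine Full.of_forall fun I hI => ?_
    have hI' : ∀ y, (∑ j, (∑ i, L.σ i (a j)) * (∑ i, L.σ i (a j))) * y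
      - y * (∑ j, (∑ i, L.σ i (a j)) * (∑ i, L.σ i (a j))) ∈ I := fun y => hI _ ⟨y, rfl⟩
    obtain ⟨m, l, x, r, hx, e⟩ := hfull.exists_sum
    choose j b hjb using hx
    have hu : IsUnit (∑ k, star (r k) * gram a (b k) * r k) := by
      refine isUnit_sum_of_sum_eq_one l (fun k => x k * r k) _ (by simpa only [mul_assoc] using e)
        fun k => ?_
      refine ⟨n, fun c => if c = j k then 0 else (a c * b k - b k * a c) * r k, ?_⟩
      rw [gram, Finset.mul_sum, Finset.sum_mul, ← Finset.add_sum_erase _ _ (Finset.mem_univ (j k)),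
        ← Finset.add_sum_erase Finset.univ (fun c => star (if c = j k then 0 else
          (a c * b k - b k * a c) * r k) * (if c = j k then 0 else
          (a c * b k - b k * a c) * r k)) (Finset.mem_univ (j k))]
      simp only [if_true, star_zero, zero_mul, zero_add]
      congr 1
      · rw [hjb, star_mul]; simp only [mul_assoc]
      · refine Finset.sum_congr rfl fun c hc => ?_
        rw [if_neg (Finset.ne_of_mem_erase hc), star_mul]; simp only [mul_assoc]
    have hmem : L.prodHom (fun _ => ∑ k, star (r k) * gram a (b k) * r k) ∈ I := by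
      rw [L.prodHom_sum (α := fun _ => Fin m) (fun _ k => star (r k) * gram a (b k) * r k)]
      refine sum_mem fun ρ _ => ?_
      have e2 : (fun i => star (r (ρ i)) * gram a (b (ρ i)) * r (ρ i))
          = (fun i => star (r (ρ i))) * (fun i => gram a (b (ρ i))) * (fun i => r (ρ i)) := rfl
      rw [e2, map_mul, map_mul]
      exact I.mul_mem_right _ _ (I.mul_mem_left _ _
        (prod_gram_mem L a ha I hI' (fun i => b (ρ i))))
    have hu2 : IsUnit (L.prodHom (fun _ => ∑ k, star (r k) * gram a (b k) * r k)) :=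
      (Pi.isUnit_iff.2 fun _ => hu).map L.prodHom
    obtain ⟨w, hw⟩ := hu2
    have := I.mul_mem_left (↑w⁻¹ : G) _ hmem
    rwa [← hw, Units.inv_mul] at this

end Vale.Agent.P101
end
end

section

section

/-! Step 3: hat functions of a self-adjoint element. -/

open scoped BigOperators

namespace Vale.Agent.P101

universe u

namespace Step3

/-- Hat function with peak at `k`. -/
noncomputable def hat (k : ℕ) (v : ℝ) : ℝ := max 0 (1 - |v - k|)

/-- Clamp to `[0,1]`. -/
noncomputable def clamp (t : ℝ) : ℝ := max 0 (min 1 t)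

lemma continuous_hat (k : ℕ) : Continuous (hat k) := by
  unfold hat; fun_prop

lemma hat_nonneg (k : ℕ) (v : ℝ) : 0 ≤ hat k v := le_max_left _ _

lemma hat_le_one (k : ℕ) (v : ℝ) : hat k v ≤ 1 := by
  unfold hat
  apply max_le zero_le_one
  linarith [abs_nonneg (v - k)]

lemma hat_mul_hat (s t : ℕ) (h : 2 ≤ |(s : ℤ) - (t : ℤ)|) (v : ℝ) : hat s v * hat t v = 0 := by
  have h' : (2 : ℝ) ≤ |(s : ℝ) - t| := by
    have : ((2 : ℤ) : ℝ) ≤ ((|(s : ℤ) - (t : ℤ)| : ℤ) : ℝ) := by exact_mod_cast h
    simpa using this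
  unfold hat
  by_cases h1 : 1 ≤ |v - s|
  · rw [max_eq_left (by linarith), zero_mul]
  · have h2 : 1 ≤ |v - t| := by
      push Not at h1
      have : |(s : ℝ) - t| ≤ |v - s| + |v - t| := by
        have := abs_sub_le (s : ℝ) v t
        rwa [abs_sub_comm (s : ℝ) v] at this
      linarith
    rw [max_eq_left (a := 0) (b := 1 - |v - t|) (by linarith), mul_zero]

lemma hat_succ (K : ℕ) (v : ℝ) : hat (K + 1) v = clamp (v - K) - clamp (v - (K + 1)) := by
  unfold hat clamp
  push_cast
  rcases le_total (v - (K + 1)) 0 with h | h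
  · rw [abs_of_nonpos h, min_eq_right (by linarith : v - K ≤ 1),
      min_eq_right (by linarith : v - ((K : ℝ) + 1) ≤ 1), max_eq_left h]
    rw [sub_zero]
    congr 1
    ring
  · rw [abs_of_nonneg h, min_eq_left (by linarith : 1 ≤ v - K), max_eq_right (zero_le_one)]
    rcases le_total (v - ((K : ℝ) + 1)) 1 with h' | h'
    · rw [min_eq_right h', max_eq_right h, max_eq_right (by linarith)]
    · rw [min_eq_left h', max_eq_right (zero_le_one), max_eq_left (by linarith)]
      ring

lemma sum_hat (K : ℕ) (v : ℝ) (h0 : 0 ≤ v) :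
    ∑ k ∈ Finset.range (K + 1), hat k v = 1 - clamp (v - K) := by
  induction K with
  | zero =>
    simp only [zero_add, Finset.range_one, Finset.sum_singleton]
    unfold hat clamp
    simp only [Nat.cast_zero, sub_zero]
    rw [abs_of_nonneg h0]
    rcases le_total v 1 with h | h
    · rw [max_eq_right (by linarith), min_eq_right h, max_eq_right h0]
    · rw [max_eq_left (by linarith), min_eq_left h, max_eq_right zero_le_one]
      ring
  | succ K ih =>
    rw [Finset.sum_range_succ, ih, hat_succ]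
    push_cast
    ring

lemma sum_mul_hat (K : ℕ) (v : ℝ) (h0 : 0 ≤ v) :
    ∑ k ∈ Finset.range (K + 1), (k : ℝ) * hat k v = min (K : ℝ) v - K * clamp (v - K) := by
  induction K with
  | zero => simp [h0]
  | succ K ih =>
    rw [Finset.sum_range_succ, ih, hat_succ]
    push_cast
    have : min ((K : ℝ) + 1) v = min (K : ℝ) v + clamp (v - K) := by
      unfold clamp
      rcases le_total v K with h | h
      · rw [min_eq_right h, min_eq_right (by linarith), min_eq_right (by linarith),
          max_eq_left (by linarith)]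
        ring
      · rw [min_eq_left h]
        rcases le_total (v - K) 1 with h' | h'
        · rw [min_eq_right h', max_eq_right (by linarith), min_eq_right (by linarith)]
          ring
        · rw [min_eq_left h', max_eq_right zero_le_one, min_eq_left (by linarith)]
    rw [this]
    ring

lemma clamp_of_nonpos {t : ℝ} (h : t ≤ 0) : clamp t = 0 := by
  unfold clamp
  rw [min_eq_right (by linarith), max_eq_left h]

lemma sum_hat_eq_one (K : ℕ) (v : ℝ) (h0 : 0 ≤ v) (h1 : v ≤ K) :
    ∑ k : Fin (K + 1), hat k v = 1 := by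
  rw [Fin.sum_univ_eq_sum_range (fun k => hat k v), sum_hat K v h0,
    clamp_of_nonpos (by linarith)]
  ring

lemma sum_mul_hat_eq (K : ℕ) (v : ℝ) (h0 : 0 ≤ v) (h1 : v ≤ K) :
    ∑ k : Fin (K + 1), ((k : ℕ) : ℝ) * hat k v = v := by
  rw [Fin.sum_univ_eq_sum_range (fun k => (k : ℝ) * hat k v), sum_mul_hat K v h0,
    clamp_of_nonpos (by linarith), min_eq_right h1]
  ring

/-- Row/column Cauchy-Schwarz. -/
lemma norm_sum_mul_le {F : Type u} [CStarAlgebra F] {ι : Type*} [Fintype ι] (u v : ι → F) :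
    ‖∑ i, u i * v i‖ ≤ Real.sqrt ‖∑ i, u i * star (u i)‖ * Real.sqrt ‖∑ i, star (v i) * v i‖ := by
  let _ : PartialOrder F := CStarAlgebra.spectralOrder F
  have _ : StarOrderedRing F := CStarAlgebra.spectralOrderedRing F
  have h := CStarModule.norm_inner_le (A := F) (E := WithCStarModule F (ι → F))
    (x := (WithCStarModule.equiv F (ι → F)).symm (fun i => star (v i)))
    (y := (WithCStarModule.equiv F (ι → F)).symm u)
  rw [WithCStarModule.pi_inner, WithCStarModule.pi_norm, WithCStarModule.pi_norm] at h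
  simp only [WithCStarModule.equiv_symm_pi_apply, WithCStarModule.inner_def, star_star] at h
  rw [mul_comm]
  exact h

/-- The band indicator. -/
noncomputable def chi {M : ℕ} (p : Fin M × Fin M) : ℝ :=
  if |((p.1 : ℕ) : ℤ) - ((p.2 : ℕ) : ℤ)| ≤ 6 then 1 else 0

/-- The band coefficient. -/
noncomputable def coe {M : ℕ} (p : Fin M × Fin M) : ℝ := ((p.1 : ℕ) : ℝ) - ((p.2 : ℕ) : ℝ)

lemma chi_symm {M : ℕ} (s t : Fin M) : chi (s, t) = chi (t, s) := by
  unfold chi; simp only [abs_sub_comm]

lemma sum_chi_le {M : ℕ} (s : Fin M) : ∑ t, chi (s, t) ≤ 13 := by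
  classical
  unfold chi
  rw [Finset.sum_ite, Finset.sum_const_zero, add_zero, Finset.sum_const, nsmul_eq_mul, mul_one]
  have : (Finset.univ.filter
      (fun t : Fin M => |((s : ℕ) : ℤ) - ((t : ℕ) : ℤ)| ≤ 6)).card ≤
      (Finset.Icc (((s : ℕ) : ℤ) - 6) (((s : ℕ) : ℤ) + 6)).card := by
    apply Finset.card_le_card_of_injOn (fun t : Fin M => ((t : ℕ) : ℤ))
    · intro t ht
      simp only [Finset.coe_filter, Finset.mem_univ, true_and, Set.mem_ofPred_eq] at ht
      simp only [Finset.coe_Icc, Set.mem_Icc]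
      rw [abs_le] at ht
      constructor <;> linarith [ht.1, ht.2]
    · intro t _ t' _ h
      apply Fin.ext
      have h' : ((t : ℕ) : ℤ) = ((t' : ℕ) : ℤ) := h
      exact_mod_cast h'
  have h13 : (Finset.Icc (((s : ℕ) : ℤ) - 6) (((s : ℕ) : ℤ) + 6)).card = 13 := by
    rw [Int.card_Icc]
    have : ((s : ℕ) : ℤ) + 6 + 1 - (((s : ℕ) : ℤ) - 6) = 13 := by ring
    rw [this]; rfl
  rw [h13] at this
  exact_mod_cast this

lemma chi_mul_coe_sq_le {M : ℕ} (p : Fin M × Fin M) : (chi p * coe p) ^ 2 ≤ 36 * chi p := by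
  unfold chi coe
  split_ifs with h
  · have h' : |((p.1 : ℕ) : ℝ) - ((p.2 : ℕ) : ℝ)| ≤ 6 := by
      have : ((|((p.1 : ℕ) : ℤ) - ((p.2 : ℕ) : ℤ)| : ℤ) : ℝ) ≤ ((6 : ℤ) : ℝ) := by
        exact_mod_cast h
      simpa using this
    have := abs_le.mp h'
    linarith only [sq_le_sq' this.1 this.2]
  · simp

lemma sum_weight_le {M : ℕ} (W : Fin M × Fin M → ℝ) (hW : ∀ p, 0 ≤ W p) {B : ℝ}
    (hB : ∀ s, ∑ t, W (s, t) ≤ B) (H : Fin M → ℝ) (h0 : ∀ s, 0 ≤ H s) (h1 : ∀ s, H s ≤ 1)
    (hs : ∑ s, H s = 1) : ∑ p : Fin M × Fin M, W p * (H p.1 * H p.1) ≤ B := by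
  rw [Fintype.sum_prod_type]
  calc ∑ s, ∑ t, W (s, t) * (H s * H s) = ∑ s, (∑ t, W (s, t)) * (H s * H s) := by
        simp only [Finset.sum_mul]
    _ ≤ ∑ s, (∑ t, W (s, t)) * H s := by
        apply Finset.sum_le_sum
        intro s _
        apply mul_le_mul_of_nonneg_left _ (Finset.sum_nonneg fun t _ => hW _)
        exact mul_le_of_le_one_left (h0 s) (h1 s)
    _ ≤ ∑ s, B * H s := by
        apply Finset.sum_le_sum
        intro s _
        exact mul_le_mul_of_nonneg_right (hB s) (h0 s)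
    _ = B := by rw [← Finset.mul_sum, hs, mul_one]

section Main

variable {F : Type u} [CStarAlgebra F]

/-- The hat elements. -/
noncomputable def fe (q : F) (ε : ℝ) (S : ℕ) (k : ℕ) : F :=
  cfc (fun x : ℝ => hat k (x / ε + S)) q

lemma continuous_hat_aff (ε : ℝ) (S k : ℕ) : Continuous (fun x : ℝ => hat k (x / ε + S)) := by
  have := continuous_hat k
  fun_prop

variable (q : F) (hq : IsSelfAdjoint q) (ε : ℝ) (hε : 0 < ε) (S : ℕ)

lemma fe_sa (k : ℕ) : IsSelfAdjoint (fe q ε S k) := cfc_predicate _ q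

lemma fe_comm (s t : ℕ) : Commute (fe q ε S s) (fe q ε S t) := cfc_commute_cfc _ _ q

lemma fe_mul (s t : ℕ) : fe q ε S s * fe q ε S t =
    cfc (fun x : ℝ => hat s (x / ε + S) * hat t (x / ε + S)) q := by
  unfold fe
  rw [cfc_mul _ _ q (continuous_hat_aff ε S s).continuousOn
    (continuous_hat_aff ε S t).continuousOn]

lemma fe_orth (s t : ℕ) (h : 2 ≤ |(s : ℤ) - (t : ℤ)|) : fe q ε S s * fe q ε S t = 0 := by
  rw [fe_mul q]
  have : (fun x : ℝ => hat s (x / ε + S) * hat t (x / ε + S)) = fun _ => (0 : ℝ) := by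
    funext x
    exact hat_mul_hat s t h _
  rw [this]
  simp

include hε in
lemma spec_bound (hS : ‖q‖ ≤ S * ε) (x : ℝ) (hx : x ∈ spectrum ℝ q) :
    0 ≤ x / ε + S ∧ x / ε + S ≤ ((2 * S : ℕ) : ℝ) := by
  have h1 : ‖x‖ ≤ ‖q‖ := by
    rcases subsingleton_or_nontrivial F with hF | hF
    · rw [spectrum.of_subsingleton] at hx
      exact absurd hx (Set.notMem_empty x)
    · exact spectrum.norm_le_norm_of_mem hx
  rw [Real.norm_eq_abs] at h1
  have h2 := abs_le.mp (h1.trans hS)
  have h3 : -(S : ℝ) ≤ x / ε := by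
    rw [le_div_iff₀ hε]; linarith [h2.1]
  have h4 : x / ε ≤ S := by
    rw [div_le_iff₀ hε]; linarith [h2.2]
  push_cast
  constructor <;> linarith

include hq hε in
lemma sum_fe (hS : ‖q‖ ≤ S * ε) : ∑ k : Fin (2 * S + 1), fe q ε S k = 1 := by
  unfold fe
  rw [← cfc_sum_univ (fun k : Fin (2 * S + 1) => fun x : ℝ => hat k (x / ε + S)) q
    (fun k => (continuous_hat_aff ε S k).continuousOn)]
  rw [← cfc_const_one ℝ q]
  apply cfc_congr
  intro x hx
  obtain ⟨h0, h1⟩ := spec_bound q ε hε S hS x hx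
  simpa using sum_hat_eq_one (2 * S) _ h0 h1

include hq hε in
lemma sum_mul_fe (hS : ‖q‖ ≤ S * ε) :
    ∑ k : Fin (2 * S + 1), ((k : ℕ) : ℝ) • fe q ε S k = (1 / ε) • q + (S : ℝ) • 1 := by
  unfold fe
  have e1 : ∀ k : Fin (2 * S + 1), ((k : ℕ) : ℝ) • cfc (fun x : ℝ => hat k (x / ε + S)) q =
      cfc (fun x : ℝ => ((k : ℕ) : ℝ) * hat k (x / ε + S)) q := by
    intro k
    rw [cfc_const_mul _ _ q (continuous_hat_aff ε S k).continuousOn]
  simp only [e1]
  rw [← cfc_sum_univ (fun k : Fin (2 * S + 1) => fun x : ℝ =>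
      ((k : ℕ) : ℝ) * hat k (x / ε + S)) q
    (fun k => ((continuous_hat_aff ε S k).const_mul _).continuousOn)]
  have e2 : (1 / ε) • q + (S : ℝ) • (1 : F) = cfc (fun x : ℝ => x / ε + S) q := by
    have : (fun x : ℝ => x / ε + S) = fun x : ℝ => (1 / ε) * x + S := by
      funext x; ring
    rw [this, cfc_add_const _ _ q, cfc_const_mul _ _ q, cfc_id' ℝ q]
    rw [Algebra.algebraMap_eq_smul_one]
  rw [e2]
  apply cfc_congr
  intro x hx
  obtain ⟨h0, h1⟩ := spec_bound q ε hε S hS x hx
  simpa using sum_mul_hat_eq (2 * S) _ h0 h1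

include hq hε in
lemma comm_eq (hS : ‖q‖ ≤ S * ε) (b : F) :
    q * b - b * q = ε • ∑ p : Fin (2 * S + 1) × Fin (2 * S + 1),
      coe p • (fe q ε S p.1 * b * fe q ε S p.2) := by
  have h1 := sum_fe q hq ε hε S hS
  have h2 := sum_mul_fe q hq ε hε S hS
  have h3 : ∑ p : Fin (2 * S + 1) × Fin (2 * S + 1),
      coe p • (fe q ε S p.1 * b * fe q ε S p.2)
      = (∑ k : Fin (2 * S + 1), ((k : ℕ) : ℝ) • fe q ε S k) * b *
          (∑ k : Fin (2 * S + 1), fe q ε S k)
        - (∑ k : Fin (2 * S + 1), fe q ε S k) * b *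
          (∑ k : Fin (2 * S + 1), ((k : ℕ) : ℝ) • fe q ε S k) := by
    rw [Fintype.sum_prod_type]
    simp only [Finset.sum_mul, Finset.mul_sum, ← Finset.sum_sub_distrib]
    rw [Finset.sum_comm]
    apply Finset.sum_congr rfl
    intro t _
    apply Finset.sum_congr rfl
    intro s _
    unfold coe
    simp only [smul_mul_assoc, mul_smul_comm, sub_smul]
  rw [h3, h1, h2, mul_one, one_mul, add_mul, mul_add, smul_mul_assoc, mul_smul_comm,
    smul_mul_assoc, mul_smul_comm, one_mul, mul_one, add_sub_add_right_eq_sub, ← smul_sub,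
    smul_smul, mul_one_div_cancel hε.ne', one_smul]

include hq hε in
/-- The near-diagonal part is small. -/
lemma norm_near_le (hS : ‖q‖ ≤ S * ε) (b : F) :
    ‖∑ p : Fin (2 * S + 1) × Fin (2 * S + 1),
      (chi p * coe p) • (fe q ε S p.1 * b * fe q ε S p.2)‖ ≤ 78 * ‖b‖ := by
  let _ : PartialOrder F := CStarAlgebra.spectralOrder F
  have _ : StarOrderedRing F := CStarAlgebra.spectralOrderedRing F
  set P := Fin (2 * S + 1) × Fin (2 * S + 1) with hP
  let u : P → F := fun p => (chi p * coe p) • fe q ε S p.1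
  let v : P → F := fun p => chi p • (b * fe q ε S p.2)
  have e0 : ∑ p : P, (chi p * coe p) • (fe q ε S p.1 * b * fe q ε S p.2) = ∑ p, u p * v p := by
    apply Finset.sum_congr rfl
    intro p _
    simp only [u, v, smul_mul_assoc, mul_smul_comm, smul_smul]
    have : chi p * (chi p * coe p) = chi p * coe p := by
      unfold chi; split_ifs <;> ring
    rw [this, mul_assoc]
  have hH0 : ∀ x : ℝ, ∀ s : Fin (2 * S + 1), 0 ≤ hat (s : ℕ) (x / ε + S) :=
    fun x s => hat_nonneg _ _
  have hH1 : ∀ x : ℝ, ∀ s : Fin (2 * S + 1), hat (s : ℕ) (x / ε + S) ≤ 1 :=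
    fun x s => hat_le_one _ _
  have hHs : ∀ x ∈ spectrum ℝ q, ∑ s : Fin (2 * S + 1), hat (s : ℕ) (x / ε + S) = 1 := by
    intro x hx
    obtain ⟨h0, h1⟩ := spec_bound q ε hε S hS x hx
    exact sum_hat_eq_one (2 * S) _ h0 h1
  have hff : ∀ (W : P → ℝ) (g : P → Fin (2 * S + 1)),
      ∑ p : P, W p • (fe q ε S (g p) * fe q ε S (g p)) =
      cfc (fun x : ℝ => ∑ p : P, W p * (hat (g p : ℕ) (x / ε + S) *
        hat (g p : ℕ) (x / ε + S))) q := by
    intro W g
    have ef : (fun x : ℝ => ∑ p : P, W p * (hat (g p : ℕ) (x / ε + S) *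
        hat (g p : ℕ) (x / ε + S))) = ∑ p : P, fun x : ℝ => W p * (hat (g p : ℕ) (x / ε + S) *
        hat (g p : ℕ) (x / ε + S)) := by
      funext x; simp
    rw [ef, cfc_sum_univ (fun p : P => fun x : ℝ => W p * (hat (g p : ℕ) (x / ε + S) *
        hat (g p : ℕ) (x / ε + S))) q (fun p => ((((continuous_hat_aff ε S (g p)).mul
          (continuous_hat_aff ε S (g p))).const_mul _).continuousOn))]
    apply Finset.sum_congr rfl
    intro p _
    rw [cfc_const_mul (W p) (fun x : ℝ => hat (g p : ℕ) (x / ε + S) *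
        hat (g p : ℕ) (x / ε + S)) q ((continuous_hat_aff ε S (g p)).mul
          (continuous_hat_aff ε S (g p))).continuousOn, fe_mul q]
  have hu : ‖∑ p, u p * star (u p)‖ ≤ 468 := by
    have e1 : ∑ p, u p * star (u p) =
        ∑ p : P, ((chi p * coe p) ^ 2) • (fe q ε S p.1 * fe q ε S p.1) := by
      apply Finset.sum_congr rfl
      intro p _
      simp only [u]
      rw [star_smul, (fe_sa q ε S p.1).star_eq, star_trivial, smul_mul_smul_comm, ← sq]
    rw [e1, hff _ (fun p => p.1)]
    apply norm_cfc_le (by norm_num)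
    intro x hx
    rw [Real.norm_of_nonneg (Finset.sum_nonneg fun p _ =>
      mul_nonneg (sq_nonneg _) (mul_nonneg (hH0 x _) (hH0 x _)))]
    apply sum_weight_le _ (fun p => sq_nonneg _) _ _ (hH0 x) (hH1 x) (hHs x hx)
    intro s
    calc ∑ t, (chi (s, t) * coe (s, t)) ^ 2 ≤ ∑ t, 36 * chi (s, t) :=
          Finset.sum_le_sum fun t _ => chi_mul_coe_sq_le _
      _ = 36 * ∑ t, chi (s, t) := by rw [Finset.mul_sum]
      _ ≤ 36 * 13 := by
          apply mul_le_mul_of_nonneg_left (sum_chi_le s) (by norm_num)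
      _ = 468 := by norm_num
  have hv : ‖∑ p, star (v p) * v p‖ ≤ 13 * ‖b‖ ^ 2 := by
    have e1 : ∀ p, star (v p) * v p ≤
        (chi p ^ 2 * ‖b‖ ^ 2) • (fe q ε S p.2 * fe q ε S p.2) := by
      intro p
      have e2 : star (v p) * v p = (chi p ^ 2) •
          (star (fe q ε S p.2) * (star b * b) * fe q ε S p.2) := by
        simp only [v]
        rw [star_smul, star_trivial, smul_mul_smul_comm, ← sq, star_mul]
        simp only [mul_assoc]
      rw [e2, mul_smul]
      apply smul_le_smul_of_nonneg_left _ (sq_nonneg _)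
      have e3 := star_left_conjugate_le_conjugate
        (CStarAlgebra.star_mul_le_algebraMap_norm_sq (a := b)) (fe q ε S p.2)
      refine e3.trans (le_of_eq ?_)
      rw [Algebra.algebraMap_eq_smul_one, mul_smul_comm, mul_one, smul_mul_assoc,
        (fe_sa q ε S p.2).star_eq]
    have e4 : ∑ p, star (v p) * v p ≤
        ∑ p : P, (chi p ^ 2 * ‖b‖ ^ 2) • (fe q ε S p.2 * fe q ε S p.2) :=
      Finset.sum_le_sum fun p _ => e1 p
    refine (CStarAlgebra.norm_le_norm_of_nonneg_of_le
      (Finset.sum_nonneg fun p _ => star_mul_self_nonneg _) e4).trans ?_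
    rw [hff _ (fun p => p.2)]
    apply norm_cfc_le (by positivity)
    intro x hx
    rw [Real.norm_of_nonneg (Finset.sum_nonneg fun p _ =>
      mul_nonneg (by positivity) (mul_nonneg (hH0 x _) (hH0 x _)))]
    have e5 : ∑ p : P, (chi p ^ 2 * ‖b‖ ^ 2) * (hat (p.2 : ℕ) (x / ε + S) *
        hat (p.2 : ℕ) (x / ε + S)) = ∑ p : P, (chi p ^ 2 * ‖b‖ ^ 2) *
        (hat (p.1 : ℕ) (x / ε + S) * hat (p.1 : ℕ) (x / ε + S)) := by
      rw [Fintype.sum_prod_type, Fintype.sum_prod_type, Finset.sum_comm]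
      refine Finset.sum_congr rfl fun s _ => Finset.sum_congr rfl fun t _ => ?_
      rw [chi_symm]
    rw [e5]
    apply sum_weight_le _ (fun p => by positivity) _ _ (hH0 x) (hH1 x) (hHs x hx)
    intro s
    calc ∑ t, (chi (s, t) ^ 2 * ‖b‖ ^ 2) = (∑ t, chi (s, t)) * ‖b‖ ^ 2 := by
          rw [Finset.sum_mul]
          apply Finset.sum_congr rfl
          intro t _
          have : chi (s, t) ^ 2 = chi (s, t) := by
            unfold chi; split_ifs <;> norm_num
          rw [this]
      _ ≤ 13 * ‖b‖ ^ 2 := mul_le_mul_of_nonneg_right (sum_chi_le s) (sq_nonneg _)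
  rw [e0]
  refine (norm_sum_mul_le u v).trans ?_
  calc Real.sqrt ‖∑ p, u p * star (u p)‖ * Real.sqrt ‖∑ p, star (v p) * v p‖
      ≤ Real.sqrt 468 * Real.sqrt (13 * ‖b‖ ^ 2) :=
        mul_le_mul (Real.sqrt_le_sqrt hu) (Real.sqrt_le_sqrt hv) (Real.sqrt_nonneg _)
          (Real.sqrt_nonneg _)
    _ = 78 * ‖b‖ := by
        rw [← Real.sqrt_mul (by norm_num)]
        have : (468 : ℝ) * (13 * ‖b‖ ^ 2) = (78 * ‖b‖) ^ 2 := by ring
        rw [this, Real.sqrt_sq (by positivity)]

end Main

end Step3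

open Step3 in
theorem step3 {F : Type u} [CStarAlgebra F] (q : F) (hq : IsSelfAdjoint q)
    (h : Full {x : F | ∃ y, x = q * y - y * q}) : Nonempty (PartData F) := by
  obtain ⟨n, l, x, r, hx, hsum⟩ := h.exists_sum
  choose y hy using hx
  set K : ℝ := ∑ i, ‖l i‖ * ‖y i‖ * ‖r i‖ with hK
  have hK0 : 0 ≤ K := Finset.sum_nonneg fun i _ => by positivity
  set ε : ℝ := 1 / (78 * K + 1) with hεdef
  have hε : 0 < ε := by positivity
  obtain ⟨S, hS⟩ := exists_nat_ge (‖q‖ / ε)
  rw [div_le_iff₀ hε] at hS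
  set T : Set F := {x : F | ∃ (s t : Fin (2 * S + 1)) (b : F),
    7 ≤ |((s : ℕ) : ℤ) - ((t : ℕ) : ℤ)| ∧ x = fe q ε S s * b * fe q ε S t} with hT
  refine ⟨⟨2 * S + 1, fun k => fe q ε S k, fun s t => fe_comm q ε S s t,
    fun s t hst => fe_orth q ε S s t hst, sum_fe q hq ε hε S hS, ?_⟩⟩
  change Full T
  -- near part
  let near : F → F := fun b => ∑ p : Fin (2 * S + 1) × Fin (2 * S + 1),
    (chi p * coe p) • (fe q ε S p.1 * b * fe q ε S p.2)
  let far : F → F := fun b => ∑ p : Fin (2 * S + 1) × Fin (2 * S + 1),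
    ((1 - chi p) * coe p) • (fe q ε S p.1 * b * fe q ε S p.2)
  have hnf : ∀ b, q * b - b * q = ε • near b + ε • far b := by
    intro b
    rw [comm_eq q hq ε hε S hS b, ← smul_add]
    congr 1
    simp only [near, far]
    rw [← Finset.sum_add_distrib]
    refine Finset.sum_congr rfl fun p _ => ?_
    rw [← add_smul]
    congr 1
    ring
  have hfar : ∀ b, far b ∈ TwoSidedIdeal.span T := by
    intro b
    refine sum_mem fun p _ => ?_
    by_cases hp : |((p.1 : ℕ) : ℤ) - ((p.2 : ℕ) : ℤ)| ≤ 6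
    · have : chi p = 1 := by unfold chi; rw [if_pos hp]
      rw [this, sub_self, zero_mul, zero_smul]
      exact zero_mem _
    · have h7 : 7 ≤ |((p.1 : ℕ) : ℤ) - ((p.2 : ℕ) : ℤ)| := by omega
      have hmem : fe q ε S p.1 * b * fe q ε S p.2 ∈ TwoSidedIdeal.span T :=
        TwoSidedIdeal.subset_span ⟨p.1, p.2, b, h7, rfl⟩
      rw [← one_mul (fe q ε S p.1 * b * fe q ε S p.2), ← smul_mul_assoc]
      exact TwoSidedIdeal.mul_mem_left _ _ _ hmem
  set E : F := ∑ i, l i * (ε • near (y i)) * r i with hE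
  have hEnorm : ‖E‖ < 1 := by
    have h1 : ‖E‖ ≤ ∑ i, ε * (78 * (‖l i‖ * ‖y i‖ * ‖r i‖)) := by
      refine (norm_sum_le _ _).trans (Finset.sum_le_sum fun i _ => ?_)
      have h2 : ‖l i * (ε • near (y i)) * r i‖ ≤ ‖l i‖ * (ε * (78 * ‖y i‖)) * ‖r i‖ := by
        refine (norm_mul_le _ _).trans (mul_le_mul_of_nonneg_right ?_ (norm_nonneg _))
        refine (norm_mul_le _ _).trans (mul_le_mul_of_nonneg_left ?_ (norm_nonneg _))
        rw [norm_smul, Real.norm_of_nonneg hε.le]
        exact mul_le_mul_of_nonneg_left (norm_near_le q hq ε hε S hS (y i)) hε.le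
      refine h2.trans (le_of_eq ?_)
      ring
    rw [← Finset.mul_sum, ← Finset.mul_sum, ← hK] at h1
    refine lt_of_le_of_lt h1 ?_
    rw [hεdef, one_div, inv_mul_lt_iff₀ (by positivity)]
    linarith
  have hunit : IsUnit (1 - E) := (Units.oneSub E hEnorm).isUnit
  have hmem : 1 - E ∈ TwoSidedIdeal.span T := by
    have h1 : 1 - E = ∑ i, l i * (ε • far (y i)) * r i := by
      rw [← hsum, hE, ← Finset.sum_sub_distrib]
      refine Finset.sum_congr rfl fun i _ => ?_
      rw [hy i, hnf]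
      noncomm_ring
    rw [h1]
    refine sum_mem fun i _ => ?_
    apply TwoSidedIdeal.mul_mem_right
    apply TwoSidedIdeal.mul_mem_left
    rw [← one_mul (far (y i)), ← smul_mul_assoc]
    exact TwoSidedIdeal.mul_mem_left _ _ _ (hfar _)
  obtain ⟨w, hw⟩ := hunit
  have : (1 : F) = (↑w⁻¹ : F) * (1 - E) := by rw [← hw]; simp
  unfold Full
  rw [this]
  exact TwoSidedIdeal.mul_mem_left _ _ _ hmem

end Vale.Agent.P101
end
end

section

section

/-! Step 4: two orthogonal full elements from a partition of unity. -/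

open scoped BigOperators

namespace Vale.Agent.P101

universe u v

/-- A walk with small steps visits every residue window. -/
theorem walk_window (m M T a : ℕ) (S : ℕ → ℕ)
    (hstep : ∀ k < m, S (k + 1) + 1 ≤ S k + M) (hM : 0 < M)
    (htot : S 0 + T ≤ S m) (haM : a + M ≤ T) :
    ∃ k, a ≤ S k % T ∧ S k % T < a + M := by
  have hT : 0 < T := by omega
  obtain ⟨c, hc1, hc2⟩ : ∃ c, S 0 ≤ T * c + a ∧ T * c + a ≤ S m := by
    refine ⟨(S 0 + (T - 1 - a)) / T, ?_, ?_⟩
    · have h1 := Nat.div_add_mod (S 0 + (T - 1 - a)) T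
      have h2 := Nat.mod_lt (S 0 + (T - 1 - a)) hT
      omega
    · have h1 := Nat.mul_div_le (S 0 + (T - 1 - a)) T
      omega
  have hex : ∃ k, T * c + a ≤ S k := ⟨m, hc2⟩
  classical
  let k := Nat.find hex
  have hk : T * c + a ≤ S k := Nat.find_spec hex
  have hkm : k ≤ m := Nat.find_min' hex hc2
  have hup : S k < T * c + a + M := by
    rcases Nat.eq_zero_or_pos k with h0 | h0
    · rw [h0] at *; omega
    · have h1 : ¬ T * c + a ≤ S (k - 1) := Nat.find_min hex (by omega)
      have h2 := hstep (k - 1) (by omega)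
      have h3 : k - 1 + 1 = k := by omega
      rw [h3] at h2
      omega
  refine ⟨k, ?_⟩
  obtain ⟨e, he⟩ := Nat.exists_eq_add_of_le hk
  have he2 : a + e < T := by omega
  have : S k % T = a + e := by
    rw [he, add_assoc, Nat.mul_add_mod, Nat.mod_eq_of_lt he2]
  omega

/-- Among the vertices of a box one has coordinate sum in a given residue window. -/
theorem box_window {M m T a : ℕ} (s t : Fin m → Fin M)
    (hst : ∀ i, 7 ≤ |((s i : ℕ) : ℤ) - ((t i : ℕ) : ℤ)|) (hM : 0 < M)
    (hT : T ≤ 7 * m) (haM : a + M ≤ T) :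
    ∃ v : Fin m → Fin M, (∀ i, v i = s i ∨ v i = t i) ∧
      a ≤ (∑ i, (v i : ℕ)) % T ∧ (∑ i, (v i : ℕ)) % T < a + M := by
  classical
  let lo : Fin m → Fin M := fun i => min (s i) (t i)
  let hi : Fin m → Fin M := fun i => max (s i) (t i)
  have hlohi : ∀ i, (lo i : ℕ) + 7 ≤ hi i := by
    intro i
    have h := hst i
    simp only [lo, hi]
    rcases le_total (s i) (t i) with h1 | h1
    · rw [min_eq_left h1, max_eq_right h1]
      have h2 : (s i : ℕ) ≤ t i := h1
      rw [abs_of_nonpos (by omega)] at h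
      omega
    · rw [min_eq_right h1, max_eq_left h1]
      have h2 : (t i : ℕ) ≤ s i := h1
      rw [abs_of_nonneg (by omega)] at h
      omega
  let v : ℕ → Fin m → Fin M := fun k i => if (i : ℕ) < k then hi i else lo i
  let S : ℕ → ℕ := fun k => ∑ i, (v k i : ℕ)
  have hstep : ∀ k < m, S (k + 1) + 1 ≤ S k + M := by
    intro k hk
    have h1 : ∀ i : Fin m, (v (k + 1) i : ℕ)
        = (v k i : ℕ) + if i = ⟨k, hk⟩ then (hi i : ℕ) - lo i else 0 := by
      intro i
      have h2 := hlohi i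
      simp only [v]
      by_cases h3 : i = ⟨k, hk⟩
      · subst h3
        simp
        omega
      · have h4 : (i : ℕ) ≠ k := fun h => h3 (Fin.ext h)
        rcases lt_or_gt_of_ne h4 with h5 | h5
        · rw [if_pos (by omega), if_pos h5, if_neg h3]; rfl
        · rw [if_neg (by omega), if_neg (by omega), if_neg h3]; rfl
    have h2 : S (k + 1) = S k + ((hi ⟨k, hk⟩ : ℕ) - lo ⟨k, hk⟩) := by
      simp only [S]
      rw [Finset.sum_congr rfl (fun i _ => h1 i), Finset.sum_add_distrib]
      simp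
    have h3 := (hi ⟨k, hk⟩).isLt
    omega
  have htot : S 0 + T ≤ S m := by
    have h0 : S 0 = ∑ i, (lo i : ℕ) := by simp [S, v]
    have h1 : S m = ∑ i, (hi i : ℕ) := by simp [S, v]
    have h2 : ∑ i : Fin m, ((lo i : ℕ) + 7) ≤ ∑ i, (hi i : ℕ) :=
      Finset.sum_le_sum fun i _ => hlohi i
    rw [Finset.sum_add_distrib] at h2
    simp at h2
    omega
  obtain ⟨k, hk1, hk2⟩ := walk_window m M T a S hstep hM htot haM
  refine ⟨v k, fun i => ?_, hk1, hk2⟩
  simp only [v]
  split_ifs
  · exact max_choice _ _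
  · exact min_choice _ _

namespace PartData

variable {F : Type u} {G : Type v} [CStarAlgebra F] [CStarAlgebra G] (D : PartData F)

section

variable {m : ℕ} (L : Legs (Fin m) F G)

/-- The product element attached to a grid point. -/
noncomputable def cell (v : Fin m → Fin D.M) : G := L.prodHom (fun i => D.f (v i))

theorem cell_mul_cell (v w : Fin m → Fin D.M) (i : Fin m)
    (h : 2 ≤ |((v i : ℕ) : ℤ) - ((w i : ℕ) : ℤ)|) : D.cell L v * D.cell L w = 0 := by
  unfold cell
  rw [← map_mul]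
  refine L.prodHom_eq_zero _ i ?_
  simp only [Pi.mul_apply]
  exact D.orth _ _ h

theorem sum_cell : ∑ v : Fin m → Fin D.M, D.cell L v = 1 := by
  unfold cell
  rw [← L.prodHom_sum (α := fun _ => Fin D.M) (fun _ j => D.f j)]
  simp only [D.sum_eq]
  exact map_one _

open Classical in
/-- Grid points near a point with coordinate sum in `Z`. -/
noncomputable def near (D : PartData F) (m : ℕ) (Z : Set ℕ) : Finset (Fin m → Fin D.M) :=
  Finset.univ.filter fun v' => ∃ v : Fin m → Fin D.M,
    (∀ i, |((v i : ℕ) : ℤ) - ((v' i : ℕ) : ℤ)| ≤ 1) ∧ (∑ i, (v i : ℕ)) ∈ Z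

theorem mem_near {Z : Set ℕ} {v' : Fin m → Fin D.M} : v' ∈ D.near m Z ↔
    ∃ v : Fin m → Fin D.M,
    (∀ i, |((v i : ℕ) : ℤ) - ((v' i : ℕ) : ℤ)| ≤ 1) ∧ (∑ i, (v i : ℕ)) ∈ Z := by
  classical
  simp [near]

/-- The element attached to a set of coordinate sums. -/
noncomputable def xi (Z : Set ℕ) : G := ∑ v ∈ D.near m Z, D.cell L v

theorem cell_mul_xi {Z : Set ℕ} (v : Fin m → Fin D.M) (hv : (∑ i, (v i : ℕ)) ∈ Z) :
    D.cell L v * D.xi L Z = D.cell L v := by
  classical
  have h1 : D.cell L v * ∑ w : Fin m → Fin D.M, D.cell L w = D.cell L v := by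
    rw [D.sum_cell L, mul_one]
  conv_rhs => rw [← h1]
  unfold xi
  rw [Finset.mul_sum, Finset.mul_sum]
  refine Finset.sum_subset (Finset.subset_univ _) fun w _ hw => ?_
  have h2 : ∃ i, ¬ |((v i : ℕ) : ℤ) - ((w i : ℕ) : ℤ)| ≤ 1 := by
    by_contra hcon
    push Not at hcon
    exact hw (D.mem_near.2 ⟨v, hcon, hv⟩)
  obtain ⟨i, hi⟩ := h2
  exact D.cell_mul_cell L v w i (by omega)

theorem xi_mul_xi {Z W : Set ℕ}
    (hZW : ∀ z ∈ Z, ∀ w ∈ W, 3 * (m : ℤ) < |(z : ℤ) - (w : ℤ)|) :
    D.xi L Z * D.xi L W = 0 := by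
  classical
  unfold xi
  rw [Finset.sum_mul_sum]
  refine Finset.sum_eq_zero fun v' hv' => Finset.sum_eq_zero fun w' hw' => ?_
  obtain ⟨v, hv, hvZ⟩ := D.mem_near.1 hv'
  obtain ⟨w, hw, hwW⟩ := D.mem_near.1 hw'
  by_contra hne
  have h1 : ∀ i, |((v' i : ℕ) : ℤ) - ((w' i : ℕ) : ℤ)| ≤ 1 := by
    intro i
    by_contra hcon
    exact hne (D.cell_mul_cell L v' w' i (by omega))
  have h2 : |((∑ i, (v i : ℕ) : ℕ) : ℤ) - ((∑ i, (w i : ℕ) : ℕ) : ℤ)| ≤ 3 * (m : ℤ) := by
    push_cast
    rw [← Finset.sum_sub_distrib]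
    refine (Finset.abs_sum_le_sum_abs _ _).trans ?_
    calc ∑ i : Fin m, |((v i : ℕ) : ℤ) - ((w i : ℕ) : ℤ)| ≤ ∑ _i : Fin m, (3 : ℤ) := by
          refine Finset.sum_le_sum fun i _ => ?_
          have a1 := hv i
          have a2 := hw i
          have a3 := h1 i
          rw [abs_le] at a1 a2 a3 ⊢
          omega
      _ = 3 * (m : ℤ) := by simp [mul_comm]
  exact absurd h2 (not_le.2 (hZW _ hvZ _ hwW))

theorem xi_full {Z : Set ℕ}
    (hZ : ∀ s t : Fin m → Fin D.M, (∀ i, 7 ≤ |((s i : ℕ) : ℤ) - ((t i : ℕ) : ℤ)|) →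
      ∃ v : Fin m → Fin D.M, (∀ i, v i = s i ∨ v i = t i) ∧ (∑ i, (v i : ℕ)) ∈ Z) :
    Full {D.xi L Z ^ 2} := by
  classical
  obtain ⟨n, l, x, r, hx, e⟩ := D.full.exists_sum
  refine Full.of_forall fun I hI => ?_
  have hI' : D.xi L Z ^ 2 ∈ I := hI _ rfl
  have h1 : (1 : G) = ∑ ρ : Fin m → Fin n, L.prodHom (fun i => l (ρ i) * x (ρ i) * r (ρ i)) := by
    rw [← L.prodHom_sum (α := fun _ => Fin n) (fun _ j => l j * x j * r j)]
    simp only [e]
    exact (map_one _).symm
  rw [h1]
  refine sum_mem fun ρ _ => ?_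
  choose s t b hst hxe using hx
  obtain ⟨v, hv, hvZ⟩ := hZ (fun i => s (ρ i)) (fun i => t (ρ i)) (fun i => hst (ρ i))
  have h2 : ∃ y z : Fin m → F, (fun i => l (ρ i) * x (ρ i) * r (ρ i))
      = y * (fun i => D.f (v i)) * z := by
    have h3 : ∀ i, ∃ y z : F, l (ρ i) * x (ρ i) * r (ρ i) = y * D.f (v i) * z := by
      intro i
      rcases hv i with h | h
      · refine ⟨l (ρ i), b (ρ i) * D.f (t (ρ i)) * r (ρ i), ?_⟩
        rw [hxe, h]; simp only [mul_assoc]
      · refine ⟨l (ρ i) * D.f (s (ρ i)) * b (ρ i), r (ρ i), ?_⟩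
        rw [hxe, h]; simp only [mul_assoc]
    choose y z hyz using h3
    exact ⟨y, z, funext hyz⟩
  obtain ⟨y, z, hyz⟩ := h2
  rw [hyz, map_mul, map_mul]
  refine TwoSidedIdeal.mul_mem_right _ _ _ (TwoSidedIdeal.mul_mem_left _ _ _ ?_)
  have h4 : L.prodHom (fun i => D.f (v i)) = D.cell L v * (D.xi L Z ^ 2) := by
    rw [sq, ← mul_assoc, D.cell_mul_xi L v hvZ, D.cell_mul_xi L v hvZ]
    rfl
  rw [h4]
  exact TwoSidedIdeal.mul_mem_left _ _ _ hI'

end

end PartData

theorem step4 {F : Type u} {G : Type v} [CStarAlgebra F] [CStarAlgebra G] (D : PartData F)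
    (L : Legs (Fin (3 * D.M + 2)) F G) :
    ∃ ξ : Bool → G, (∀ i j, i ≠ j → ξ i * ξ j = 0) ∧ ∀ i, Full {ξ i ^ 2} := by
  set m := 3 * D.M + 2 with hm
  set T := 2 * D.M + 6 * m + 2 with hT
  rcases Nat.eq_zero_or_pos D.M with hM | hM
  · -- trivial algebra: `1 = 0`
    have h1 : (1 : F) = 0 := by
      rw [← D.sum_eq]
      refine Finset.sum_eq_zero fun s _ => ?_
      exact absurd s.isLt (by omega)
    have h2 : (1 : G) = 0 := by
      have := congrArg (L.σ 0) h1
      simpa using this
    refine ⟨fun _ => 0, fun i j _ => by simp, fun i => ?_⟩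
    refine Full.of_forall fun I _ => ?_
    rw [h2]; exact zero_mem _
  · let Zp : Set ℕ := {z | 0 ≤ z % T ∧ z % T < 0 + D.M}
    let Zm : Set ℕ := {z | D.M + 3 * m + 1 ≤ z % T ∧ z % T < D.M + 3 * m + 1 + D.M}
    have hsep : ∀ z ∈ Zp, ∀ w ∈ Zm, 3 * (m : ℤ) < |(z : ℤ) - (w : ℤ)| := by
      rintro z ⟨_, hz⟩ w ⟨hw1, hw2⟩
      have ez := Nat.div_add_mod z T
      have ew := Nat.div_add_mod w T
      set c := z / T
      set d := w / T
      have ez' : (z : ℤ) = T * c + (z % T : ℕ) := by exact_mod_cast ez.symm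
      have ew' : (w : ℤ) = T * d + (w % T : ℕ) := by exact_mod_cast ew.symm
      have hT' : (T : ℤ) = 2 * D.M + 6 * m + 2 := by rw [hT]; push_cast; ring
      rw [lt_abs]
      rcases le_or_gt c d with h | h
      · right
        have h1 : (T : ℤ) * c ≤ T * d := by
          have : (c : ℤ) ≤ d := by exact_mod_cast h
          exact mul_le_mul_of_nonneg_left this (Int.natCast_nonneg _)
        omega
      · left
        have h1 : (T : ℤ) * d + T ≤ T * c := by
          have : (d : ℤ) + 1 ≤ c := by exact_mod_cast h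
          linarith only [mul_le_mul_of_nonneg_left this (Int.natCast_nonneg T)]
        omega
    have hsep' : ∀ z ∈ Zm, ∀ w ∈ Zp, 3 * (m : ℤ) < |(z : ℤ) - (w : ℤ)| := by
      intro z hz w hw
      rw [abs_sub_comm]
      exact hsep w hw z hz
    refine ⟨fun i => if i then D.xi L Zp else D.xi L Zm, ?_, ?_⟩
    · intro i j hij
      cases i <;> cases j
      · exact absurd rfl hij
      · simpa using D.xi_mul_xi L hsep'
      · simpa using D.xi_mul_xi L hsep
      · exact absurd rfl hij
    · intro i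
      cases i
      · simp only [Bool.false_eq_true, if_false]
        refine D.xi_full L fun s t hst => ?_
        obtain ⟨v, hv, h1, h2⟩ := box_window (T := T) (a := D.M + 3 * m + 1) s t hst hM
          (by omega) (by omega)
        exact ⟨v, hv, h1, h2⟩
      · simp only [if_true]
        refine D.xi_full L fun s t hst => ?_
        obtain ⟨v, hv, h1, h2⟩ := box_window (T := T) (a := 0) s t hst hM
          (by omega) (by omega)
        exact ⟨v, hv, h1, h2⟩

end Vale.Agent.P101
end
end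

section

section

/-! Step 5: from nilpotent elements `x i` generating the algebra and two orthogonal full elements
`ξ`, build one element `X` with `X * X = 0` that is full. -/

open scoped BigOperators

namespace Vale.Agent.P101

universe u v

theorem prodHom_absorb {κ : Type*} [Fintype κ] [DecidableEq κ] {F : Type u} {G : Type v}
    [Ring F] [StarRing F] [Algebra ℂ F] [Ring G] [StarRing G] [Algebra ℂ G]
    (L : Legs κ F G) (I : TwoSidedIdeal G) (s : Finset κ) (z : κ → F)
    (hz : ∀ k ∈ s, Full {z k}) (h : L.prodHom z ∈ I) :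
    L.prodHom (fun k => if k ∈ s then 1 else z k) ∈ I := by
  induction s using Finset.induction_on with
  | empty => simpa using h
  | insert k s hk ih =>
    have ih' := ih (fun j hj => hz j (Finset.mem_insert_of_mem hj))
    set z' : κ → F := fun k => if k ∈ s then 1 else z k with hz'
    have hz'k : z' k = z k := by simp [hz', hk]
    have e : (fun j => if j ∈ insert k s then (1 : F) else z j) = Function.update z' k 1 := by
      ext j
      by_cases hj : j = k
      · subst hj; simp
      · simp [hz', hj]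
    rw [e]
    obtain ⟨m, l, x, r, hx, hsum⟩ := (hz k (Finset.mem_insert_self k s)).exists_sum
    have hone : L.prodMul (Function.update z' k 1)
        = ∑ t : Fin m, L.prodMul (Function.update z' k (l t * x t * r t)) := by
      rw [← hsum, MultilinearMap.map_update_sum]
    have hone' : L.prodHom (Function.update z' k 1)
        = ∑ t : Fin m, L.prodHom (Function.update z' k (l t * x t * r t)) := hone
    rw [hone']
    refine sum_mem fun t _ => ?_
    have hxt : x t = z' k := by rw [hz'k]; exact hx t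
    have e2 : Function.update z' k (l t * x t * r t)
        = Pi.mulSingle k (l t) * z' * Pi.mulSingle k (r t) := by
      ext j
      by_cases hj : j = k
      · subst hj; simp [hxt]
      · simp [Function.update_of_ne hj, Pi.mulSingle_eq_of_ne hj]
    rw [e2, map_mul, map_mul]
    exact TwoSidedIdeal.mul_mem_right _ _ _ (TwoSidedIdeal.mul_mem_left _ _ _ ih')

theorem step5_aux {F : Type u} {G : Type v} [Ring F] [StarRing F] [Algebra ℂ F] [Ring G]
    [StarRing G] [Algebra ℂ G] (n : ℕ) (x : Fin n → F)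
    (hx : ∀ i, x i * x i = 0) (hfull : Full (Set.range x)) (ξ : Bool → F)
    (hξ : ∀ i j, i ≠ j → ξ i * ξ j = 0) (hξf : ∀ i, Full {ξ i ^ 2})
    (L : Legs (Fin (n + 1)) F G) :
    ∃ X : G, X * X = 0 ∧ Full {X} := by
  classical
  -- one-hot codes
  let c : Fin n → Fin n → F := fun i k => ξ (decide (k = i))
  have hc : ∀ i j, i ≠ j → c i i * c j i = 0 := by
    intro i j hij
    apply hξ
    simp [hij]
  let X : G := ∑ i, L.prodHom (Fin.cons (x i) (c i) : Fin (n + 1) → F)
  have hmul : ∀ (a b : F) (i j : Fin n), i ≠ j →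
      L.prodHom (Fin.cons a (c i) : Fin (n + 1) → F)
        * L.prodHom (Fin.cons b (c j) : Fin (n + 1) → F) = 0 := by
    intro a b i j hij
    rw [← map_mul]
    refine L.prodHom_eq_zero _ (Fin.succ i) ?_
    simpa using hc i j hij
  refine ⟨X, ?_, ?_⟩
  · rw [Finset.sum_mul_sum]
    refine Finset.sum_eq_zero fun i _ => Finset.sum_eq_zero fun j _ => ?_
    by_cases hij : i = j
    · subst hij
      rw [← map_mul]
      refine L.prodHom_eq_zero _ 0 ?_
      simpa using hx i
    · exact hmul _ _ i j hij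
  · have hmem : ∀ i, L.σ 0 (x i) ∈ TwoSidedIdeal.span {X} := by
      intro i
      have h1 : X * L.prodHom (Fin.cons 1 (c i) : Fin (n + 1) → F)
          = L.prodHom (Fin.cons (x i) (fun k => c i k ^ 2) : Fin (n + 1) → F) := by
        rw [Finset.sum_mul, Finset.sum_eq_single i]
        · rw [← map_mul]
          congr 1
          ext k
          refine Fin.cases ?_ (fun k => ?_) k
          · simp
          · simp [pow_two]
        · intro j _ hj
          exact hmul _ _ j i hj
        · intro h; exact absurd (Finset.mem_univ i) h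
      have h2 : L.prodHom (Fin.cons (x i) (fun k => c i k ^ 2) : Fin (n + 1) → F)
          ∈ TwoSidedIdeal.span {X} := by
        rw [← h1]
        exact TwoSidedIdeal.mul_mem_right _ _ _ (TwoSidedIdeal.subset_span rfl)
      have h3 := prodHom_absorb L (TwoSidedIdeal.span {X}) (Finset.univ.erase 0) _ (by
        intro k hk
        have hk0 : k ≠ 0 := Finset.ne_of_mem_erase hk
        obtain ⟨k, rfl⟩ := Fin.exists_succ_eq.2 hk0
        simpa using hξf (decide (k = i))) h2
      have e : (fun k : Fin (n + 1) => if k ∈ (Finset.univ.erase (0 : Fin (n + 1))) then (1 : F)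
          else (Fin.cons (x i) (fun k => c i k ^ 2) : Fin (n + 1) → F) k)
          = Pi.mulSingle 0 (x i) := by
        ext k
        refine Fin.cases ?_ (fun k => ?_) k
        · simp
        · simp [Fin.succ_ne_zero]
      rw [e, L.prodHom_mulSingle] at h3
      exact h3
    have h4 : Full ((L.σ 0 : F →+* G) '' Set.range x) := hfull.map (L.σ 0 : F →+* G)
    refine h4.mono ?_
    rintro _ ⟨_, ⟨i, rfl⟩, rfl⟩
    exact hmem i

theorem step5 {F : Type u} {G : Type v} [CStarAlgebra F] [CStarAlgebra G] (n : ℕ) (x : Fin n → F)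
    (hx : ∀ i, x i * x i = 0) (hfull : Full (Set.range x)) (ξ : Bool → F)
    (hξ : ∀ i j, i ≠ j → ξ i * ξ j = 0) (hξf : ∀ i, Full {ξ i ^ 2})
    (L : Legs (Fin (n + 1)) F G) :
    ∃ X : G, X * X = 0 ∧ Full {X} :=
  step5_aux n x hx hfull ξ hξ hξf L

end Vale.Agent.P101
end
end

section

section

/-! Step 6: from a full square-zero element to the data of one leg. -/

open scoped BigOperators

namespace Vale.Agent.P101

universe u

namespace Step6

/-- ramp -/
noncomputable def al (δ t : ℝ) : ℝ := max 0 (min 1 (2 * t / δ - 1))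
noncomputable def kf (δ t : ℝ) : ℝ := al δ t * (Real.sqrt (max t (δ / 2)))⁻¹
noncomputable def hf (δ t : ℝ) : ℝ := Real.sqrt (1 - al δ t * al δ t)
noncomputable def cf (δ t : ℝ) : ℝ := max (-1) (min 1 (1 - 4 * t / δ))
noncomputable def sf (δ t : ℝ) : ℝ := Real.sqrt (1 - cf δ t * cf δ t)
noncomputable def ef (δ t : ℝ) : ℝ := max 0 (t - δ)
noncomputable def ef1 (δ t : ℝ) : ℝ := ef δ t * (max t δ)⁻¹

variable {δ : ℝ}

theorem al_cont : Continuous (al δ) := by unfold al; fun_prop
theorem cf_cont : Continuous (cf δ) := by unfold cf; fun_prop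
theorem ef_cont : Continuous (ef δ) := by unfold ef; fun_prop
theorem hf_cont : Continuous (hf δ) := by
  unfold hf; exact Real.continuous_sqrt.comp (continuous_const.sub (al_cont.mul al_cont))
theorem sf_cont : Continuous (sf δ) := by
  unfold sf; exact Real.continuous_sqrt.comp (continuous_const.sub (cf_cont.mul cf_cont))
theorem kf_cont (hδ : 0 < δ) : Continuous (kf δ) := by
  unfold kf
  refine al_cont.mul (Continuous.inv₀ (by fun_prop) fun t => ?_)
  have : 0 < max t (δ / 2) := lt_max_of_lt_right (by positivity)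
  exact (Real.sqrt_pos.2 this).ne'
theorem ef1_cont (hδ : 0 < δ) : Continuous (ef1 δ) := by
  unfold ef1
  refine ef_cont.mul (Continuous.inv₀ (by fun_prop) fun t => ?_)
  exact (lt_max_of_lt_right hδ).ne'

theorem al_nonneg (t : ℝ) : 0 ≤ al δ t := le_max_left _ _
theorem al_le_one (t : ℝ) : al δ t ≤ 1 := max_le zero_le_one (min_le_left _ _)

theorem al_eq_zero (hδ : 0 < δ) {t : ℝ} (h : t ≤ δ / 2) : al δ t = 0 := by
  unfold al
  refine max_eq_left ((min_le_right _ _).trans ?_)
  rw [sub_nonpos, div_le_one hδ]; linarith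

theorem al_eq_one (hδ : 0 < δ) {t : ℝ} (h : δ ≤ t) : al δ t = 1 := by
  unfold al
  have : 1 ≤ 2 * t / δ - 1 := by
    rw [le_sub_iff_add_le, le_div_iff₀ hδ]; linarith
  rw [min_eq_left this]; norm_num

theorem kf_sq (hδ : 0 < δ) (t : ℝ) : kf δ t * t * kf δ t = al δ t * al δ t := by
  rcases le_total t (δ / 2) with h | h
  · unfold kf; rw [al_eq_zero hδ h]; ring
  · unfold kf
    rw [max_eq_left h]
    have ht : 0 < t := by linarith
    have h1 : Real.sqrt t * Real.sqrt t = t := Real.mul_self_sqrt ht.le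
    have h2 : 0 < Real.sqrt t := Real.sqrt_pos.2 ht
    calc al δ t * (Real.sqrt t)⁻¹ * t * (al δ t * (Real.sqrt t)⁻¹)
        = al δ t * (Real.sqrt t)⁻¹ * (Real.sqrt t * Real.sqrt t) * (al δ t * (Real.sqrt t)⁻¹) := by
          rw [h1]
      _ = al δ t * al δ t := by field_simp

theorem sf_sq (t : ℝ) : cf δ t * cf δ t + sf δ t * sf δ t = 1 := by
  have h1 : cf δ t ≤ 1 := max_le (by norm_num) (min_le_left _ _)
  have h2 : -1 ≤ cf δ t := le_max_left _ _
  unfold sf
  rw [Real.mul_self_sqrt (by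
    linarith only [mul_nonneg (sub_nonneg.2 h1) (by linarith only [h2] : 0 ≤ cf δ t + 1)])]; ring

theorem cf_zero : cf δ 0 = 1 := by unfold cf; norm_num
theorem sf_zero : sf δ 0 = 0 := by unfold sf; rw [cf_zero]; norm_num

theorem cf_eq (hδ : 0 < δ) {t : ℝ} (h : δ / 2 ≤ t) : cf δ t = -1 := by
  unfold cf
  refine max_eq_left ((min_le_right _ _).trans ?_)
  rw [sub_le_iff_le_add, ← sub_le_iff_le_add', le_div_iff₀ hδ]; linarith

theorem kc (hδ : 0 < δ) (t : ℝ) : kf δ t * cf δ t = - kf δ t := by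
  rcases le_total t (δ / 2) with h | h
  · unfold kf; rw [al_eq_zero hδ h]; ring
  · rw [cf_eq hδ h]; ring

theorem ks (hδ : 0 < δ) (t : ℝ) : kf δ t * sf δ t = 0 := by
  rcases le_total t (δ / 2) with h | h
  · unfold kf; rw [al_eq_zero hδ h]; ring
  · unfold sf; rw [cf_eq hδ h]; norm_num

theorem ae (hδ : 0 < δ) (t : ℝ) : al δ t * al δ t * ef δ t = ef δ t := by
  rcases le_total t δ with h | h
  · unfold ef; rw [max_eq_left (by linarith)]; ring
  · rw [al_eq_one hδ h]; ring

theorem te (hδ : 0 < δ) (t : ℝ) : t * ef1 δ t = ef δ t := by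
  rcases le_total t δ with h | h
  · unfold ef1 ef; rw [max_eq_left (by linarith)]; ring
  · unfold ef1
    rw [max_eq_left h]
    have : 0 < t := by linarith
    field_simp

theorem ef_lower (hδ : 0 < δ) {t M : ℝ} (h0 : 0 ≤ t) (hM : t ≤ M) :
    t ≤ 2 * δ + M / (δ * δ) * (ef δ t * ef δ t) := by
  have hM0 : 0 ≤ M := h0.trans hM
  rcases le_total t (2 * δ) with h | h
  · have : 0 ≤ M / (δ * δ) * (ef δ t * ef δ t) :=
      mul_nonneg (by positivity) (mul_self_nonneg _)
    linarith
  · have h1 : δ ≤ ef δ t := by unfold ef; rw [max_eq_right (by linarith)]; linarith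
    have h2 : δ * δ ≤ ef δ t * ef δ t := mul_le_mul h1 h1 hδ.le (hδ.le.trans h1)
    have h3 : M ≤ M / (δ * δ) * (ef δ t * ef δ t) := by
      calc M = M / (δ * δ) * (δ * δ) := by field_simp
        _ ≤ _ := mul_le_mul_of_nonneg_left h2 (by positivity)
    linarith

section Intertwine

variable {F : Type u} [CStarAlgebra F]

theorem aeval_intertwine (p q x : F) (h : p * x = x * q) (P : Polynomial ℝ) :
    Polynomial.aeval p P * x = x * Polynomial.aeval q P := by
  induction P using Polynomial.induction_on' with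
  | add f g hf hg => simp only [map_add, add_mul, mul_add, hf, hg]
  | monomial n r =>
    have : p ^ n * x = x * q ^ n := by
      induction n with
      | zero => simp
      | succ n ih =>
        rw [pow_succ, mul_assoc, h, ← mul_assoc, ih, mul_assoc, ← pow_succ]
    simp only [Polynomial.aeval_monomial]
    rw [mul_assoc, this, ← mul_assoc, ← mul_assoc, Algebra.commutes r x]

theorem cfc_intertwine (p q x : F) (hp : IsSelfAdjoint p) (hq : IsSelfAdjoint q)
    (h : p * x = x * q) (f : ℝ → ℝ) (hf : Continuous f) : cfc f p * x = x * cfc f q := by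
  nontriviality F
  rw [← sub_eq_zero, ← norm_le_zero_iff]
  refine le_of_forall_pos_le_add fun ε hε => ?_
  set R := max ‖p‖ ‖q‖ with hR
  set ε' := ε / (2 * (‖x‖ + 1)) with hε'
  have hε'0 : 0 < ε' := by positivity
  obtain ⟨P, hP⟩ := exists_polynomial_near_of_continuousOn (-R) R f hf.continuousOn ε' hε'0
  have hnear : ∀ a : F, IsSelfAdjoint a → ‖a‖ ≤ R → ‖cfc f a - Polynomial.aeval a P‖ ≤ ε' := by
    intro a ha haR
    rw [← cfc_polynomial P a ha, ← cfc_sub f P.eval a (by fun_prop) (by fun_prop)]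
    refine norm_cfc_le hε'0.le fun t ht => ?_
    have ht' : |t| ≤ R := (spectrum.norm_le_norm_of_mem ht).trans haR
    have := hP t (abs_le.1 ht')
    rw [Real.norm_eq_abs, abs_sub_comm]
    exact this.le
  have h1 := hnear p hp (le_max_left _ _)
  have h2 := hnear q hq (le_max_right _ _)
  have e : cfc f p * x - x * cfc f q
      = (cfc f p - Polynomial.aeval p P) * x - x * (cfc f q - Polynomial.aeval q P) := by
    rw [sub_mul, mul_sub, aeval_intertwine p q x h P]; abel
  rw [e, zero_add]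
  calc ‖(cfc f p - Polynomial.aeval p P) * x - x * (cfc f q - Polynomial.aeval q P)‖
      ≤ ‖(cfc f p - Polynomial.aeval p P) * x‖ + ‖x * (cfc f q - Polynomial.aeval q P)‖ :=
        norm_sub_le _ _
    _ ≤ ε' * ‖x‖ + ‖x‖ * ε' :=
        add_le_add ((norm_mul_le _ _).trans (mul_le_mul_of_nonneg_right h1 (norm_nonneg _)))
          ((norm_mul_le _ _).trans (mul_le_mul_of_nonneg_left h2 (norm_nonneg _)))
    _ = 2 * ‖x‖ * ε' := by ring
    _ ≤ ε := by
        rw [hε', ← mul_div_assoc, div_le_iff₀ (by positivity)]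
        linarith only [hε, norm_nonneg x]

theorem star_cfc_real (f : ℝ → ℝ) (a : F) : star (cfc f a) = cfc f a := by
  rw [← cfc_star]; simp

/-- if `x * q = 0` then `x * f(q) = f(0) x`. -/
theorem mul_cfc_of_mul_eq_zero (q x : F) (hq : IsSelfAdjoint q)
    (h : x * q = 0) (f : ℝ → ℝ) (hf : Continuous f) : x * cfc f q = f 0 • x := by
  have h1 := cfc_intertwine 0 q x (IsSelfAdjoint.zero F) hq (by rw [h, zero_mul]) f hf
  rw [← h1, cfc_apply_zero, Algebra.algebraMap_eq_smul_one, smul_mul_assoc, one_mul]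

theorem cfc_mul_of_mul_eq_zero (p x : F) (hp : IsSelfAdjoint p)
    (h : p * x = 0) (f : ℝ → ℝ) (hf : Continuous f) : cfc f p * x = f 0 • x := by
  have h1 := cfc_intertwine p 0 x hp (IsSelfAdjoint.zero F) (by rw [h, mul_zero]) f hf
  rw [h1, cfc_apply_zero, Algebra.algebraMap_eq_smul_one, mul_smul_comm, mul_one]

end Intertwine

section Full

variable {F : Type u} [CStarAlgebra F] [PartialOrder F] [StarOrderedRing F]

theorem star_sum_mul_sum_le {n : ℕ} (y : Fin n → F) :
    star (∑ i, y i) * ∑ i, y i ≤ (n : ℝ) • ∑ i, star (y i) * y i := by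
  have h0 : 0 ≤ ∑ i, ∑ j, star (y i - y j) * (y i - y j) :=
    Finset.sum_nonneg fun i _ => Finset.sum_nonneg fun j _ => star_mul_self_nonneg _
  have e : ∑ i, ∑ j, star (y i - y j) * (y i - y j)
      = (2 : ℝ) • ((n : ℝ) • ∑ i, star (y i) * y i - star (∑ i, y i) * ∑ i, y i) := by
    have e1 : ∀ i j, star (y i - y j) * (y i - y j)
        = star (y i) * y i + star (y j) * y j - star (y i) * y j - star (y j) * y i := by
      intro i j; rw [star_sub]; noncomm_ring
    simp_rw [e1, Finset.sum_sub_distrib, Finset.sum_add_distrib]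
    have e2 : ∑ i, ∑ j, star (y i) * y j = star (∑ i, y i) * ∑ i, y i := by
      rw [star_sum, Finset.sum_mul_sum]
    have e3 : ∑ i, ∑ j, star (y j) * y i = star (∑ i, y i) * ∑ i, y i := by
      rw [Finset.sum_comm, e2]
    rw [e2, e3]
    simp only [Finset.sum_const, Finset.card_univ, Fintype.card_fin]
    rw [← Finset.smul_sum, two_smul, ← Nat.cast_smul_eq_nsmul ℝ]
    abel
  rw [e] at h0
  have h1 : (0 : F) ≤ (2 : ℝ)⁻¹ • ((2 : ℝ) • ((n : ℝ) • ∑ i, star (y i) * y i
      - star (∑ i, y i) * ∑ i, y i)) := smul_nonneg (by norm_num) h0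
  rw [smul_smul, inv_mul_cancel₀ (by norm_num), one_smul] at h1
  exact sub_nonneg.1 h1

theorem conj_le {r x y : F} (h : x ≤ y) : star r * x * r ≤ star r * y * r :=
  star_left_conjugate_le_conjugate h r

/-- fullness produces the elements `d`. -/
theorem exists_d (X : F) (hfull : Full {X}) :
    ∃ (δ : ℝ) (N : ℕ) (d : Fin N → F), 0 < δ ∧
      ∑ r, star (d r) * (cfc (ef δ) (star X * X) * cfc (ef δ) (star X * X)) * d r = 1 := by
  obtain ⟨n, l, x, r, hx, hsum⟩ := hfull.exists_sum
  obtain rfl : x = fun _ => X := funext fun i => by simpa using hx i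
  rcases subsingleton_or_nontrivial F with hF | hF
  · exact ⟨1, 0, Fin.elim0, one_pos, Subsingleton.elim _ _⟩
  set a := star X * X with ha_def
  have ha : 0 ≤ a := star_mul_self_nonneg X
  have hsa : IsSelfAdjoint a := ha.isSelfAdjoint
  set A := ∑ i, star (r i) * a * r i with hA
  have hA0 : 0 ≤ A := Finset.sum_nonneg fun i _ => star_left_conjugate_nonneg ha _
  set L := ∑ i, ‖l i‖ ^ 2 with hL
  have hL0 : 0 ≤ L := Finset.sum_nonneg fun i _ => by positivity
  -- step A
  have hone : (1 : F) ≤ ((n : ℝ) * L) • A := by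
    have h1 := star_sum_mul_sum_le (fun i => l i * X * r i)
    rw [hsum, star_one, one_mul] at h1
    refine h1.trans ?_
    rw [mul_smul]
    refine smul_le_smul_of_nonneg_left ?_ (Nat.cast_nonneg n)
    rw [hA, Finset.smul_sum]
    refine Finset.sum_le_sum fun i _ => ?_
    have h2 : star (l i) * l i ≤ algebraMap ℝ F L := by
      refine CStarAlgebra.star_mul_le_algebraMap_norm_sq.trans ?_
      refine algebraMap_mono F ?_
      exact Finset.single_le_sum (f := fun i => ‖l i‖ ^ 2) (fun j _ => by positivity)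
        (Finset.mem_univ i)
    have h3 := conj_le (r := X * r i) h2
    have e1 : star (l i * X * r i) * (l i * X * r i)
        = star (X * r i) * (star (l i) * l i) * (X * r i) := by
      simp only [star_mul, mul_assoc]
    have e2 : L • (star (r i) * a * r i) = star (X * r i) * algebraMap ℝ F L * (X * r i) := by
      rw [Algebra.algebraMap_eq_smul_one, mul_smul_comm, smul_mul_assoc, mul_one]
      simp only [ha_def, star_mul, mul_assoc]
    rw [e1, e2]
    exact h3
  set K := (n : ℝ) * L + 1 with hK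
  have hK0 : 0 < K := by positivity
  have hone' : (1 : F) ≤ K • A := by
    refine hone.trans (smul_le_smul_of_nonneg_right ?_ hA0)
    rw [hK]; linarith
  set B := ‖∑ i, star (r i) * r i‖ with hB
  have hB0 : 0 ≤ B := norm_nonneg _
  have hRB : ∑ i, star (r i) * r i ≤ algebraMap ℝ F B :=
    IsSelfAdjoint.le_algebraMap_norm_self (a := ∑ i, star (r i) * r i)
      (IsSelfAdjoint.of_nonneg (Finset.sum_nonneg fun i _ => star_mul_self_nonneg _))
  set δ := (4 * (K * B + 1))⁻¹ with hδ
  have hδ0 : 0 < δ := by positivity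
  set E := cfc (ef δ) a with hE
  set M := ‖a‖ + 1 with hM
  have hM0 : 0 < M := by positivity
  -- step B
  have hstepB : a ≤ (2 * δ) • (1 : F) + (M / (δ * δ)) • (E * E) := by
    have e1 : (2 * δ) • (1 : F) + (M / (δ * δ)) • (E * E)
        = cfc (fun t => 2 * δ + M / (δ * δ) * (ef δ t * ef δ t)) a := by
      have hc := ef_cont (δ := δ)
      rw [cfc_const_add (2 * δ) (fun t => M / (δ * δ) * (ef δ t * ef δ t)) a (by fun_prop) hsa,
        cfc_const_mul (M / (δ * δ)) (fun t => ef δ t * ef δ t) a (by fun_prop),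
        cfc_mul (ef δ) (ef δ) a (by fun_prop) (by fun_prop), Algebra.algebraMap_eq_smul_one]
    rw [e1]
    have e2 : a = cfc (fun t : ℝ => t) a := (cfc_id' ℝ a).symm
    conv_lhs => rw [e2]
    have hc := ef_cont (δ := δ)
    refine cfc_mono (fun t ht => ?_) (by fun_prop) (by fun_prop)
    have ht0 : 0 ≤ t := spectrum_nonneg_of_nonneg ha ht
    have htM : t ≤ M := by
      have := spectrum.norm_le_norm_of_mem ht
      rw [Real.norm_eq_abs] at this
      have := (le_abs_self t).trans this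
      rw [hM]; linarith
    exact ef_lower hδ0 ht0 htM
  set Z := ∑ i, star (r i) * (E * E) * r i with hZ
  have hAZ : A ≤ (2 * δ) • (∑ i, star (r i) * r i) + (M / (δ * δ)) • Z := by
    rw [hA, hZ, Finset.smul_sum, Finset.smul_sum, ← Finset.sum_add_distrib]
    refine Finset.sum_le_sum fun i _ => ?_
    refine (conj_le (r := r i) hstepB).trans (le_of_eq ?_)
    simp only [mul_add, add_mul, mul_smul_comm, smul_mul_assoc, mul_one]
  have hfin : (1 : F) ≤ (K * (2 * δ * B)) • (1 : F) + (K * (M / (δ * δ))) • Z := by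
    refine hone'.trans ?_
    rw [mul_smul K (2 * δ * B), mul_smul K (M / (δ * δ)), ← smul_add]
    refine smul_le_smul_of_nonneg_left (hAZ.trans ?_) hK0.le
    have h2δ : (0 : ℝ) ≤ 2 * δ := by positivity
    rw [Algebra.algebraMap_eq_smul_one] at hRB
    have h5 : (2 * δ) • (∑ i, star (r i) * r i) ≤ (2 * δ * B) • (1 : F) := by
      rw [mul_smul (2 * δ) B]
      exact smul_le_smul_of_nonneg_left hRB h2δ
    exact add_le_add h5 le_rfl
  have hhalf : K * (2 * δ * B) ≤ 1 / 2 := by
    rw [hδ]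
    have : 0 < K * B + 1 := by positivity
    have e : K * (2 * (4 * (K * B + 1))⁻¹ * B) = (K * B) / (2 * (K * B + 1)) := by
      field_simp; ring
    rw [e, div_le_iff₀ (by positivity)]
    linarith
  have hZlow : ((1 : ℝ) / 2 / (K * (M / (δ * δ)))) • (1 : F) ≤ Z := by
    set q := K * (M / (δ * δ)) with hq
    have hq0 : 0 < q := by positivity
    have h1 : (1 : F) ≤ ((1 : ℝ) / 2) • (1 : F) + q • Z := by
      refine hfin.trans (add_le_add ?_ le_rfl)
      exact smul_le_smul_of_nonneg_right hhalf zero_le_one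
    have h2 : ((1 : ℝ) / 2) • (1 : F) ≤ q • Z := by
      have h3 : (1 : F) - ((1 : ℝ) / 2) • (1 : F) ≤ q • Z := by
        rw [sub_le_iff_le_add']; exact h1
      refine le_trans (le_of_eq ?_) h3
      rw [eq_sub_iff_add_eq, ← add_smul]; norm_num
    have h4 := smul_le_smul_of_nonneg_left h2 (inv_nonneg.2 hq0.le)
    rw [smul_smul, smul_smul, inv_mul_cancel₀ hq0.ne', one_smul] at h4
    rw [div_eq_inv_mul]; exact h4
  have hcpos : 0 < (1 : ℝ) / 2 / (K * (M / (δ * δ))) := by positivity
  have hZ0 : 0 ≤ Z := Finset.sum_nonneg fun i _ => by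
    have hEE : 0 ≤ E * E := by
      have := star_mul_self_nonneg E
      rwa [hE, star_cfc_real] at this
    exact star_left_conjugate_nonneg hEE _
  have hZsp : IsStrictlyPositive Z := by
    refine ⟨hZ0, ?_⟩
    refine CStarAlgebra.isUnit_of_le (((1 : ℝ) / 2 / (K * (M / (δ * δ)))) • (1 : F)) hZlow ?_
    refine ⟨smul_nonneg hcpos.le zero_le_one, ?_⟩
    rw [← Algebra.algebraMap_eq_smul_one]
    exact (IsUnit.mk0 _ hcpos.ne').map (algebraMap ℝ F)
  refine ⟨δ, n, fun i => r i * Z ^ (-(1 / 2) : ℝ), hδ0, ?_⟩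
  have hW : star (Z ^ (-(1 / 2) : ℝ)) = Z ^ (-(1 / 2) : ℝ) :=
    (IsSelfAdjoint.of_nonneg CFC.rpow_nonneg).star_eq
  have e : ∀ i, star (r i * Z ^ (-(1 / 2) : ℝ)) * (E * E) * (r i * Z ^ (-(1 / 2) : ℝ))
      = Z ^ (-(1 / 2) : ℝ) * (star (r i) * (E * E) * r i) * Z ^ (-(1 / 2) : ℝ) := by
    intro i
    rw [star_mul, hW]; simp only [mul_assoc]
  rw [Finset.sum_congr rfl fun i _ => e i, ← Finset.sum_mul, ← Finset.mul_sum, ← hZ]
  exact CFC.conjugate_rpow_neg_one_half Z hZsp

end Full

end Step6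

end Vale.Agent.P101
end
end

section

section

/-! Step 7: from leg data to the absorption data. -/

open scoped BigOperators

namespace Vale.Agent.P101

universe u v

/-- A sequence of pairwise commuting legs, each carrying `V, P, β, E`. -/
structure Tower (G : Type v) [Ring G] [StarRing G] where
  leg : ℕ → Set G
  star_mem : ∀ k x, x ∈ leg k → star x ∈ leg k
  comm : ∀ i j, i ≠ j → ∀ x ∈ leg i, ∀ y ∈ leg j, Commute x y
  V : ℕ → G
  P : ℕ → G
  β : ℕ → G
  E : ℕ → G
  hV : ∀ k, V k ∈ leg k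
  hP : ∀ k, P k ∈ leg k
  hβ : ∀ k, β k ∈ leg k
  hE : ∀ k, E k ∈ leg k
  β_sa : ∀ k, star (β k) = β k
  E_sa : ∀ k, star (E k) = E k
  VV : ∀ k, V k * V k = 0
  VP : ∀ k, V k * P k = -(P k * V k)
  VsP : ∀ k, star (V k) * P k = -(P k * star (V k))
  PsP : ∀ k, star (P k) * P k = β k * β k
  PPs : ∀ k, P k * star (P k) = β k * β k
  VsV : ∀ k, star (V k) * V k + V k * star (V k) = 1 - β k * β k
  βV : ∀ k, Commute (β k) (V k)
  βP : ∀ k, Commute (β k) (P k)
  Eβ : ∀ k, E k * β k = 0
  EV : ∀ k, E k * V k = 0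
  VE : ∀ k, star (V k) * V k * E k = E k
  PE : ∀ k, P k * E k = 0

namespace Tower

variable {G : Type v} [Ring G] [StarRing G] (T : Tower G)

/-- `Q k = P 0 * ... * P (k-1)` -/
def Q : ℕ → G
  | 0 => 1
  | k + 1 => Q k * T.P k

/-- `B k = β 0 * ... * β (k-1)` -/
def B : ℕ → G
  | 0 => 1
  | k + 1 => B k * T.β k

/-- `A k = ∑ i < k, Q i * V i` -/
def A : ℕ → G
  | 0 => 0
  | k + 1 => A k + T.Q k * T.V k

@[simp] theorem Q_zero : T.Q 0 = 1 := rfl
@[simp] theorem B_zero : T.B 0 = 1 := rfl
@[simp] theorem A_zero : T.A 0 = 0 := rfl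
theorem Q_succ (k : ℕ) : T.Q (k + 1) = T.Q k * T.P k := rfl
theorem B_succ (k : ℕ) : T.B (k + 1) = T.B k * T.β k := rfl
theorem A_succ (k : ℕ) : T.A (k + 1) = T.A k + T.Q k * T.V k := rfl

theorem commQ : ∀ k j, k ≤ j → ∀ y ∈ T.leg j, Commute (T.Q k) y
  | 0, _, _, y, _ => Commute.one_left y
  | k + 1, j, h, y, hy => (commQ k j (by omega) y hy).mul_left
      (T.comm k j (by omega) _ (T.hP k) y hy)

theorem commB : ∀ k j, k ≤ j → ∀ y ∈ T.leg j, Commute (T.B k) y
  | 0, _, _, y, _ => Commute.one_left y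
  | k + 1, j, h, y, hy => (commB k j (by omega) y hy).mul_left
      (T.comm k j (by omega) _ (T.hβ k) y hy)

theorem commA : ∀ k j, k ≤ j → ∀ y ∈ T.leg j, Commute (T.A k) y
  | 0, _, _, y, _ => Commute.zero_left y
  | k + 1, j, h, y, hy => (commA k j (by omega) y hy).add_left
      ((T.commQ k j (by omega) y hy).mul_left (T.comm k j (by omega) _ (T.hV k) y hy))

theorem commQs (k j : ℕ) (h : k ≤ j) (y : G) (hy : y ∈ T.leg j) : Commute (star (T.Q k)) y := by
  have := (T.commQ k j h _ (T.star_mem j y hy)).star_star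
  simpa using this

theorem commAs (k j : ℕ) (h : k ≤ j) (y : G) (hy : y ∈ T.leg j) : Commute (star (T.A k)) y := by
  have := (T.commA k j h _ (T.star_mem j y hy)).star_star
  simpa using this

theorem B_sa : ∀ k, star (T.B k) = T.B k
  | 0 => by simp
  | k + 1 => by
    rw [B_succ, star_mul, T.β_sa, B_sa k]
    exact (T.commB k k le_rfl _ (T.hβ k)).eq.symm

theorem QsQ : ∀ k, star (T.Q k) * T.Q k = T.B k * T.B k
  | 0 => by simp
  | k + 1 => by
    have h1 := T.commB k k le_rfl _ (T.star_mem k _ (T.hP k))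
    have h2 := T.commB k k le_rfl _ (T.hβ k)
    calc star (T.Q (k+1)) * T.Q (k+1) = star (T.P k) * (star (T.Q k) * T.Q k) * T.P k := by
          rw [Q_succ, star_mul]; noncomm_ring
      _ = (star (T.P k) * (T.B k * T.B k)) * T.P k := by rw [QsQ k]
      _ = ((T.B k * T.B k) * star (T.P k)) * T.P k := by rw [(h1.mul_left h1).eq]
      _ = T.B k * T.B k * (star (T.P k) * T.P k) := by rw [mul_assoc]
      _ = T.B k * (T.B k * T.β k) * T.β k := by rw [T.PsP]; noncomm_ring
      _ = T.B k * (T.β k * T.B k) * T.β k := by rw [h2.eq]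
      _ = _ := by rw [B_succ]; noncomm_ring

theorem QQs : ∀ k, T.Q k * star (T.Q k) = T.B k * T.B k
  | 0 => by simp
  | k + 1 => by
    have h1 := T.commQ k k le_rfl _ (T.hβ k)
    have h2 := T.commB k k le_rfl _ (T.hβ k)
    calc T.Q (k+1) * star (T.Q (k+1)) = T.Q k * (T.P k * star (T.P k)) * star (T.Q k) := by
          rw [Q_succ, star_mul]; noncomm_ring
      _ = (T.Q k * (T.β k * T.β k)) * star (T.Q k) := by rw [T.PPs k]
      _ = T.β k * T.β k * (T.Q k * star (T.Q k)) := by rw [(h1.mul_right h1).eq, mul_assoc]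
      _ = T.β k * (T.β k * T.B k) * T.B k := by rw [QQs k]; simp only [mul_assoc]
      _ = T.β k * (T.B k * T.β k) * T.B k := by rw [h2.eq]
      _ = (T.β k * T.B k) * (T.β k * T.B k) := by simp only [mul_assoc]
      _ = _ := by rw [B_succ, h2.eq]

theorem BV (k i : ℕ) : Commute (T.B k) (T.V i) := by
  induction k with
  | zero => exact Commute.one_left _
  | succ k ih =>
    rw [B_succ]
    refine ih.mul_left ?_
    by_cases h : k = i
    · subst h; exact T.βV k
    · exact T.comm k i h _ (T.hβ k) _ (T.hV i)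

theorem BP (k i : ℕ) : Commute (T.B k) (T.P i) := by
  induction k with
  | zero => exact Commute.one_left _
  | succ k ih =>
    rw [B_succ]
    refine ih.mul_left ?_
    by_cases h : k = i
    · subst h; exact T.βP k
    · exact T.comm k i h _ (T.hβ k) _ (T.hP i)

theorem βV' (k i : ℕ) : Commute (T.β k) (T.V i) := by
  by_cases h : k = i
  · subst h; exact T.βV k
  · exact T.comm k i h _ (T.hβ k) _ (T.hV i)

theorem βP' (k i : ℕ) : Commute (T.β k) (T.P i) := by
  by_cases h : k = i
  · subst h; exact T.βP k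
  · exact T.comm k i h _ (T.hβ k) _ (T.hP i)

theorem commute_Q_of {x : G} (h : ∀ i, Commute x (T.P i)) (k : ℕ) : Commute x (T.Q k) := by
  induction k with
  | zero => exact Commute.one_right _
  | succ k ih => exact ih.mul_right (h k)

theorem commute_A_of {x : G} (hP : ∀ i, Commute x (T.P i)) (hV : ∀ i, Commute x (T.V i)) (k : ℕ) :
    Commute x (T.A k) := by
  induction k with
  | zero => exact Commute.zero_right _
  | succ k ih => exact ih.add_right ((T.commute_Q_of hP k).mul_right (hV k))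

theorem BA (k i : ℕ) : Commute (T.B k) (T.A i) := T.commute_A_of (T.BP k) (T.BV k) i

theorem BAs (k i : ℕ) : Commute (T.B k) (star (T.A i)) := by
  have := (T.BA k i).star_star
  rwa [B_sa] at this

theorem βA (k i : ℕ) : Commute (T.β k) (T.A i) := T.commute_A_of (T.βP' k) (T.βV' k) i

theorem βAs (k i : ℕ) : Commute (T.β k) (star (T.A i)) := by
  have := (T.βA k i).star_star
  rwa [β_sa] at this

theorem AQ : ∀ k, T.A k * T.Q k = -(T.Q k * T.A k)
  | 0 => by simp
  | k + 1 => by
    have c1 := (T.commA k k le_rfl _ (T.hP k)).eq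
    have c2 := (T.commQ k k le_rfl _ (T.hV k)).eq
    have c3 := (T.commQ k k le_rfl _ (T.hP k)).eq
    have e1 : T.A k * (T.Q k * T.P k) = -(T.Q k * T.P k * T.A k) := by
      rw [← mul_assoc, AQ k, neg_mul, mul_assoc, c1, mul_assoc]
    have e2 : T.Q k * T.V k * (T.Q k * T.P k) = -(T.Q k * T.P k * (T.Q k * T.V k)) := by
      calc T.Q k * T.V k * (T.Q k * T.P k) = T.Q k * (T.V k * T.Q k) * T.P k := by noncomm_ring
        _ = T.Q k * (T.Q k * T.V k) * T.P k := by rw [c2]
        _ = T.Q k * T.Q k * (T.V k * T.P k) := by noncomm_ring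
        _ = -(T.Q k * (T.Q k * T.P k) * T.V k) := by rw [T.VP k]; noncomm_ring
        _ = -(T.Q k * (T.P k * T.Q k) * T.V k) := by rw [c3]
        _ = -(T.Q k * T.P k * (T.Q k * T.V k)) := by noncomm_ring
    rw [A_succ, Q_succ, add_mul, mul_add, e1, e2]
    abel

theorem AsQ : ∀ k, star (T.A k) * T.Q k = -(T.Q k * star (T.A k))
  | 0 => by simp
  | k + 1 => by
    have c1 := (T.commAs k k le_rfl _ (T.hP k)).eq
    have c2 := (T.commQ k k le_rfl _ (T.star_mem k _ (T.hV k))).eq
    have c3 := (T.commQ k k le_rfl _ (T.hP k)).eq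
    have c4 := (T.commQs k k le_rfl _ (T.hP k)).eq
    have e1 : star (T.A k) * (T.Q k * T.P k) = -(T.Q k * T.P k * star (T.A k)) := by
      rw [← mul_assoc, AsQ k, neg_mul, mul_assoc, c1, mul_assoc]
    have e2 : star (T.Q k * T.V k) * (T.Q k * T.P k) = -(T.Q k * T.P k * star (T.Q k * T.V k)) := by
      have c5 : T.Q k * star (T.Q k) = star (T.Q k) * T.Q k := by rw [QsQ, QQs]
      have c6 := (T.commQs k k le_rfl _ (T.star_mem k _ (T.hV k))).eq
      calc star (T.Q k * T.V k) * (T.Q k * T.P k)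
          = star (T.V k) * (star (T.Q k) * T.Q k) * T.P k := by rw [star_mul]; noncomm_ring
        _ = (star (T.V k) * T.Q k) * (star (T.Q k) * T.P k) := by rw [← c5]; noncomm_ring
        _ = (T.Q k * star (T.V k)) * (T.P k * star (T.Q k)) := by rw [c2, c4]
        _ = T.Q k * (star (T.V k) * T.P k) * star (T.Q k) := by noncomm_ring
        _ = -(T.Q k * T.P k * (star (T.V k) * star (T.Q k))) := by rw [T.VsP k]; noncomm_ring
        _ = _ := by rw [star_mul]
    rw [A_succ, Q_succ, star_add, add_mul, mul_add, e1, e2]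
    abel

theorem AA : ∀ k, T.A k * T.A k = 0
  | 0 => by simp
  | k + 1 => by
    have c1 := (T.commA k k le_rfl _ (T.hV k)).eq
    have c2 := (T.commQ k k le_rfl _ (T.hV k)).eq
    have e1 : T.A k * (T.Q k * T.V k) + T.Q k * T.V k * T.A k = 0 := by
      rw [← mul_assoc, T.AQ k, mul_assoc (T.Q k) (T.V k), ← c1]
      noncomm_ring
    have e2 : T.Q k * T.V k * (T.Q k * T.V k) = 0 := by
      calc T.Q k * T.V k * (T.Q k * T.V k) = T.Q k * (T.V k * T.Q k) * T.V k := by noncomm_ring
        _ = T.Q k * (T.Q k * T.V k) * T.V k := by rw [c2]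
        _ = T.Q k * T.Q k * (T.V k * T.V k) := by noncomm_ring
        _ = 0 := by rw [T.VV, mul_zero]
    rw [A_succ, add_mul, mul_add, mul_add, AA k, e2, zero_add, add_zero, e1]

theorem AsA_add : ∀ k, star (T.A k) * T.A k + T.A k * star (T.A k) = 1 - T.B k * T.B k
  | 0 => by simp
  | k + 1 => by
    have cA := (T.commAs k k le_rfl _ (T.hV k)).eq
    have cA' := (T.commA k k le_rfl _ (T.star_mem k _ (T.hV k))).eq
    have cB := (T.commB k k le_rfl _ (T.star_mem k _ (T.hV k))).eq
    have cB' := (T.commB k k le_rfl _ (T.hβ k)).eq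
    have cQ := (T.commQ k k le_rfl _ (T.hV k)).eq
    have cQs := (T.commQs k k le_rfl _ (T.star_mem k _ (T.hV k))).eq
    have cBV := (T.BV k k).eq
    -- cross terms
    have x1 : star (T.A k) * (T.Q k * T.V k) + T.Q k * T.V k * star (T.A k) = 0 := by
      rw [← mul_assoc, T.AsQ k, mul_assoc (T.Q k) (T.V k), ← cA]
      noncomm_ring
    have x2 : star (T.Q k * T.V k) * T.A k + T.A k * star (T.Q k * T.V k) = 0 := by
      have := congrArg star x1
      simpa [star_mul, star_add] using this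
    -- diagonal terms
    have d1 : star (T.Q k * T.V k) * (T.Q k * T.V k)
        = T.B k * T.B k * (star (T.V k) * T.V k) := by
      calc star (T.Q k * T.V k) * (T.Q k * T.V k)
          = star (T.V k) * (star (T.Q k) * T.Q k) * T.V k := by rw [star_mul]; noncomm_ring
        _ = (star (T.V k) * T.B k) * T.B k * T.V k := by rw [T.QsQ]; noncomm_ring
        _ = (T.B k * star (T.V k)) * T.B k * T.V k := by rw [cB]
        _ = T.B k * (star (T.V k) * T.B k) * T.V k := by noncomm_ring
        _ = T.B k * (T.B k * star (T.V k)) * T.V k := by rw [cB]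
        _ = _ := by noncomm_ring
    have d2 : (T.Q k * T.V k) * star (T.Q k * T.V k)
        = T.B k * T.B k * (T.V k * star (T.V k)) := by
      calc (T.Q k * T.V k) * star (T.Q k * T.V k)
          = (T.Q k * T.V k) * (star (T.V k) * star (T.Q k)) := by rw [star_mul]
        _ = (T.V k * T.Q k) * (star (T.Q k) * star (T.V k)) := by rw [cQ, cQs]
        _ = T.V k * (T.Q k * star (T.Q k)) * star (T.V k) := by noncomm_ring
        _ = (T.V k * T.B k) * T.B k * star (T.V k) := by rw [T.QQs]; noncomm_ring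
        _ = (T.B k * T.V k) * T.B k * star (T.V k) := by rw [cBV]
        _ = T.B k * (T.V k * T.B k) * star (T.V k) := by noncomm_ring
        _ = T.B k * (T.B k * T.V k) * star (T.V k) := by rw [cBV]
        _ = _ := by noncomm_ring
    calc star (T.A (k+1)) * T.A (k+1) + T.A (k+1) * star (T.A (k+1))
        = (star (T.A k) * T.A k + T.A k * star (T.A k))
          + (star (T.A k) * (T.Q k * T.V k) + T.Q k * T.V k * star (T.A k))
          + (star (T.Q k * T.V k) * T.A k + T.A k * star (T.Q k * T.V k))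
          + (star (T.Q k * T.V k) * (T.Q k * T.V k) + (T.Q k * T.V k) * star (T.Q k * T.V k)) := by
          rw [A_succ, star_add]; noncomm_ring
      _ = (1 - T.B k * T.B k) + T.B k * T.B k * (star (T.V k) * T.V k + T.V k * star (T.V k)) := by
          rw [AsA_add k, x1, x2, d1, d2]; noncomm_ring
      _ = (1 - T.B k * T.B k) + T.B k * T.B k * (1 - T.β k * T.β k) := by rw [T.VsV]
      _ = 1 - T.B k * (T.B k * T.β k) * T.β k := by noncomm_ring
      _ = 1 - T.B k * (T.β k * T.B k) * T.β k := by rw [cB']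
      _ = 1 - T.B (k+1) * T.B (k+1) := by rw [B_succ]; noncomm_ring

theorem QE (k j : ℕ) (h : k < j) : T.Q j * T.E k = 0 := by
  induction j, h using Nat.le_induction with
  | base => rw [Q_succ, mul_assoc, T.PE, mul_zero]
  | succ j hj ih =>
    rw [Q_succ, mul_assoc, (T.comm j k (by omega) _ (T.hP j) _ (T.hE k)).eq, ← mul_assoc, ih,
      zero_mul]

theorem AE (k j : ℕ) (h : k < j) : T.A j * T.E k = T.A k * T.E k + T.Q k * T.V k * T.E k := by
  induction j, h using Nat.le_induction with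
  | base => rw [A_succ, add_mul]
  | succ j hj ih =>
    rw [A_succ, add_mul, ih, mul_assoc (T.Q j), (T.comm j k (by omega) _ (T.hV j) _ (T.hE k)).eq,
      ← mul_assoc, T.QE k j hj, zero_mul, add_zero]

theorem exists_B (k n : ℕ) (h : k < n) : ∃ R, T.B n = R * T.β k := by
  induction n, h using Nat.le_induction with
  | base => exact ⟨T.B k, rfl⟩
  | succ n hn ih =>
    obtain ⟨R, hR⟩ := ih
    exact ⟨R * T.β n, by rw [B_succ, hR, mul_assoc,
      (T.comm k n (by omega) _ (T.hβ k) _ (T.hβ n)).eq, mul_assoc]⟩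

theorem B_anti [PartialOrder G] [StarOrderedRing G] (k n : ℕ) (h : k ≤ n) :
    T.B n * T.B n ≤ T.B k * T.B k := by
  induction n, h using Nat.le_induction with
  | base => exact le_rfl
  | succ n hn ih =>
    refine le_trans ?_ ih
    rw [← sub_nonneg]
    have e : T.B n * T.B n - T.B (n + 1) * T.B (n + 1)
        = star (T.B n) * (star (T.V n) * T.V n + T.V n * star (T.V n)) * T.B n := by
      have cB := (T.commB n n le_rfl _ (T.hβ n)).eq
      rw [T.VsV, B_sa, B_succ]
      calc T.B n * T.B n - T.B n * T.β n * (T.B n * T.β n)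
          = T.B n * T.B n - T.B n * T.β n * (T.β n * T.B n) := by rw [cB]
        _ = _ := by noncomm_ring
    rw [e]
    exact star_left_conjugate_nonneg
      (add_nonneg (star_mul_self_nonneg _) (mul_star_self_nonneg _)) _

/-- Data on top of a tower: the extra legs. -/
structure Extra (T : Tower G) (N n : ℕ) where
  d : ℕ → Fin N → G
  d_mem : ∀ k r, d k r ∈ T.leg k
  d_sum : ∀ k, k < n → ∑ r, star (d k r) * (T.E k * T.E k) * d k r = 1
  ex : Set G
  ex_star : ∀ x ∈ ex, star x ∈ ex
  ex_comm : ∀ x ∈ ex, ∀ k, ∀ y ∈ T.leg k, Commute x y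
  m : Fin N → G
  h : Fin n → G
  τ : G
  hm : ∀ r, m r ∈ ex
  hh : ∀ κ, h κ ∈ ex
  hτ : τ ∈ ex
  mm : ∀ r, star (m r) * m r = star τ * τ
  mm' : ∀ r r', r ≠ r' → star (m r) * m r' = 0
  h_sum : ∑ κ, star (h κ) * (star τ * τ) * h κ = 1

variable {T} {N n : ℕ} (X : Extra T N n)

/-- the summands of `S` -/
def Extra.Z (κ : Fin n) (r : Fin N) : G := T.E κ * X.d κ r * T.B n

/-- the element `S` -/
def Extra.S : G := ∑ κ, ∑ r, X.m r * X.h κ * X.Z κ r

theorem commute_B_of {x : G} (h : ∀ k, Commute x (T.β k)) (j : ℕ) : Commute x (T.B j) := by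
  induction j with
  | zero => exact Commute.one_right _
  | succ k ih => exact ih.mul_right (h k)

theorem Extra.commB {x : G} (hx : x ∈ X.ex) (k : ℕ) : Commute x (T.B k) :=
  commute_B_of (fun k => X.ex_comm x hx k _ (T.hβ k)) k

theorem Extra.commZ {x : G} (hx : x ∈ X.ex) (κ : Fin n) (r : Fin N) : Commute x (X.Z κ r) :=
  ((X.ex_comm x hx κ _ (T.hE κ)).mul_right (X.ex_comm x hx κ _ (X.d_mem κ r))).mul_right
    (X.commB hx n)

theorem βE (k : ℕ) : T.β k * T.E k = 0 := by
  have := congrArg star (T.Eβ k)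
  simpa [star_mul, T.E_sa, T.β_sa] using this

theorem Extra.star_Z (κ : Fin n) (r : Fin N) :
    star (X.Z κ r) = T.B n * star (X.d κ r) * T.E κ := by
  rw [Extra.Z, star_mul, star_mul, T.B_sa, T.E_sa]; noncomm_ring

theorem Extra.Z_off {Y : G} (hβ : ∀ k, Commute (T.β k) Y) (κ κ' : Fin n) (hne : κ ≠ κ')
    (r r' : Fin N) : star (X.Z κ r) * Y * X.Z κ' r' = 0 := by
  have hne' : (κ' : ℕ) ≠ (κ : ℕ) := fun h => hne (Fin.ext h.symm)
  obtain ⟨R, hR⟩ := T.exists_B κ' n κ'.2
  have c1 := (T.comm κ' κ hne' _ (T.hβ κ') _ (T.star_mem κ _ (X.d_mem κ r)))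
  have c2 := (T.comm κ' κ hne' _ (T.hβ κ') _ (T.hE κ))
  have c3 : Commute (T.β κ') (star (X.d κ r) * T.E κ * Y) := (c1.mul_right c2).mul_right (hβ κ')
  calc star (X.Z κ r) * Y * X.Z κ' r'
      = R * (T.β κ' * (star (X.d κ r) * T.E κ * Y)) * T.E κ' * (X.d κ' r' * T.B n) := by
        rw [X.star_Z, Extra.Z]; nth_rewrite 1 [hR]; simp only [mul_assoc]
    _ = R * (star (X.d κ r) * T.E κ * Y) * (T.β κ' * T.E κ') * (X.d κ' r' * T.B n) := by
        rw [c3.eq]; simp only [mul_assoc]
    _ = 0 := by rw [βE]; simp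

theorem Extra.term {Y : G} (hY : ∀ x ∈ X.ex, Commute x Y) (κ κ' : Fin n) (r r' : Fin N) :
    star (X.m r * X.h κ * X.Z κ r) * Y * (X.m r' * X.h κ' * X.Z κ' r')
      = (star (X.h κ) * (star (X.m r) * X.m r') * X.h κ') * (star (X.Z κ r) * Y * X.Z κ' r') := by
  have c1 : Commute (X.m r' * X.h κ') Y := (hY _ (X.hm r')).mul_left (hY _ (X.hh κ'))
  have c2 : ∀ x ∈ X.ex, Commute x (star (X.Z κ r)) := fun x hx => by
    have := (X.commZ (X.ex_star x hx) κ r).star_star
    simpa using this
  have c3 : Commute (star (X.h κ) * (star (X.m r) * X.m r') * X.h κ') (star (X.Z κ r)) :=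
    (((c2 _ (X.ex_star _ (X.hh κ))).mul_left ((c2 _ (X.ex_star _ (X.hm r))).mul_left
      (c2 _ (X.hm r')))).mul_left (c2 _ (X.hh κ')))
  calc star (X.m r * X.h κ * X.Z κ r) * Y * (X.m r' * X.h κ' * X.Z κ' r')
      = star (X.Z κ r) * (star (X.h κ) * star (X.m r)) * (Y * (X.m r' * X.h κ')) * X.Z κ' r' := by
        rw [star_mul, star_mul]; simp only [mul_assoc]
    _ = (star (X.Z κ r) * (star (X.h κ) * (star (X.m r) * X.m r') * X.h κ')) * Y * X.Z κ' r' := by
        rw [← c1.eq]; simp only [mul_assoc]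
    _ = _ := by rw [← c3.eq]; simp only [mul_assoc]

theorem Extra.SYS {Y : G} (hY : ∀ x ∈ X.ex, Commute x Y) (hβ : ∀ k, Commute (T.β k) Y) :
    star X.S * Y * X.S = ∑ κ, (star (X.h κ) * (star X.τ * X.τ) * X.h κ) *
      (T.B n * (∑ r, star (X.d κ r) * (T.E κ * Y * T.E κ) * X.d κ r) * T.B n) := by
  have e1 : star X.S * Y * X.S = ∑ κ, ∑ r, ∑ κ', ∑ r',
      star (X.m r * X.h κ * X.Z κ r) * Y * (X.m r' * X.h κ' * X.Z κ' r') := by
    rw [Extra.S, star_sum, Finset.sum_mul, Finset.sum_mul]
    refine Finset.sum_congr rfl fun κ _ => ?_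
    rw [star_sum, Finset.sum_mul, Finset.sum_mul]
    refine Finset.sum_congr rfl fun r _ => ?_
    rw [Finset.mul_sum]
    refine Finset.sum_congr rfl fun κ' _ => ?_
    rw [Finset.mul_sum]
  rw [e1]
  refine Finset.sum_congr rfl fun κ _ => ?_
  have e2 : ∀ r : Fin N, ∑ κ', ∑ r',
      star (X.m r * X.h κ * X.Z κ r) * Y * (X.m r' * X.h κ' * X.Z κ' r')
      = (star (X.h κ) * (star X.τ * X.τ) * X.h κ) * (star (X.Z κ r) * Y * X.Z κ r) := by
    intro r
    rw [Finset.sum_eq_single κ, Finset.sum_eq_single r]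
    · rw [X.term hY, X.mm]
    · intro r' _ hr'
      rw [X.term hY, X.mm' r r' (Ne.symm hr')]; simp
    · intro h; exact absurd (Finset.mem_univ _) h
    · intro κ' _ hκ'
      refine Finset.sum_eq_zero fun r' _ => ?_
      rw [X.term hY, X.Z_off hβ κ κ' (Ne.symm hκ'), mul_zero]
    · intro h; exact absurd (Finset.mem_univ _) h
  rw [Finset.sum_congr rfl fun r _ => e2 r, ← Finset.mul_sum]
  congr 1
  rw [Finset.mul_sum, Finset.sum_mul]
  refine Finset.sum_congr rfl fun r _ => ?_
  rw [X.star_Z, Extra.Z]; simp only [mul_assoc]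

theorem Extra.bS : T.B n * X.S = 0 := by
  rw [Extra.S, Finset.mul_sum]
  refine Finset.sum_eq_zero fun κ _ => ?_
  rw [Finset.mul_sum]
  refine Finset.sum_eq_zero fun r _ => ?_
  obtain ⟨R, hR⟩ := T.exists_B κ n κ.2
  have c := ((X.commB (X.hm r) n).mul_left (X.commB (X.hh κ) n)).eq
  rw [← mul_assoc, ← c, mul_assoc, Extra.Z, ← mul_assoc (T.B n), ← mul_assoc (T.B n)]
  have : T.B n * T.E κ = 0 := by rw [hR, mul_assoc, βE, mul_zero]
  rw [this]; simp

end Tower

section Final

variable {F : Type u} {G : Type v} [CStarAlgebra F] [CStarAlgebra G]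

theorem LegData.PE (D : LegData F) : D.P * D.E = 0 := by
  have : star (D.P * D.E) * (D.P * D.E) = 0 := by
    calc star (D.P * D.E) * (D.P * D.E) = D.E * (star D.P * D.P) * D.E := by
          rw [star_mul, D.E_sa]; noncomm_ring
      _ = (D.E * D.β) * D.β * D.E := by rw [D.PsP]; noncomm_ring
      _ = 0 := by rw [D.Eβ]; simp
  exact (CStarRing.star_mul_self_eq_zero_iff _).1 this

/-- The tower of the absorbing legs. -/
noncomputable def towerOf (D : LegData F) {n : ℕ} (σ : Fin n → F →⋆ₐ[ℂ] G)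
    (hσ : ∀ i j, i ≠ j → ∀ x y, Commute (σ i x) (σ j y)) : Tower G where
  leg k := if h : k < n then Set.range (σ ⟨k, h⟩) else {0, 1}
  star_mem k x hx := by
    by_cases h : k < n
    · simp only [h, dif_pos] at hx ⊢
      obtain ⟨y, rfl⟩ := hx
      exact ⟨star y, map_star _ _⟩
    · simp only [h, dif_neg, not_false_eq_true] at hx ⊢
      rcases hx with rfl | rfl <;> simp
  comm i j hij x hx y hy := by
    by_cases hi : i < n
    · by_cases hj : j < n
      · simp only [hi, hj, dif_pos] at hx hy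
        obtain ⟨x, rfl⟩ := hx
        obtain ⟨y, rfl⟩ := hy
        exact hσ _ _ (fun h => hij (by simpa using h)) x y
      · simp only [hj, dif_neg, not_false_eq_true] at hy
        rcases hy with rfl | rfl
        · exact Commute.zero_right _
        · exact Commute.one_right _
    · simp only [hi, dif_neg, not_false_eq_true] at hx
      rcases hx with rfl | rfl
      · exact Commute.zero_left _
      · exact Commute.one_left _
  V k := if h : k < n then σ ⟨k, h⟩ D.V else 0
  P k := if h : k < n then σ ⟨k, h⟩ D.P else 1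
  β k := if h : k < n then σ ⟨k, h⟩ D.β else 1
  E k := if h : k < n then σ ⟨k, h⟩ D.E else 0
  hV k := by by_cases h : k < n <;> simp [h]
  hP k := by by_cases h : k < n <;> simp [h]
  hβ k := by by_cases h : k < n <;> simp [h]
  hE k := by by_cases h : k < n <;> simp [h]
  β_sa k := by by_cases h : k < n <;> simp [h, ← map_star, D.β_sa]
  E_sa k := by by_cases h : k < n <;> simp [h, ← map_star, D.E_sa]
  VV k := by by_cases h : k < n <;> simp [h, ← map_mul, D.VV]
  VP k := by by_cases h : k < n <;> simp [h, ← map_mul, D.VP]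
  VsP k := by by_cases h : k < n <;> simp [h, ← map_star, ← map_mul, D.VsP]
  PsP k := by by_cases h : k < n <;> simp [h, ← map_star, ← map_mul, D.PsP]
  PPs k := by by_cases h : k < n <;> simp [h, ← map_star, ← map_mul, D.PPs]
  VsV k := by
    by_cases h : k < n
    · simp only [h, dif_pos, ← map_star, ← map_mul, ← map_add, D.VsV, map_sub, map_one]
    · simp [h]
  βV k := by
    by_cases h : k < n
    · simp only [h, dif_pos]; exact D.βV.map (σ ⟨k, h⟩)
    · simp [h]
  βP k := by
    by_cases h : k < n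
    · simp only [h, dif_pos]; exact D.βP.map (σ ⟨k, h⟩)
    · simp [h]
  Eβ k := by by_cases h : k < n <;> simp [h, ← map_mul, D.Eβ]
  EV k := by by_cases h : k < n <;> simp [h, ← map_mul, D.EV]
  VE k := by by_cases h : k < n <;> simp [h, ← map_star, ← map_mul, D.VE]
  PE k := by by_cases h : k < n <;> simp [h, ← map_mul, D.PE]

theorem exists_extra (D : LegData F) {n : ℕ} (σ : Fin n → F →⋆ₐ[ℂ] G)
    (hσ : ∀ i j, i ≠ j → ∀ x y, Commute (σ i x) (σ j y)) (K : Legs (Fin D.N) F G)
    (hn : n = D.N ^ D.N) (hK : ∀ i j x y, Commute (σ i x) (K.σ j y)) :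
    ∃ X : Tower.Extra (towerOf D σ hσ) D.N n,
      ∀ x ∈ X.ex, ∀ k, ∀ y ∈ (towerOf D σ hσ).leg k, Commute x y := by
  classical
  subst hn
  let n := D.N ^ D.N
  let T := towerOf D σ hσ
  have hKcomm : ∀ z k y, y ∈ T.leg k → Commute (K.prodHom z) y := by
    intro z k y hy
    by_cases h : k < n
    · have hy' : y ∈ Set.range (σ ⟨k, h⟩) := by
        simpa [T, towerOf, h, n] using hy
      obtain ⟨x, rfl⟩ := hy'
      refine Commute.symm ?_
      unfold Legs.prodHom
      exact MonoidHom.commute_noncommPiCoprod _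
        (fun i x' => hK ⟨k, h⟩ i x x') _
    · have hy' : y ∈ ({0, 1} : Set G) := by
        have h' : ¬ k < D.N ^ D.N := h
        simpa [T, towerOf, h'] using hy
      rcases hy' with rfl | rfl
      · exact Commute.zero_right _
      · exact Commute.one_right _
  let X : Tower.Extra T D.N n :=
    { d := fun k r => if h : k < D.N ^ D.N then σ ⟨k, h⟩ (D.d r) else 0
      d_mem := fun k r => by
        by_cases h : k < D.N ^ D.N <;> simp [T, towerOf, h]
      d_sum := fun k hk => by
        have hk' : k < D.N ^ D.N := hk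
        have := congrArg (σ ⟨k, hk⟩) D.full
        simpa [T, towerOf, hk', map_sum, map_star] using this
      ex := Set.range K.prodHom
      ex_star := by
        rintro _ ⟨z, rfl⟩
        exact ⟨star z, (K.star_prodHom z).symm⟩
      ex_comm := by
        rintro _ ⟨z, rfl⟩ k y hy
        exact hKcomm z k y hy
      m := fun r => K.prodHom fun j => if (r : ℕ).testBit j then D.V * D.E else D.E
      h := fun κ => K.prodHom fun j => D.d (finFunctionFinEquiv.symm κ j)
      τ := K.prodHom fun _ => D.E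
      hm := fun r => ⟨_, rfl⟩
      hh := fun κ => ⟨_, rfl⟩
      hτ := ⟨_, rfl⟩
      mm := fun r => by
        rw [K.star_prodHom, K.star_prodHom, ← map_mul, ← map_mul]
        congr 1
        funext j
        by_cases hb : (r : ℕ).testBit j
        · simp only [Pi.mul_apply, Pi.star_apply, hb, if_true, star_mul, D.E_sa]
          rw [mul_assoc, ← mul_assoc (star D.V), D.VE]
        · simp [hb]
      mm' := fun r r' hr => by
        have : ∃ j : Fin D.N, (r : ℕ).testBit j ≠ (r' : ℕ).testBit j := by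
          by_contra hcon
          push Not at hcon
          refine hr (Fin.ext (Nat.eq_of_testBit_eq fun i => ?_))
          by_cases hi : i < D.N
          · exact hcon ⟨i, hi⟩
          · have h1 : ∀ x : Fin D.N, (x : ℕ).testBit i = false := fun x =>
              Nat.testBit_lt_two_pow (lt_of_lt_of_le (lt_of_lt_of_le x.2 (by omega))
                Nat.lt_two_pow_self.le)
            rw [h1, h1]
        obtain ⟨j, hj⟩ := this
        rw [K.star_prodHom, ← map_mul]
        refine K.prodHom_eq_zero _ j ?_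
        have hEVs : star D.V * D.E = 0 := by
          have := congrArg star D.EV
          simpa [star_mul, D.E_sa] using this
        cases h1 : (r : ℕ).testBit j <;> cases h2 : (r' : ℕ).testBit j
        · exact absurd (h1.trans h2.symm) hj
        · simp only [Pi.mul_apply, Pi.star_apply, h1, h2, if_true]
          simp only [Bool.false_eq_true, if_false, D.E_sa]
          rw [← mul_assoc, D.EV, zero_mul]
        · simp only [Pi.mul_apply, Pi.star_apply, h1, h2, if_true, star_mul, D.E_sa]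
          simp only [Bool.false_eq_true, if_false]
          rw [mul_assoc, hEVs, mul_zero]
        · exact absurd (h1.trans h2.symm) hj
      h_sum := by
        have e1 : ∀ κ : Fin n, star (K.prodHom fun j => D.d (finFunctionFinEquiv.symm κ j)) *
            (star (K.prodHom fun _ => D.E) * K.prodHom fun _ => D.E) *
            (K.prodHom fun j => D.d (finFunctionFinEquiv.symm κ j))
            = K.prodHom (fun j => star (D.d (finFunctionFinEquiv.symm κ j)) * (D.E * D.E) *
              D.d (finFunctionFinEquiv.symm κ j)) := by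
          intro κ
          rw [K.star_prodHom, K.star_prodHom, ← map_mul, ← map_mul, ← map_mul]
          congr 1
          funext j
          simp [D.E_sa]
        rw [Finset.sum_congr rfl fun κ _ => e1 κ]
        rw [Fintype.sum_equiv (finFunctionFinEquiv.symm)
          (fun κ : Fin n => K.prodHom (fun j => star (D.d (finFunctionFinEquiv.symm κ j)) *
            (D.E * D.E) * D.d (finFunctionFinEquiv.symm κ j)))
          (fun f : Fin D.N → Fin D.N => K.prodHom (fun j => star (D.d (f j)) *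
            (D.E * D.E) * D.d (f j))) (fun κ => rfl)]
        rw [← K.prodHom_sum (fun _ r => star (D.d r) * (D.E * D.E) * D.d r), D.full]
        exact map_one _ }
  exact ⟨X, fun x hx => X.ex_comm x hx⟩

end Final

end Vale.Agent.P101
end
end

section

section

/-! Step 8: polar lemma and final algebra. -/

namespace Vale.Agent.P101

universe u

namespace Step8

variable {F : Type*} [CStarAlgebra F] [PartialOrder F] [StarOrderedRing F]

/-- key norm estimate -/
theorem polar_key (a z : F) (C M : ℝ) (ha : 0 ≤ a) (hz : 0 ≤ z) (hC : 0 ≤ C) (hM : 0 ≤ M)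
    (h : z ≤ C • a) (g : ℝ → ℝ) (hg : ContinuousOn g (spectrum ℝ a))
    (hb : ∀ t ∈ spectrum ℝ a, t * g t ^ 2 ≤ M) :
    ‖cfc g a * CFC.sqrt z‖ ^ 2 ≤ C * M := by
  have hsa : IsSelfAdjoint a := ha.isSelfAdjoint
  set H := cfc g a with hH
  have hHsa : star H = H := by
    rw [hH, ← cfc_star]
    simp
  have hsz : star (CFC.sqrt z) = CFC.sqrt z := (CFC.sqrt_nonneg z).isSelfAdjoint
  have h1 : ‖H * CFC.sqrt z‖ ^ 2 = ‖H * z * H‖ := by
    rw [pow_two, ← CStarRing.norm_self_mul_star]
    congr 1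
    rw [star_mul, hHsa, hsz]
    calc H * CFC.sqrt z * (CFC.sqrt z * H) = H * (CFC.sqrt z * CFC.sqrt z) * H := by
          simp only [mul_assoc]
      _ = _ := by rw [CFC.sqrt_mul_sqrt_self z hz]
  rw [h1]
  have h2 : H * z * H ≤ C • (H * a * H) := by
    have := star_left_conjugate_le_conjugate h H
    rw [hHsa] at this
    simpa [mul_smul_comm, smul_mul_assoc] using this
  have h3 : 0 ≤ H * z * H := by
    have := star_left_conjugate_nonneg hz H
    rwa [hHsa] at this
  have h4 : ‖H * z * H‖ ≤ ‖C • (H * a * H)‖ :=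
    CStarAlgebra.norm_le_norm_of_nonneg_of_le h3 h2
  refine h4.trans ?_
  rw [norm_smul, Real.norm_of_nonneg hC]
  refine mul_le_mul_of_nonneg_left ?_ hC
  have h5 : H * a * H = cfc (fun t => g t * t * g t) a := by
    rw [cfc_mul (fun t => g t * t) g a (by fun_prop) hg, cfc_mul g (fun t => t) a hg (by fun_prop),
      cfc_id' ℝ a]
  rw [h5]
  refine norm_cfc_le hM ?_
  intro x hx
  have hx0 : 0 ≤ x := spectrum_nonneg_of_nonneg ha hx
  rw [Real.norm_of_nonneg]
  · have := hb x hx
    linarith only [this, (by ring : g x * x * g x = x * g x ^ 2)]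
  · have : g x * x * g x = x * g x ^ 2 := by ring
    rw [this]; positivity

/-- scalar regularised inverse square root -/
noncomputable def ginv (e t : ℝ) : ℝ := (Real.sqrt (|t| + e))⁻¹

theorem ginv_cont {e : ℝ} (he : 0 < e) : Continuous (ginv e) := by
  unfold ginv
  refine Continuous.inv₀ (by fun_prop) ?_
  intro t
  have : 0 < |t| + e := by positivity
  exact (Real.sqrt_pos.2 this).ne'

theorem ginv_bound {e t : ℝ} (he : 0 < e) (ht : 0 ≤ t) :
    |t * ginv e t - Real.sqrt t| ≤ Real.sqrt e := by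
  unfold ginv
  rw [abs_of_nonneg ht]
  set u := Real.sqrt t
  set v := Real.sqrt (t + e)
  have hu : 0 ≤ u := Real.sqrt_nonneg t
  have huu : u * u = t := Real.mul_self_sqrt ht
  have hv : 0 < v := Real.sqrt_pos.2 (by positivity)
  have hvv : v * v = t + e := Real.mul_self_sqrt (by positivity)
  have hw : 0 ≤ Real.sqrt e := Real.sqrt_nonneg e
  have hww : Real.sqrt e * Real.sqrt e = e := Real.mul_self_sqrt he.le
  have huv : u ≤ v := Real.sqrt_le_sqrt (by linarith)
  have hvw : v ≤ u + Real.sqrt e := by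
    by_contra hcon
    push Not at hcon
    have h0 := mul_self_lt_mul_self (add_nonneg hu hw) hcon
    linarith only [h0, huu, hvv, hww, mul_nonneg hu hw]
  have : t * v⁻¹ - u = - (u * (v - u) * v⁻¹) := by
    rw [← huu]; field_simp; ring
  rw [this, abs_neg, abs_of_nonneg (by have := sub_nonneg.2 huv; positivity)]
  have h1 : u * (v - u) ≤ Real.sqrt e * v := by
    linarith only [mul_nonneg hu (sub_nonneg.2 hvw), mul_nonneg hw (sub_nonneg.2 huv)]
  calc u * (v - u) * v⁻¹ ≤ Real.sqrt e * v * v⁻¹ := by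
        exact mul_le_mul_of_nonneg_right h1 (inv_nonneg.2 hv.le)
    _ = Real.sqrt e := by field_simp

theorem ginv_diff_bound {e e' t : ℝ} (he : 0 < e) (he' : 0 < e') (ht : 0 ≤ t) :
    (t * (ginv e t - ginv e' t)) ^ 2 ≤ (Real.sqrt e + Real.sqrt e') ^ 2 := by
  have h1 := ginv_bound he ht
  have h2 := ginv_bound he' ht
  rw [sq_le_sq]
  rw [abs_of_nonneg (a := Real.sqrt e + Real.sqrt e') (by positivity)]
  have : t * (ginv e t - ginv e' t) = (t * ginv e t - Real.sqrt t) - (t * ginv e' t - Real.sqrt t) := by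
    ring
  rw [this]
  exact (abs_sub _ _).trans (add_le_add h1 h2)

theorem polar_cauchy (T z : F) (C : ℝ) (hz : 0 ≤ z) (hC : 0 ≤ C) (h : z ≤ C • (star T * T))
    {e e' : ℝ} (he : 0 < e) (he' : 0 < e') :
    ‖T * cfc (ginv e) (star T * T) * CFC.sqrt z - T * cfc (ginv e') (star T * T) * CFC.sqrt z‖ ^ 2
      ≤ C * (Real.sqrt e + Real.sqrt e') ^ 2 := by
  set a := star T * T with haT
  have ha : 0 ≤ a := star_mul_self_nonneg T
  have hsa : IsSelfAdjoint a := ha.isSelfAdjoint
  have hce := ginv_cont he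
  have hce' := ginv_cont he'
  have hsz : star (CFC.sqrt z) = CFC.sqrt z := (CFC.sqrt_nonneg z).isSelfAdjoint
  set D := cfc (fun t => ginv e t - ginv e' t) a with hD
  have hDsub : D = cfc (ginv e) a - cfc (ginv e') a := by
    rw [hD]
    exact cfc_sub (ginv e) (ginv e') a
  have hDsa : star D = D := by
    rw [hD, ← cfc_star]
    simp
  have h1 : T * cfc (ginv e) a * CFC.sqrt z - T * cfc (ginv e') a * CFC.sqrt z
      = T * D * CFC.sqrt z := by
    rw [hDsub]; noncomm_ring
  rw [h1]
  set g : ℝ → ℝ := fun t => Real.sqrt t * (ginv e t - ginv e' t) with hg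
  have hgc : Continuous g := by
    rw [hg]; exact Real.continuous_sqrt.mul (hce.sub hce')
  have hsat : star (cfc g a) = cfc g a := by
    rw [← cfc_star]; simp
  have h2 : D * a * D = cfc g a * cfc g a := by
    have e1 : D * a * D = cfc (fun t => (ginv e t - ginv e' t) * t * (ginv e t - ginv e' t)) a := by
      rw [cfc_mul (fun t => (ginv e t - ginv e' t) * t) (fun t => (ginv e t - ginv e' t)) a
        (by fun_prop) (by fun_prop), cfc_mul (fun t => (ginv e t - ginv e' t)) (fun t => t) a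
        (by fun_prop) (by fun_prop), cfc_id' ℝ a]
    rw [e1, ← cfc_mul g g a (by fun_prop) (by fun_prop)]
    refine cfc_congr ?_
    intro t ht
    have ht0 : 0 ≤ t := spectrum_nonneg_of_nonneg ha ht
    have := Real.mul_self_sqrt ht0
    simp only [hg]
    calc (ginv e t - ginv e' t) * t * (ginv e t - ginv e' t)
        = (ginv e t - ginv e' t) * (Real.sqrt t * Real.sqrt t) * (ginv e t - ginv e' t) := by rw [this]
      _ = _ := by ring
  have h3 : ‖T * D * CFC.sqrt z‖ ^ 2 = ‖cfc g a * CFC.sqrt z‖ ^ 2 := by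
    rw [pow_two, pow_two, ← CStarRing.norm_star_mul_self, ← CStarRing.norm_star_mul_self]
    congr 1
    simp only [star_mul, hsz, hDsa, hsat]
    calc CFC.sqrt z * (D * star T) * (T * D * CFC.sqrt z)
        = CFC.sqrt z * (D * (star T * T) * D) * CFC.sqrt z := by simp only [mul_assoc]
      _ = CFC.sqrt z * (cfc g a * cfc g a) * CFC.sqrt z := by rw [← haT, h2]
      _ = _ := by simp only [mul_assoc]
  rw [h3]
  refine polar_key a z C _ ha hz hC (by positivity) h g hgc.continuousOn ?_
  intro t ht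
  have ht0 : 0 ≤ t := spectrum_nonneg_of_nonneg ha ht
  have := ginv_diff_bound he he' ht0
  have hs := Real.sq_sqrt ht0
  have e2 : t * g t ^ 2 = (t * (ginv e t - ginv e' t)) ^ 2 := by
    simp only [hg]
    calc t * (Real.sqrt t * (ginv e t - ginv e' t)) ^ 2
        = t * (Real.sqrt t ^ 2) * (ginv e t - ginv e' t) ^ 2 := by ring
      _ = _ := by rw [hs]; ring
  rw [e2]; exact this

theorem polar_approx (T z : F) (C : ℝ) (hz : 0 ≤ z) (hC : 0 ≤ C) (h : z ≤ C • (star T * T))
    {e : ℝ} (he : 0 < e) :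
    ‖z - star (T * cfc (ginv e) (star T * T) * CFC.sqrt z) *
      (T * cfc (ginv e) (star T * T) * CFC.sqrt z)‖ ≤ C * e := by
  set a := star T * T with haT
  have ha : 0 ≤ a := star_mul_self_nonneg T
  have hsa : IsSelfAdjoint a := ha.isSelfAdjoint
  have hce := ginv_cont he
  have hsz : star (CFC.sqrt z) = CFC.sqrt z := (CFC.sqrt_nonneg z).isSelfAdjoint
  set G := cfc (ginv e) a with hG
  have hGsa : star G = G := by
    rw [hG, ← cfc_star]; simp
  set g : ℝ → ℝ := fun t => Real.sqrt e * ginv e t with hg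
  have hgc : Continuous g := by rw [hg]; fun_prop
  have hsat : star (cfc g a) = cfc g a := by
    rw [← cfc_star]; simp
  have h2 : 1 - G * a * G = cfc g a * cfc g a := by
    have e1 : G * a * G = cfc (fun t => ginv e t * t * ginv e t) a := by
      rw [cfc_mul (fun t => ginv e t * t) (ginv e) a (by fun_prop) (by fun_prop),
        cfc_mul (ginv e) (fun t => t) a (by fun_prop) (by fun_prop), cfc_id' ℝ a]
    have e0 : (1 : F) = cfc (fun _ : ℝ => (1 : ℝ)) a := by
      rw [cfc_const_one ℝ a]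
    rw [e1, e0, ← cfc_sub _ _ a (by fun_prop) (by fun_prop), ← cfc_mul g g a (by fun_prop) (by fun_prop)]
    refine cfc_congr ?_
    intro t ht
    have ht0 : 0 ≤ t := spectrum_nonneg_of_nonneg ha ht
    simp only [hg, ginv]
    rw [abs_of_nonneg ht0]
    have hv : 0 < Real.sqrt (t + e) := Real.sqrt_pos.2 (by positivity)
    have hvv : Real.sqrt (t + e) * Real.sqrt (t + e) = t + e := Real.mul_self_sqrt (by positivity)
    have hee : Real.sqrt e * Real.sqrt e = e := Real.mul_self_sqrt he.le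
    have : Real.sqrt e * (Real.sqrt (t + e))⁻¹ * (Real.sqrt e * (Real.sqrt (t + e))⁻¹)
        = (Real.sqrt e * Real.sqrt e) * ((Real.sqrt (t + e)) * Real.sqrt (t+e))⁻¹ := by
      rw [mul_inv]; ring
    rw [this, hee, hvv]
    have h3 : (Real.sqrt (t + e))⁻¹ * t * (Real.sqrt (t + e))⁻¹ = t * (Real.sqrt (t+e) * Real.sqrt (t+e))⁻¹ := by
      rw [mul_inv]; ring
    rw [h3, hvv]
    have : t + e ≠ 0 := by positivity
    field_simp
    ring
  have h3 : z - star (T * G * CFC.sqrt z) * (T * G * CFC.sqrt z)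
      = star (cfc g a * CFC.sqrt z) * (cfc g a * CFC.sqrt z) := by
    simp only [star_mul, hsz, hGsa, hsat]
    calc z - CFC.sqrt z * (G * star T) * (T * G * CFC.sqrt z)
        = CFC.sqrt z * CFC.sqrt z - CFC.sqrt z * (G * (star T * T) * G) * CFC.sqrt z := by
          rw [CFC.sqrt_mul_sqrt_self z hz]; simp only [mul_assoc]
      _ = CFC.sqrt z * (1 - G * a * G) * CFC.sqrt z := by rw [← haT]; noncomm_ring
      _ = CFC.sqrt z * (cfc g a * cfc g a) * CFC.sqrt z := by rw [h2]
      _ = _ := by simp only [mul_assoc]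
  rw [h3, CStarRing.norm_star_mul_self, ← pow_two]
  refine polar_key a z C _ ha hz hC he.le h g hgc.continuousOn ?_
  intro t ht
  have ht0 : 0 ≤ t := spectrum_nonneg_of_nonneg ha ht
  simp only [hg, ginv]
  rw [abs_of_nonneg ht0, mul_pow, inv_pow, Real.sq_sqrt he.le, Real.sq_sqrt (by positivity)]
  have h1 : 0 < t + e := by positivity
  rw [← mul_assoc, ← div_eq_mul_inv, div_le_iff₀ h1]
  linarith only [mul_pos he he]

/-- **Polar lemma**: if `0 ≤ z ≤ C T*T` then there is `s` in the closure of `T F` with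
`s* s = z`. -/
theorem exists_polar (T z : F) (C : ℝ) (hz : 0 ≤ z) (h : z ≤ C • (star T * T)) :
    ∃ s : F, star s * s = z ∧ s ∈ closure (Set.range (fun f : F => T * f)) := by
  -- reduce to `0 ≤ C`
  wlog hC : 0 ≤ C generalizing C
  · refine this (|C|) (h.trans ?_) (abs_nonneg C)
    exact smul_le_smul_of_nonneg_right (le_abs_self C) (star_mul_self_nonneg T)
  set s : ℕ → F := fun n =>
    T * cfc (ginv (((n : ℝ) + 1)⁻¹)) (star T * T) * CFC.sqrt z with hs
  have hpos : ∀ n : ℕ, 0 < ((n : ℝ) + 1)⁻¹ := fun n => by positivity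
  have htend0 : Filter.Tendsto (fun n : ℕ => ((n : ℝ) + 1)⁻¹) Filter.atTop (nhds 0) := by
    simpa [one_div] using tendsto_one_div_add_atTop_nhds_zero_nat (𝕜 := ℝ)
  have hcau : CauchySeq s := by
    refine cauchySeq_of_le_tendsto_0 (fun n : ℕ => Real.sqrt C * (2 * Real.sqrt (((n : ℝ) + 1)⁻¹)))
      ?_ ?_
    · intro n m N hn hm
      rw [dist_eq_norm]
      have h1 := polar_cauchy T z C hz hC h (hpos n) (hpos m)
      have hle : ∀ k : ℕ, N ≤ k → Real.sqrt (((k : ℝ) + 1)⁻¹) ≤ Real.sqrt (((N : ℝ) + 1)⁻¹) := by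
        intro k hk
        apply Real.sqrt_le_sqrt
        apply inv_anti₀ (by positivity)
        have : (N : ℝ) ≤ k := by exact_mod_cast hk
        linarith
      have h2 : (Real.sqrt (((n : ℝ) + 1)⁻¹) + Real.sqrt (((m : ℝ) + 1)⁻¹)) ^ 2
          ≤ (2 * Real.sqrt (((N : ℝ) + 1)⁻¹)) ^ 2 := by
        apply pow_le_pow_left₀ (by positivity)
        have := hle n hn
        have := hle m hm
        linarith
      have h3 : ‖s n - s m‖ ^ 2 ≤ (Real.sqrt C * (2 * Real.sqrt (((N : ℝ) + 1)⁻¹))) ^ 2 := by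
        rw [mul_pow, Real.sq_sqrt hC]
        exact h1.trans (mul_le_mul_of_nonneg_left h2 hC)
      exact le_of_sq_le_sq h3 (by positivity) 
    · have : Filter.Tendsto (fun n : ℕ => Real.sqrt C * (2 * Real.sqrt (((n : ℝ) + 1)⁻¹)))
          Filter.atTop (nhds (Real.sqrt C * (2 * Real.sqrt 0))) :=
        ((((Real.continuous_sqrt.tendsto 0).comp htend0)).const_mul 2).const_mul _
      simpa using this
  obtain ⟨s0, hs0⟩ := cauchySeq_tendsto_of_complete hcau
  refine ⟨s0, ?_, ?_⟩
  · have h1 : Filter.Tendsto (fun n => star (s n) * s n) Filter.atTop (nhds (star s0 * s0)) :=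
      (hs0.star).mul hs0
    have h2 : Filter.Tendsto (fun n => star (s n) * s n) Filter.atTop (nhds z) := by
      rw [tendsto_iff_norm_sub_tendsto_zero]
      refine squeeze_zero (fun n => norm_nonneg _) (fun n => ?_)
        (g := fun n : ℕ => C * ((n : ℝ) + 1)⁻¹) ?_
      · rw [norm_sub_rev]
        exact polar_approx T z C hz hC h (hpos n)
      · simpa using htend0.const_mul C
    exact tendsto_nhds_unique h1 h2
  · refine mem_closure_of_tendsto hs0 (Filter.Eventually.of_forall fun n => ?_)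
    exact ⟨cfc (ginv (((n : ℝ) + 1)⁻¹)) (star T * T) * CFC.sqrt z, by simp only [hs, mul_assoc]⟩

end Step8

end Vale.Agent.P101
end
end

section

section

/-! Step 6, general version: `l` commuting modes. -/

open scoped BigOperators

namespace Vale.Agent.P101

universe u v

namespace Step6

/-- the data of one leg and one mode, before taking commuting copies. -/
structure Leg0Data (F : Type u) [CStarAlgebra F] where
  V : F
  J : F
  α : F
  E : F
  N : ℕ
  d : Fin N → F
  α_sa : star α = α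
  E_sa : star E = E
  α_norm : ‖α‖ ≤ 1
  VV : V * V = 0
  JV : J * V = -V
  VJ : V * J = V
  JVs : J * star V = star V
  VsJ : star V * J = -star V
  JsJ : star J * J = 1
  JJs : J * star J = 1
  VsV : star V * V + V * star V = α * α
  αV : Commute α V
  αJ : Commute α J
  Eα : E * α = E
  EV : E * V = 0
  VE : star V * V * E = E
  full : ∑ r, star (d r) * (E * E) * d r = 1

theorem ae1 {δ : ℝ} (hδ : 0 < δ) (t : ℝ) : al δ t * ef δ t = ef δ t := by
  rcases le_total t δ with h | h
  · unfold ef; rw [max_eq_left (by linarith)]; ring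
  · rw [al_eq_one hδ h]; ring

end Step6

open Step6 in
theorem exists_leg0 {F : Type u} [CStarAlgebra F] (X : F) (hX : X * X = 0) (hf : Full {X}) :
    Nonempty (Leg0Data F) := by
  let _ : PartialOrder F := CStarAlgebra.spectralOrder F
  have _ : StarOrderedRing F := CStarAlgebra.spectralOrderedRing F
  obtain ⟨δ, N, d, hδ, hd⟩ := exists_d X hf
  have hkc := kf_cont hδ
  have hhc := hf_cont (δ := δ)
  have hcc := cf_cont (δ := δ)
  have hsc := sf_cont (δ := δ)
  have hec := ef_cont (δ := δ)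
  have hec1 := ef1_cont hδ
  have hac := al_cont (δ := δ)
  set a := star X * X with ha
  set a' := X * star X with ha'
  set c := a + a' with hc
  have hXs : star X * star X = 0 := by rw [← star_mul, hX, star_zero]
  have a_sa : IsSelfAdjoint a := IsSelfAdjoint.star_mul_self X
  have a'_sa : IsSelfAdjoint a' := IsSelfAdjoint.mul_star_self X
  have c_sa : IsSelfAdjoint c := a_sa.add a'_sa
  have aX : a * X = 0 := by rw [ha, mul_assoc, hX, mul_zero]
  have Xa' : X * a' = 0 := by rw [ha', ← mul_assoc, hX, zero_mul]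
  have aa' : a * a' = 0 := by rw [ha', ← mul_assoc, aX, zero_mul]
  have a'a : a' * a = 0 := by rw [ha, ha', mul_assoc, ← mul_assoc (star X), hXs]; simp
  have cX : c * X = a' * X := by rw [hc, add_mul, aX, zero_add]
  have Xc : X * c = X * a := by rw [hc, mul_add, Xa', add_zero]
  have hcomm : Commute c X := by
    show c * X = X * c
    rw [cX, Xc, ha, ha', mul_assoc]
  have hcommS : Commute c (star X) := by
    have := hcomm.star_star
    rwa [c_sa.star_eq] at this
  have hca' : Commute c a' := by rw [ha']; exact hcomm.mul_right hcommS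
  have hcomm_a : Commute c a := by rw [ha]; exact hcommS.mul_right hcomm
  -- the elements
  set k := cfc (kf δ) c with hk
  set α := cfc (al δ) c with hα
  set C := cfc (cf δ) a' with hC
  set S := cfc (sf δ) a' with hS
  set E := cfc (ef δ) a with hE
  have ksa : star k = k := star_cfc_real _ _
  have αsa : star α = α := star_cfc_real _ _
  have Csa : star C = C := star_cfc_real _ _
  have Ssa : star S = S := star_cfc_real _ _
  have Esa : star E = E := star_cfc_real _ _
  have kX : Commute k X := hcomm.cfc_real _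
  have kXs : Commute k (star X) := hcommS.cfc_real _
  have αX : Commute α X := hcomm.cfc_real _
  have kα : Commute k α := cfc_commute_cfc _ _ c
  have ka' : Commute k a' := hca'.cfc_real _
  have αa' : Commute α a' := hca'.cfc_real _
  have kC : Commute k C := (ka'.symm.cfc_real _).symm
  have kS : Commute k S := (ka'.symm.cfc_real _).symm
  have αC : Commute α C := (αa'.symm.cfc_real _).symm
  have αS : Commute α S := (αa'.symm.cfc_real _).symm
  have CS : Commute C S := cfc_commute_cfc _ _ a'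
  -- relations with `X`
  have XC : X * C = X := by
    rw [hC, mul_cfc_of_mul_eq_zero a' X a'_sa Xa' _ hcc, cf_zero, one_smul]
  have XS : X * S = 0 := by
    rw [hS, mul_cfc_of_mul_eq_zero a' X a'_sa Xa' _ hsc, sf_zero, zero_smul]
  have a'X : a' * X = X * c := by rw [← cX, hcomm.eq]
  have CX : C * X = X * cfc (cf δ) c := cfc_intertwine a' c X a'_sa c_sa a'X _ hcc
  have SX : S * X = X * cfc (sf δ) c := cfc_intertwine a' c X a'_sa c_sa a'X _ hsc
  have hCk : cfc (cf δ) c * k = -k := by
    rw [hk, ← cfc_mul (cf δ) (kf δ) c (by fun_prop) (by fun_prop), ← cfc_neg (kf δ) c]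
    exact cfc_congr fun t _ => by rw [mul_comm]; exact kc hδ t
  have hSk : cfc (sf δ) c * k = 0 := by
    rw [hk, ← cfc_mul (sf δ) (kf δ) c (by fun_prop) (by fun_prop)]
    have : (fun t => sf δ t * kf δ t) = fun _ => (0 : ℝ) := by
      funext t; rw [mul_comm]; exact ks hδ t
    rw [this, cfc_const_zero ℝ c]
  have CV : C * (X * k) = -(X * k) := by rw [← mul_assoc, CX, mul_assoc, hCk, mul_neg]
  have SV : S * (X * k) = 0 := by rw [← mul_assoc, SX, mul_assoc, hSk, mul_zero]
  have VC : (X * k) * C = X * k := by rw [mul_assoc, kC.eq, ← mul_assoc, XC]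
  have VS : (X * k) * S = 0 := by rw [mul_assoc, kS.eq, ← mul_assoc, XS, zero_mul]
  have CC : C * C + S * S = 1 := by
    rw [hC, hS, ← cfc_mul (cf δ) (cf δ) a' (by fun_prop) (by fun_prop),
      ← cfc_mul (sf δ) (sf δ) a' (by fun_prop) (by fun_prop),
      ← cfc_add a' (fun t => cf δ t * cf δ t) (fun t => sf δ t * sf δ t) (by fun_prop)
        (by fun_prop)]
    have : (fun t => cf δ t * cf δ t + sf δ t * sf δ t) = fun _ => (1 : ℝ) := by
      funext t; exact sf_sq t
    rw [this, cfc_const_one ℝ a']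
  set V := X * k with hV
  set J := C + Complex.I • S with hJ
  have Jstar : star J = C - Complex.I • S := by
    rw [hJ, star_add, star_smul, Csa, Ssa]
    simp [sub_eq_add_neg]
  have JV : J * V = -V := by rw [hJ, add_mul, smul_mul_assoc, CV, SV]; simp
  have VJ : V * J = V := by rw [hJ, mul_add, mul_smul_comm, VC, VS]; simp
  have JsV : star J * V = -V := by rw [Jstar, sub_mul, smul_mul_assoc, CV, SV]; simp
  have VJs : V * star J = V := by rw [Jstar, mul_sub, mul_smul_comm, VC, VS]; simp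
  have VsJ : star V * J = -star V := by
    have := congrArg star JsV
    rwa [star_mul, star_star, star_neg] at this
  have JVs : J * star V = star V := by
    have := congrArg star VJs
    rwa [star_mul, star_star] at this
  have JsJ : star J * J = 1 := by
    rw [Jstar, hJ, ← CC]
    have : (C - Complex.I • S) * (C + Complex.I • S)
        = C * C + Complex.I • (C * S) - Complex.I • (S * C) - (Complex.I * Complex.I) • (S * S) := by
      rw [← smul_smul]
      simp only [sub_mul, mul_add, smul_mul_assoc, mul_smul_comm, smul_sub]; abel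
    rw [this, CS.eq, Complex.I_mul_I]; simp
  have JJs : J * star J = 1 := by
    rw [Jstar, hJ, ← CC]
    have : (C + Complex.I • S) * (C - Complex.I • S)
        = C * C - Complex.I • (C * S) + Complex.I • (S * C) - (Complex.I * Complex.I) • (S * S) := by
      rw [← smul_smul]
      simp only [add_mul, mul_sub, smul_mul_assoc, mul_smul_comm, smul_add]; abel
    rw [this, CS.eq, Complex.I_mul_I]; simp
  have αJ : Commute α J := by
    rw [hJ]; exact αC.add_right (αS.smul_right _)
  have αV : Commute α V := αX.mul_right kα.symm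
  have αα : α * α = cfc (fun t => al δ t * al δ t) c := by
    rw [hα, ← cfc_mul (al δ) (al δ) c (by fun_prop) (by fun_prop)]
  have kck : k * c * k = cfc (fun t => al δ t * al δ t) c := by
    have : cfc (fun t => kf δ t * t * kf δ t) c = k * c * k := by
      rw [cfc_mul (fun t => kf δ t * t) (kf δ) c (by fun_prop) (by fun_prop),
        cfc_mul (kf δ) (fun t => t) c (by fun_prop) (by fun_prop), cfc_id' ℝ c]
    rw [← this]
    exact cfc_congr fun t _ => kf_sq hδ t
  have VsV : star V * V = k * a * k := by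
    rw [hV, star_mul, ksa, ha]; noncomm_ring
  have VVs : V * star V = k * a' * k := by
    rw [hV, star_mul, ksa, ha']
    calc X * k * (k * star X) = (X * k) * (k * star X) := rfl
      _ = (k * X) * (star X * k) := by rw [kX.eq, kXs.eq]
      _ = _ := by noncomm_ring
  -- relations with `E`
  have hca : c * a = a * a := by rw [hc, add_mul, a'a, add_zero]
  have αa : α * a = a * cfc (al δ) a := cfc_intertwine c a a c_sa a_sa hca _ hac
  have ka : k * a = a * cfc (kf δ) a := cfc_intertwine c a a c_sa a_sa hca _ hkc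
  have Ea : E = a * cfc (ef1 δ) a := by
    have : cfc (fun t => t * ef1 δ t) a = a * cfc (ef1 δ) a := by
      rw [cfc_mul (fun t => t) (ef1 δ) a (by fun_prop) (by fun_prop), cfc_id' ℝ a]
    rw [← this]
    exact cfc_congr fun t _ => (te hδ t).symm
  have αE : α * E = E := by
    have h1 : α * E = a * cfc (al δ) a * cfc (ef1 δ) a := by
      rw [Ea, ← mul_assoc, αa]
    have h2 : cfc (fun t => t * al δ t * ef1 δ t) a
        = a * cfc (al δ) a * cfc (ef1 δ) a := by
      rw [cfc_mul (fun t => t * al δ t) (ef1 δ) a (by fun_prop) (by fun_prop),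
        cfc_mul (fun t => t) (al δ) a (by fun_prop) (by fun_prop), cfc_id' ℝ a]
    rw [h1, ← h2]
    refine cfc_congr fun t _ => ?_
    calc t * al δ t * ef1 δ t = al δ t * (t * ef1 δ t) := by ring
      _ = ef δ t := by rw [te hδ]; exact ae1 hδ t
  have Eα : E * α = E := by
    have := congrArg star αE
    rwa [star_mul, Esa, αsa] at this
  have ef0 : ef δ 0 = 0 := by unfold ef; exact max_eq_left (by linarith)
  have EX : E * X = 0 := by
    rw [hE, cfc_mul_of_mul_eq_zero a X a_sa aX _ hec, ef0, zero_smul]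
  have VVE : star V * V * E = E := by
    have h1 : k * E = cfc (kf δ) a * E := by
      have h3 : Commute a (cfc (kf δ) a) := by
        have := cfc_commute_cfc (fun t : ℝ => t) (kf δ) a
        rwa [cfc_id' ℝ a] at this
      rw [Ea, ← mul_assoc, ka, h3.eq, mul_assoc]
    have h2 : cfc (fun t => t * kf δ t * kf δ t * ef δ t) a
        = a * cfc (kf δ) a * cfc (kf δ) a * E := by
      rw [cfc_mul (fun t => t * kf δ t * kf δ t) (ef δ) a (by fun_prop) (by fun_prop),
        cfc_mul (fun t => t * kf δ t) (kf δ) a (by fun_prop) (by fun_prop),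
        cfc_mul (fun t => t) (kf δ) a (by fun_prop) (by fun_prop), cfc_id' ℝ a]
    rw [VsV, mul_assoc, h1, ka, ← mul_assoc, ← h2]
    refine cfc_congr fun t _ => ?_
    have := kf_sq hδ t
    calc t * kf δ t * kf δ t * ef δ t = (kf δ t * t * kf δ t) * ef δ t := by ring
      _ = _ := by rw [this]; exact ae hδ t
  have αnorm : ‖α‖ ≤ 1 := by
    rw [hα]
    refine norm_cfc_le zero_le_one fun t _ => ?_
    rw [Real.norm_of_nonneg (al_nonneg t)]
    exact al_le_one t
  refine ⟨{ V := V, J := J, α := α, E := E, N := N, d := d, α_sa := αsa, E_sa := Esa,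
            α_norm := αnorm, VV := ?_, JV := JV, VJ := VJ, JVs := JVs, VsJ := VsJ,
            JsJ := JsJ, JJs := JJs, VsV := ?_, αV := αV, αJ := αJ, Eα := Eα, EV := ?_,
            VE := VVE, full := hd }⟩
  · calc V * V = X * (k * X) * k := by rw [hV]; noncomm_ring
      _ = X * X * (k * k) := by rw [kX.eq]; noncomm_ring
      _ = 0 := by rw [hX, zero_mul]
  · rw [VsV, VVs, αα, ← kck, hc]
    simp only [mul_add, add_mul]
  · rw [hV, ← mul_assoc, EX, zero_mul]

namespace Step6

section Prod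

variable {F : Type u} {G : Type v} [CStarAlgebra F] [CStarAlgebra G] {κ : Type*} [Fintype κ]
  [DecidableEq κ] (L : Legs κ F G)

theorem norm_prodHom_le (z : κ → F) (hz : ∀ i, ‖z i‖ ≤ 1) : ‖L.prodHom z‖ ≤ 1 := by
  have h1 : ‖(1 : G)‖ ≤ 1 := by
    rcases subsingleton_or_nontrivial G with h | h
    · rw [Subsingleton.elim (1 : G) 0, norm_zero]; exact zero_le_one
    · rw [CStarRing.norm_one]
  have key : ∀ s : Finset κ, ∀ z : κ → F, (∀ i, i ∉ s → z i = 1) → (∀ i ∈ s, ‖z i‖ ≤ 1) →
      ‖L.prodHom z‖ ≤ 1 := by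
    intro s
    induction s using Finset.induction_on with
    | empty =>
      intro z hz _
      have : z = 1 := funext fun i => hz i (Finset.notMem_empty i)
      rw [this, map_one]; exact h1
    | insert i s hi ih =>
      intro z hz hz'
      have e1 : z = Function.update z i (z i) := (Function.update_eq_self i z).symm
      rw [e1, L.prodHom_update i z (z i)]
      have h2 : ‖L.σ i (z i)‖ ≤ 1 :=
        (NonUnitalStarAlgHom.norm_apply_le (L.σ i) (z i)).trans (hz' i (Finset.mem_insert_self i s))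
      have h3 : ‖L.prodHom (Function.update z i 1)‖ ≤ 1 := by
        apply ih
        · intro j hj
          by_cases h : j = i
          · subst h; simp
          · rw [Function.update_of_ne h]
            exact hz j (by simp [h, hj])
        · intro j hj
          have h : j ≠ i := fun h => hi (h ▸ hj)
          rw [Function.update_of_ne h]
          exact hz' j (Finset.mem_insert_of_mem hj)
      exact (norm_mul_le _ _).trans (mul_le_one₀ h2 (norm_nonneg _) h3)
  exact key Finset.univ z (fun i hi => absurd (Finset.mem_univ i) hi) (fun i _ => hz i)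

theorem prodHom_update_neg (i : κ) (z : κ → F) (a : F) :
    L.prodHom (Function.update z i (-a)) = - L.prodHom (Function.update z i a) := by
  rw [L.prodHom_update, L.prodHom_update i z a, map_neg, neg_mul]

theorem prodHom_update_add (i : κ) (z : κ → F) (a b : F) :
    L.prodHom (Function.update z i (a + b))
      = L.prodHom (Function.update z i a) + L.prodHom (Function.update z i b) := by
  rw [L.prodHom_update, L.prodHom_update i z a, L.prodHom_update i z b, map_add, add_mul]

omit [DecidableEq κ] in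
theorem commute_prodHom (z w : κ → F) (h : ∀ i, Commute (z i) (w i)) :
    Commute (L.prodHom z) (L.prodHom w) := by
  show L.prodHom z * L.prodHom w = L.prodHom w * L.prodHom z
  rw [← map_mul, ← map_mul]
  congr 1
  funext i
  exact (h i).eq

end Prod

end Step6

open Step6 in
theorem step6G {F : Type u} {G : Type v} [CStarAlgebra F] [CStarAlgebra G] (X : F)
    (hX : X * X = 0) (hf : Full {X}) (l : ℕ) (L : Legs (Fin l) F G) :
    Nonempty (ModeData l G) := by
  obtain ⟨D⟩ := exists_leg0 X hX hf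
  obtain ⟨V, J, α, E, N, d, α_sa, E_sa, α_norm, VV, JV, VJ, JVs, VsJ, JsJ, JJs, VsV, αV, αJ,
    Eα, EV, VE, full⟩ := D
  have αVs : Commute α (star V) := by
    have := αV.star_star
    rwa [α_sa] at this
  have αJs : Commute α (star J) := by
    have := αJ.star_star
    rwa [α_sa] at this
  set ca : Fin l → F := fun _ => α with hca
  set ce : Fin l → F := fun _ => E with hce
  set A : G := L.prodHom ca with hA
  set W : Fin l → G := fun i => L.prodHom (Function.update ca i V) with hW
  set K : Fin l → G := fun i => L.prodHom (Pi.mulSingle i J) with hK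
  set EE : G := L.prodHom ce with hEE
  have upd_star : ∀ (z : Fin l → F) (i : Fin l) (a : F),
      star (Function.update z i a) = Function.update (star z) i (star a) := by
    intro z i a
    ext j; by_cases h : j = i
    · subst h; simp
    · simp [Function.update_of_ne h]
  have single_star : ∀ (i : Fin l) (a : F),
      star (Pi.mulSingle i a : Fin l → F) = Pi.mulSingle i (star a) := by
    intro i a
    ext j; by_cases h : j = i
    · subst h; simp
    · simp [Pi.mulSingle_eq_of_ne h]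
  have sca : star ca = ca := funext fun i => α_sa
  have sce : star ce = ce := funext fun i => E_sa
  have A_sa : star A = A := by rw [hA, L.star_prodHom, sca]
  have EE_sa : star EE = EE := by rw [hEE, L.star_prodHom, sce]
  have A_isa : IsSelfAdjoint A := A_sa
  have A_norm : ‖A‖ ≤ 1 := norm_prodHom_le L _ fun _ => α_norm
  have Ws : ∀ i, star (W i) = L.prodHom (Function.update ca i (star V)) := by
    intro i; simp only [hW]; rw [L.star_prodHom, upd_star, sca]
  have Ks : ∀ i, star (K i) = L.prodHom (Pi.mulSingle i (star J)) := by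
    intro i; simp only [hK]; rw [L.star_prodHom, single_star]
  have upd_mul_single : ∀ (i : Fin l) (a b : F),
      Function.update ca i a * Pi.mulSingle i b = Function.update ca i (a * b) := by
    intro i a b
    ext j; by_cases h : j = i
    · subst h; simp
    · simp [Function.update_of_ne h, Pi.mulSingle_eq_of_ne h]
  have single_mul_upd : ∀ (i : Fin l) (a b : F),
      Pi.mulSingle i b * Function.update ca i a = Function.update ca i (b * a) := by
    intro i a b
    ext j; by_cases h : j = i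
    · subst h; simp
    · simp [Function.update_of_ne h, Pi.mulSingle_eq_of_ne h]
  have upd_mul_upd : ∀ (i : Fin l) (a b : F),
      Function.update ca i a * Function.update ca i b = Function.update (ca * ca) i (a * b) := by
    intro i a b
    ext j; by_cases h : j = i
    · subst h; simp
    · simp [Function.update_of_ne h]
  have single_mul_single : ∀ (i : Fin l) (a b : F),
      (Pi.mulSingle i a : Fin l → F) * Pi.mulSingle i b = Pi.mulSingle i (a * b) := by
    intro i a b
    ext j; by_cases h : j = i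
    · subst h; simp
    · simp [Pi.mulSingle_eq_of_ne h]
  -- relations in `G`
  have WK : ∀ i, W i * K i = W i := by
    intro i; simp only [hW, hK]; rw [← map_mul, upd_mul_single, VJ]
  have KW : ∀ i, K i * W i = -(W i) := by
    intro i; simp only [hW, hK]
    rw [← map_mul, single_mul_upd, JV, prodHom_update_neg]
  have WsK : ∀ i, star (W i) * K i = -star (W i) := by
    intro i; rw [Ws]; simp only [hK]
    rw [← map_mul, upd_mul_single, VsJ, prodHom_update_neg]
  have KWs : ∀ i, K i * star (W i) = star (W i) := by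
    intro i; rw [Ws]; simp only [hK]; rw [← map_mul, single_mul_upd, JVs]
  have KsK : ∀ i, star (K i) * K i = 1 := by
    intro i; rw [Ks]; simp only [hK]
    rw [← map_mul, single_mul_single, JsJ, Pi.mulSingle_one, map_one]
  have KKs : ∀ i, K i * star (K i) = 1 := by
    intro i; rw [Ks]; simp only [hK]
    rw [← map_mul, single_mul_single, JJs, Pi.mulSingle_one, map_one]
  have AW : ∀ i, Commute A (W i) := by
    intro i; refine commute_prodHom L _ _ fun j => ?_
    by_cases h : j = i
    · subst h; simpa [hca] using αV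
    · simp only [hca, Function.update_of_ne h]; exact Commute.refl _
  have AK : ∀ i, Commute A (K i) := by
    intro i; refine commute_prodHom L _ _ fun j => ?_
    by_cases h : j = i
    · subst h; simpa [hca] using αJ
    · simp only [hca, Pi.mulSingle_eq_of_ne h]; exact Commute.one_right _
  have WWc : ∀ i j, i ≠ j → Commute (W i) (W j) := by
    intro i j hij; refine commute_prodHom L _ _ fun m => ?_
    by_cases h : m = i
    · subst h; simpa [hca, Function.update_of_ne hij] using αV.symm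
    · by_cases h' : m = j
      · subst h'; simpa [hca, Function.update_of_ne h] using αV
      · simp only [hca, Function.update_of_ne h, Function.update_of_ne h']; exact Commute.refl _
  have WWsc : ∀ i j, i ≠ j → Commute (W i) (star (W j)) := by
    intro i j hij; rw [Ws]; refine commute_prodHom L _ _ fun m => ?_
    by_cases h : m = i
    · subst h; simpa [hca, Function.update_of_ne hij] using αV.symm
    · by_cases h' : m = j
      · subst h'; simpa [hca, Function.update_of_ne h] using αVs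
      · simp only [hca, Function.update_of_ne h, Function.update_of_ne h']; exact Commute.refl _
  have WKc : ∀ i j, i ≠ j → Commute (W i) (K j) := by
    intro i j hij; refine commute_prodHom L _ _ fun m => ?_
    by_cases h : m = i
    · subst h; simp only [Pi.mulSingle_eq_of_ne hij]; exact Commute.one_right _
    · by_cases h' : m = j
      · subst h'; simpa [hca, Function.update_of_ne h] using αJ
      · simp only [Pi.mulSingle_eq_of_ne h']; exact Commute.one_right _
  have WKsc : ∀ i j, i ≠ j → Commute (W i) (star (K j)) := by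
    intro i j hij; rw [Ks]; refine commute_prodHom L _ _ fun m => ?_
    by_cases h : m = i
    · subst h; simp only [Pi.mulSingle_eq_of_ne hij]; exact Commute.one_right _
    · by_cases h' : m = j
      · subst h'; simpa [hca, Function.update_of_ne h] using αJs
      · simp only [Pi.mulSingle_eq_of_ne h']; exact Commute.one_right _
  have KKc : ∀ i j, i ≠ j → Commute (K i) (K j) := by
    intro i j hij; refine commute_prodHom L _ _ fun m => ?_
    by_cases h : m = i
    · subst h; simp only [Pi.mulSingle_eq_of_ne hij]; exact Commute.one_right _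
    · simp only [Pi.mulSingle_eq_of_ne h]; exact Commute.one_left _
  have KKsc : ∀ i j, i ≠ j → Commute (K i) (star (K j)) := by
    intro i j hij; rw [Ks]; refine commute_prodHom L _ _ fun m => ?_
    by_cases h : m = i
    · subst h; simp only [Pi.mulSingle_eq_of_ne hij]; exact Commute.one_right _
    · simp only [Pi.mulSingle_eq_of_ne h]; exact Commute.one_left _
  have WW0 : ∀ i, W i * W i = 0 := by
    intro i; simp only [hW]; rw [← map_mul, upd_mul_upd]
    exact L.prodHom_eq_zero _ i (by simp [VV])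
  have WsW : ∀ i, star (W i) * W i + W i * star (W i) = A * A := by
    intro i; rw [Ws]; simp only [hW]
    rw [← map_mul, ← map_mul, upd_mul_upd, upd_mul_upd, ← prodHom_update_add, VsV, hA, ← map_mul]
    congr 1
    ext j; by_cases h : j = i
    · subst h; simp [hca]
    · simp [Function.update_of_ne h]
  -- the scalar function
  set φ : ℝ → ℝ := fun t => Real.sqrt (1 - t * t) with hφ
  have hφc : Continuous φ := by rw [hφ]; fun_prop
  set β : G := cfc φ A with hβ
  have β_sa : star β = β := star_cfc_real _ _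
  have ββ : β * β = 1 - A * A := by
    have e1 : A * A = cfc (fun t : ℝ => t * t) A := by
      rw [cfc_mul (fun t : ℝ => t) (fun t => t) A (by fun_prop) (by fun_prop), cfc_id' ℝ A]
    have e0 : (1 : G) = cfc (fun _ : ℝ => (1 : ℝ)) A := by rw [cfc_const_one ℝ A]
    rw [hβ, ← cfc_mul φ φ A (by fun_prop) (by fun_prop), e1, e0,
      ← cfc_sub (fun _ : ℝ => (1 : ℝ)) (fun t => t * t) A (by fun_prop) (by fun_prop)]
    refine cfc_congr fun t ht => ?_
    have h1 : |t| ≤ 1 := by
      rcases subsingleton_or_nontrivial G with h | h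
      · exact absurd ht (by simp [spectrum.of_subsingleton])
      · exact (spectrum.norm_le_norm_of_mem ht).trans A_norm
    exact Real.mul_self_sqrt (by
      linarith only [mul_nonneg (sub_nonneg.2 (abs_le.1 h1).2)
        (by linarith only [(abs_le.1 h1).1] : 0 ≤ t + 1)])
  have Aβ : Commute β A := by
    have := cfc_commute_cfc φ (fun t : ℝ => t) A
    rwa [cfc_id' ℝ A] at this
  have βW : ∀ i, Commute β (W i) := fun i => (AW i).cfc_real _
  have βWs : ∀ i, Commute β (star (W i)) := fun i => by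
    have := (βW i).star_star
    rwa [β_sa] at this
  have βK : ∀ i, Commute β (K i) := fun i => (AK i).cfc_real _
  have βKs : ∀ i, Commute β (star (K i)) := fun i => by
    have := (βK i).star_star
    rwa [β_sa] at this
  have AEE : A * EE = EE * 1 := by
    have h1 : EE * A = EE := by
      simp only [hA, hEE]; rw [← map_mul]; congr 1; funext i; exact Eα
    have := congrArg star h1
    rw [star_mul, A_sa, EE_sa] at this
    rw [this, mul_one]
  have βEE : β * EE = 0 := by
    rw [hβ, cfc_intertwine A 1 EE A_isa (IsSelfAdjoint.one G) AEE φ hφc, cfc_apply_one,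
      hφ]
    simp
  have EEβ : EE * β = 0 := by
    have := congrArg star βEE
    rwa [star_mul, EE_sa, β_sa, star_zero] at this
  have EEW : ∀ i, EE * W i = 0 := by
    intro i; simp only [hW, hEE]; rw [← map_mul]
    exact L.prodHom_eq_zero _ i (by simp [hce, EV])
  have WWE : ∀ i, star (W i) * W i * EE = EE := by
    intro i; rw [Ws]; simp only [hW, hEE]
    rw [← map_mul, ← map_mul, upd_mul_upd]
    congr 1
    have hαE : α * E = E := by
      have := congrArg star Eα
      rwa [star_mul, E_sa, α_sa] at this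
    ext j; by_cases h : j = i
    · subst h; simp [hce, VE]
    · simp only [Pi.mul_apply, Function.update_of_ne h, hca, hce]
      rw [mul_assoc, hαE, hαE]
  let dd : Fin (N ^ l) → G := fun r => L.prodHom (fun i => d (finFunctionFinEquiv.symm r i))
  have hfull : ∑ r, star (dd r) * (EE * EE) * dd r = 1 := by
    have e1 : ∀ r, star (dd r) * (EE * EE) * dd r
        = L.prodHom (fun i => star (d (finFunctionFinEquiv.symm r i)) * (E * E)
            * d (finFunctionFinEquiv.symm r i)) := by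
      intro r
      simp only [dd, hEE]
      rw [L.star_prodHom, ← map_mul, ← map_mul, ← map_mul]
      rfl
    rw [Finset.sum_congr rfl fun r _ => e1 r]
    rw [Equiv.sum_comp finFunctionFinEquiv.symm
      (fun f : Fin l → Fin N => L.prodHom (fun i => star (d (f i)) * (E * E) * d (f i)))]
    rw [← L.prodHom_sum (fun _ j => star (d j) * (E * E) * d j)]
    rw [full]
    exact map_one L.prodHom
  have cβP : ∀ (i : Fin l) (x : G), Commute x β → Commute x (K i) → Commute x (β * K i) :=
    fun i x h1 h2 => h1.mul_right h2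
  refine ⟨{ V := W, P := fun i => β * K i, β := β, E := EE, N := N ^ l, d := dd,
            β_sa := β_sa, E_sa := EE_sa, VV := WW0, VP := ?_, VsP := ?_, PsP := ?_, PPs := ?_,
            VsV := ?_, cVV := WWc, cVVs := WWsc, cVP := ?_, cVPs := ?_, cPP := ?_, cPPs := ?_,
            βV := βW, βP := ?_, Eβ := EEβ, EV := EEW, VE := WWE, full := hfull }⟩
  · intro i
    calc W i * (β * K i) = β * (W i * K i) := by rw [← mul_assoc, ← (βW i).eq, mul_assoc]
      _ = β * W i := by rw [WK]
      _ = -(β * K i * W i) := by rw [mul_assoc, KW]; simp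
  · intro i
    calc star (W i) * (β * K i) = β * (star (W i) * K i) := by
          rw [← mul_assoc, ← (βWs i).eq, mul_assoc]
      _ = -(β * star (W i)) := by rw [WsK]; simp
      _ = -(β * K i * star (W i)) := by rw [mul_assoc, KWs]
  · intro i
    calc star (β * K i) * (β * K i) = star (K i) * (β * (β * K i)) := by
          rw [star_mul, β_sa]; noncomm_ring
      _ = star (K i) * (K i * (β * β)) := by
          rw [(βK i).eq, ← mul_assoc β (K i), (βK i).eq, mul_assoc]
      _ = β * β := by rw [← mul_assoc, KsK, one_mul]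
  · intro i
    calc β * K i * star (β * K i) = β * (K i * star (K i)) * β := by
          rw [star_mul, β_sa]; noncomm_ring
      _ = β * β := by rw [KKs, mul_one]
  · intro i; rw [WsW, ββ]; abel
  · intro i j hij; exact (βW i).symm.mul_right (WKc i j hij)
  · intro i j hij; rw [star_mul, β_sa]; exact (WKsc i j hij).mul_right (βW i).symm
  · intro i j hij
    exact ((Commute.refl β).mul_left (βK i).symm).mul_right ((βK j).mul_left (KKc i j hij))
  · intro i j hij
    rw [star_mul, β_sa]
    exact ((βKs j).mul_left (KKsc i j hij)).mul_right ((Commute.refl β).mul_left (βK i).symm)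
  · intro i; exact (Commute.refl β).mul_right (βK i)

end Vale.Agent.P101
end
end

section

section

/-! General step 8: from `ModeAbsData` to `GlueData`. -/

open scoped BigOperators

namespace Vale.Agent.P101

universe u

namespace Step8G

section Monoid

variable {M : Type*} [Monoid M]

theorem prod_ofFn_mul : ∀ (l : ℕ) (u v : Fin l → M), (∀ i j, i ≠ j → Commute (v i) (u j)) →
    (List.ofFn u).prod * (List.ofFn v).prod = (List.ofFn (fun i => u i * v i)).prod
  | 0, u, v, _ => by simp
  | l + 1, u, v, h => by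
    rw [List.ofFn_succ, List.ofFn_succ, List.ofFn_succ, List.prod_cons, List.prod_cons,
      List.prod_cons, ← prod_ofFn_mul l _ _ (fun i j hij => h _ _ (by simpa using hij))]
    have hc : Commute (v 0) (List.ofFn (fun i : Fin l => u i.succ)).prod := by
      refine Commute.list_prod_right _ _ fun x hx => ?_
      obtain ⟨i, rfl⟩ := (List.mem_ofFn' _ _).1 hx
      exact h _ _ (Fin.succ_ne_zero i).symm
    calc u 0 * (List.ofFn fun i : Fin l => u i.succ).prod
          * (v 0 * (List.ofFn fun i : Fin l => v i.succ).prod)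
        = u 0 * ((List.ofFn fun i : Fin l => u i.succ).prod * v 0)
          * (List.ofFn fun i : Fin l => v i.succ).prod := by simp only [mul_assoc]
      _ = _ := by rw [← hc.eq]; simp only [mul_assoc]

theorem star_prod_ofFn [StarMul M] : ∀ (l : ℕ) (u : Fin l → M),
    (∀ i j, i ≠ j → Commute (u i) (u j)) →
    star (List.ofFn u).prod = (List.ofFn (fun i => star (u i))).prod
  | 0, u, _ => by simp
  | l + 1, u, h => by
    rw [List.ofFn_succ, List.ofFn_succ, List.prod_cons, List.prod_cons, star_mul,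
      ← star_prod_ofFn l _ (fun i j hij => h _ _ (by simpa using hij))]
    have hc : Commute (u 0) (List.ofFn (fun i : Fin l => u i.succ)).prod := by
      refine Commute.list_prod_right _ _ fun x hx => ?_
      obtain ⟨i, rfl⟩ := (List.mem_ofFn' _ _).1 hx
      exact h _ _ (Fin.succ_ne_zero i).symm
    rw [← star_mul, hc.eq, star_mul]

theorem commute_prod_ofFn (l : ℕ) (a : M) (u : Fin l → M) (h : ∀ i, Commute a (u i)) :
    Commute a (List.ofFn u).prod := by
  refine Commute.list_prod_right _ _ fun x hx => ?_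
  obtain ⟨i, rfl⟩ := (List.mem_ofFn' _ _).1 hx
  exact h i

end Monoid

section CStar

variable {F : Type*} [CStarAlgebra F] [PartialOrder F] [StarOrderedRing F]

/-- square root -/
noncomputable def csq (a : F) : F := cfc Real.sqrt a

omit [PartialOrder F] [StarOrderedRing F] in
theorem star_csq (a : F) : star (csq a) = csq a := by
  unfold csq; rw [← cfc_star]; simp

theorem csq_mul_csq {a : F} (ha : 0 ≤ a) : csq a * csq a = a := by
  unfold csq
  have hsa : IsSelfAdjoint a := ha.isSelfAdjoint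
  rw [← cfc_mul _ _ a (by fun_prop) (by fun_prop)]
  conv_rhs => rw [← cfc_id' ℝ a]
  exact cfc_congr fun t ht => Real.mul_self_sqrt (spectrum_nonneg_of_nonneg ha ht)

omit [PartialOrder F] [StarOrderedRing F] in
theorem commute_csq {a x : F} (h : Commute a x) : Commute (csq a) x := h.cfc_real _

end CStar

end Step8G

open Step8G in
theorem step8G {G : Type u} [CStarAlgebra G] [PartialOrder G] [StarOrderedRing G] (l : ℕ)
    (D : ModeAbsData l G) : Nonempty (GlueData (Fin l → Bool) Unit G) := by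
  classical
  obtain ⟨w, Q, S, b, b_sa, ww, sum_eq, comm, comms, bw, Q_eq, bS, hle⟩ := D
  set y : G := b * b with hy
  have hysa : star y = y := by rw [hy, star_mul, b_sa]
  have y0 : 0 ≤ y := by
    have : y = star b * b := by rw [b_sa]
    rw [this]; exact star_mul_self_nonneg b
  have bws : ∀ i, Commute b (star (w i)) := fun i => by
    have := (bw i).star_star
    rwa [b_sa] at this
  have yw : ∀ i, Commute y (w i) := fun i => (bw i).mul_left (bw i)
  have yws : ∀ i, Commute y (star (w i)) := fun i => (bws i).mul_left (bws i)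
  have yS : y * S = 0 := by rw [hy, mul_assoc, bS, mul_zero]
  have commss : ∀ i j, i ≠ j → Commute (star (w i)) (star (w j)) := fun i j h =>
    (comm i j h).star_star
  have comms' : ∀ i j, i ≠ j → Commute (star (w i)) (w j) := fun i j h =>
    (comms j i (Ne.symm h)).symm
  -- the elements `c i`
  let c : Fin l → G := fun i => star (w i) * w i
  have hc : ∀ i, c i = star (w i) * w i := fun i => rfl
  have c0 : ∀ i, 0 ≤ c i := fun i => star_mul_self_nonneg _
  have yc : ∀ i, Commute y (c i) := fun i => (yws i).mul_right (yw i)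
  have hcc : ∀ i, c i * c i = c i * (1 - y) := by
    intro i
    have h1 : w i * star (w i) = 1 - y - c i := by rw [← sum_eq i]; simp only [hc]; abel
    calc c i * c i = star (w i) * (w i * star (w i)) * w i := by simp only [hc, mul_assoc]
      _ = star (w i) * (1 - y - c i) * w i := by rw [h1]
      _ = star (w i) * w i - star (w i) * (y * w i) - star (w i) * star (w i) * (w i * w i) := by
          simp only [hc]; noncomm_ring
      _ = c i * (1 - y) := by
          rw [ww, mul_zero, sub_zero, (yw i).eq, mul_sub, mul_one, ← mul_assoc]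
  -- the modes
  let x : Fin l → Bool → G := fun i k => if k then w i else csq (c i)
  have hxt : ∀ i, x i true = w i := fun i => rfl
  have hxf : ∀ i, x i false = csq (c i) := fun i => rfl
  have hsw : ∀ i, csq (c i) * w i = 0 := by
    intro i
    rw [← CStarRing.star_mul_self_eq_zero_iff, star_mul, star_csq]
    calc star (w i) * csq (c i) * (csq (c i) * w i)
        = star (w i) * (csq (c i) * csq (c i)) * w i := by simp only [mul_assoc]
      _ = star (w i) * star (w i) * (w i * w i) := by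
          rw [csq_mul_csq (c0 i)]; simp only [hc, mul_assoc]
      _ = 0 := by rw [ww, mul_zero]
  have hws : ∀ i, star (w i) * csq (c i) = 0 := by
    intro i
    have := congrArg star (hsw i)
    rwa [star_mul, star_csq, star_zero] at this
  have hxx : ∀ i j k, star (x i j) * x i k = if j = k then c i else 0 := by
    intro i j k
    cases j <;> cases k
    · simp [hxf, star_csq, csq_mul_csq (c0 i)]
    · simp [hxf, hxt, star_csq, hsw]
    · simp [hxf, hxt, hws]
    · simp [hxt, hc]
  have hxsum : ∀ i, ∑ k, x i k * star (x i k) = 1 - y := by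
    intro i
    rw [Fintype.sum_bool, hxt, hxf, star_csq, csq_mul_csq (c0 i), ← sum_eq i, hc, add_comm]
  -- commutation between modes
  have cw : ∀ i j, i ≠ j → Commute (c i) (w j) := fun i j h =>
    (comms' i j h).mul_left (comm i j h)
  have cws : ∀ i j, i ≠ j → Commute (c i) (star (w j)) := fun i j h =>
    (commss i j h).mul_left (comms i j h)
  have ccc : ∀ i j, i ≠ j → Commute (c i) (c j) := fun i j h =>
    (cws i j h).mul_right (cw i j h)
  have hxxc : ∀ i j, i ≠ j → ∀ k m, Commute (x i k) (x j m) := by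
    intro i j h k m
    cases k <;> cases m
    · exact commute_csq (commute_csq (ccc i j h).symm).symm
    · exact commute_csq (cw i j h)
    · exact (commute_csq (cw j i h.symm)).symm
    · exact comm i j h
  have hxxs : ∀ i j, i ≠ j → ∀ k m, Commute (x i k) (star (x j m)) := by
    intro i j h k m
    cases k <;> cases m
    · rw [hxf, hxf, star_csq]
      exact commute_csq (commute_csq (ccc i j h).symm).symm
    · exact commute_csq (cws i j h)
    · rw [hxt, hxf, star_csq]
      exact (commute_csq (cw j i h.symm)).symm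
    · exact comms i j h
  have yx : ∀ i k, Commute y (x i k) := by
    intro i k
    cases k
    · exact (commute_csq (yc i).symm).symm
    · exact yw i
  have yxs : ∀ i k, Commute y (star (x i k)) := fun i k => by
    have := (yx i k).star_star
    rwa [hysa] at this
  -- products over the modes
  let X : (Fin l → Bool) → G := fun k => (List.ofFn (fun i => x i (k i))).prod
  let C : G := (List.ofFn c).prod
  have hXs : ∀ k, star (X k) = (List.ofFn (fun i => star (x i (k i)))).prod := fun k =>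
    star_prod_ofFn l _ (fun i j h => hxxc i j h _ _)
  have hXX : ∀ j k, star (X j) * X k = if j = k then C else 0 := by
    intro j k
    rw [hXs, prod_ofFn_mul l _ _ (fun i m h => hxxs i m h _ _)]
    by_cases hjk : j = k
    · subst hjk
      simp only [hxx, if_true]
      rfl
    · rw [if_neg hjk]
      obtain ⟨i, hi⟩ := Function.ne_iff.1 hjk
      have := (MultilinearMap.mkPiAlgebraFin ℂ l G).map_coord_zero
        (m := fun i => star (x i (j i)) * x i (k i)) i (by simp only [hxx, if_neg hi])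
      simpa using this
  have hXsum : ∑ k, X k * star (X k) = (1 - y) ^ l := by
    have h1 : ∀ k, X k * star (X k) = (List.ofFn (fun i => x i (k i) * star (x i (k i)))).prod := by
      intro k
      rw [hXs]
      exact prod_ofFn_mul l _ _ (fun i m h => (hxxs m i h.symm _ _).symm)
    simp only [h1]
    have := (MultilinearMap.mkPiAlgebraFin ℂ l G).map_sum (fun i k => x i k * star (x i k))
    simp only [MultilinearMap.mkPiAlgebraFin_apply] at this
    rw [← this]
    simp only [hxsum, List.ofFn_const, List.prod_replicate]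
  have yX : ∀ k, Commute y (X k) := fun k => commute_prod_ofFn l y _ (fun i => yx i _)
  have yC : Commute y C := commute_prod_ofFn l y _ (fun i => yc i)
  have hCsa : star C = C := by
    show star (List.ofFn c).prod = (List.ofFn c).prod
    rw [star_prod_ofFn l _ ccc]
    simp only [hc, star_mul, star_star]
    rfl
  have hCC : C * C = C * (1 - y) ^ l := by
    have h1 : C * C = (List.ofFn (fun i => c i * c i)).prod :=
      prod_ofFn_mul l c c (fun i j h => ccc i j h)
    have h2 : C * (List.ofFn (fun _ : Fin l => (1 - y))).prod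
        = (List.ofFn (fun i => c i * (1 - y))).prod :=
      prod_ofFn_mul l c _ (fun i j _ => (Commute.one_left _).sub_left (yc j))
    rw [h1]
    simp only [hcc]
    rw [← h2, List.ofFn_const, List.prod_replicate]
  have hQQ : star Q * Q = C := by
    rw [Q_eq, star_prod_ofFn l _ comm, prod_ofFn_mul l _ _ (fun i j h => comms i j h)]
  -- geometric sums
  set R : G := ∑ j ∈ Finset.range (l + 1), y ^ j with hR
  have R0 : 0 ≤ R := Finset.sum_nonneg fun j _ => CStarAlgebra.pow_nonneg y0 j
  have commR : ∀ {a : G}, Commute y a → Commute R a := fun {a} h =>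
    Commute.sum_left _ _ _ (fun j _ => h.pow_left j)
  set t : G := y ^ (l + 1) with ht
  have t0 : 0 ≤ t := CStarAlgebra.pow_nonneg y0 _
  have hyR : (1 - y) * R = 1 - t := mul_neg_geom_sum y (l + 1)
  have commt : ∀ {a : G}, Commute y a → Commute t a := fun {a} h => h.pow_left _
  set pp : G := ∑ j ∈ Finset.range l, (1 - t) ^ j with hpp
  have commpp : ∀ {a : G}, Commute y a → Commute pp a := fun {a} h =>
    Commute.sum_left _ _ _ (fun j _ => ((Commute.one_left a).sub_left (commt h)).pow_left j)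
  have pp0 : 0 ≤ pp := by
    rcases Nat.eq_zero_or_pos l with rfl | hl
    · simp [hpp]
    · have h1y : 0 ≤ 1 - y := by
        rw [← sum_eq ⟨0, hl⟩]
        exact add_nonneg (star_mul_self_nonneg _) (mul_star_self_nonneg _)
      have h1t : 0 ≤ 1 - t := by
        rw [← hyR]
        exact Commute.mul_nonneg h1y R0
          ((Commute.one_left _).sub_left (commR (Commute.refl y)).symm)
      exact Finset.sum_nonneg fun j _ => CStarAlgebra.pow_nonneg h1t j
  have htpp : t * pp = 1 - (1 - t) ^ l := by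
    have := mul_neg_geom_sum (1 - t) l
    rw [sub_sub_cancel] at this
    exact this
  -- the roots
  set r : G := csq R with hr
  have hrr : r * r = R := csq_mul_csq R0
  have hrsa : star r = r := star_csq R
  have commr : ∀ {a : G}, Commute y a → Commute r a := fun h => commute_csq (commR h)
  set q : G := csq pp with hq
  have hqq : q * q = pp := csq_mul_csq pp0
  have hqsa : star q = q := star_csq pp
  have commq : ∀ {a : G}, Commute y a → Commute q a := fun h => commute_csq (commpp h)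
  have hrl : star (r ^ l) = r ^ l := by rw [star_pow, hrsa]
  have hrlrl : r ^ l * r ^ l = R ^ l := by
    rw [← (Commute.refl r).mul_pow, hrr]
  -- the polar element
  set T : G := C * S with hT
  have hyT : y * T = 0 := by rw [hT, ← mul_assoc, yC.eq, mul_assoc, yS, mul_zero]
  have hpowS : ∀ n : ℕ, (1 - y) ^ n * S = S := by
    intro n
    induction n with
    | zero => simp
    | succ n ih => rw [pow_succ, mul_assoc, sub_mul, one_mul, yS, sub_zero, ih]
  have hCT : C * T = T := by
    rw [hT, ← mul_assoc, hCC, mul_assoc, hpowS]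
  have hTT : star T * T = star S * (star Q * Q) * S := by
    rw [hT, star_mul, hCsa, hQQ, mul_assoc, ← mul_assoc C C S, hCC, mul_assoc C, hpowS,
      ← mul_assoc]
  have hbt : b ^ (2 * (l + 1)) = t := by
    rw [ht, hy, pow_mul, pow_two]
  obtain ⟨s, hs, hmem⟩ := Step8.exists_polar T t 1 t0 (by
    rw [one_smul, hTT, ← hbt]; exact hle)
  have hys : y * s = 0 := by
    have hcl : IsClosed {x : G | y * x = 0} := isClosed_eq (by fun_prop) (by fun_prop)
    refine (hcl.closure_subset_iff.2 ?_) hmem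
    rintro _ ⟨f, rfl⟩
    show y * (T * f) = 0
    rw [← mul_assoc, hyT, zero_mul]
  have hCs : C * s = s := by
    have hcl : IsClosed {x : G | C * x = x} := isClosed_eq (by fun_prop) (by fun_prop)
    refine (hcl.closure_subset_iff.2 ?_) hmem
    rintro _ ⟨f, rfl⟩
    show C * (T * f) = T * f
    rw [← mul_assoc, hCT]
  have hRs : R * s = s := by
    rw [hR, Finset.sum_range_succ', pow_zero, add_mul, one_mul, Finset.sum_mul]
    rw [Finset.sum_eq_zero, zero_add]
    intro j _
    rw [pow_succ, mul_assoc, hys, mul_zero]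
  have hRls : ∀ n : ℕ, R ^ n * s = s := by
    intro n
    induction n with
    | zero => simp
    | succ n ih => rw [pow_succ, mul_assoc, hRs, ih]
  refine ⟨⟨fun k => X k * r ^ l, C * R ^ l, 1 - (1 - t) ^ l, fun _ => s * q, ?_, ?_, ?_, ?_, ?_⟩⟩
  · intro j k
    have h1 : star (X j * r ^ l) * (X k * r ^ l) = r ^ l * (star (X j) * X k) * r ^ l := by
      rw [star_mul, hrl]; simp only [mul_assoc]
    rw [h1, hXX]
    by_cases hjk : j = k
    · rw [if_pos hjk, if_pos hjk]
      rw [((commr yC).pow_left l).eq, mul_assoc, hrlrl]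
    · rw [if_neg hjk, if_neg hjk, mul_zero, zero_mul]
  · have h1 : ∀ k, X k * r ^ l * star (X k * r ^ l) = X k * star (X k) * R ^ l := by
      intro k
      have hc1 : Commute (r ^ l) (star (X k)) := by
        have := ((commr (yX k)).pow_left l).star_star
        rwa [hrl] at this
      rw [star_mul, hrl, ← hrlrl]
      calc X k * r ^ l * (r ^ l * star (X k)) = X k * (r ^ l * (r ^ l * star (X k))) := by
            simp only [mul_assoc]
        _ = X k * star (X k) * (r ^ l * r ^ l) := by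
            rw [hc1.eq, ← mul_assoc (r ^ l), hc1.eq]; simp only [mul_assoc]
    simp only [h1]
    rw [← Finset.sum_mul, hXsum]
    have hc2 : Commute (1 - y) R := (Commute.one_left _).sub_left (commR (Commute.refl y)).symm
    rw [← hc2.mul_pow, hyR]
    abel
  · intro k
    have hc3 : Commute t (X k * r ^ l) :=
      (commt (yX k)).mul_right ((commt (commr (Commute.refl y)).symm).pow_right l)
    exact ((Commute.one_left _).sub_left
      (((Commute.one_left _).sub_left hc3).pow_left l)).symm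
  · intro a b'
    rw [if_pos (Subsingleton.elim a b')]
    calc star (s * q) * (s * q) = q * (star s * s) * q := by
          rw [star_mul, hqsa]; simp only [mul_assoc]
      _ = q * t * q := by rw [hs]
      _ = t * pp := by
          rw [← (commt (commq (Commute.refl y)).symm).eq, mul_assoc, hqq]
      _ = 1 - (1 - t) ^ l := htpp
  · intro a
    rw [← mul_assoc, mul_assoc C, hRls, hCs]

end Vale.Agent.P101
end
end

section

section

/-! Auxiliary definitions for the gluing theorem. -/

open scoped BigOperators Kronecker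

namespace Vale.Agent.P101

universe u

/-- Continuous `F : [0,1] → M_α` which are scalar on `[2/3,1]`. -/
def coneAlg (α : Type) [Fintype α] [DecidableEq α] :
    StarSubalgebra ℂ C(unitInterval, Matrix α α ℂ) where
  carrier := {F | ∃ c : ℂ, ∀ t : unitInterval, 2 / 3 ≤ (t : ℝ) → F t = c • (1 : Matrix α α ℂ)}
  mul_mem' := by
    rintro F G ⟨c, hc⟩ ⟨d, hd⟩
    exact ⟨c * d, fun t ht => by simp [hc t ht, hd t ht, smul_smul, mul_comm]⟩
  add_mem' := by
    rintro F G ⟨c, hc⟩ ⟨d, hd⟩
    exact ⟨c + d, fun t ht => by simp [hc t ht, hd t ht, add_smul]⟩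
  algebraMap_mem' := by
    intro r
    exact ⟨r, fun t _ => by rw [Algebra.algebraMap_eq_smul_one]; rfl⟩
  star_mem' := by
    rintro F ⟨c, hc⟩
    exact ⟨star c, fun t ht => by simp [hc t ht]⟩

/-- Output of stage 1. -/
structure ConeData (α : Type) [Fintype α] [DecidableEq α] (G : Type u) [CStarAlgebra G] where
  Γ : coneAlg α →⋆ₐ[ℂ] G
  u : α → G
  m : coneAlg α
  m_eq : ∀ t : unitInterval, 1 / 3 ≤ (t : ℝ) → (m : C(unitInterval, Matrix α α ℂ)) t = 1
  uu : ∀ k l, star (u k) * u l = if k = l then Γ m else 0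
  Γu : ∀ (F : coneAlg α) k, Γ F * u k = ∑ l, ((F : C(unitInterval, Matrix α α ℂ)) 0) l k • u l

/-- `x` acting on the inner index for `none` and on the outer index for `some`. -/
def flipMat {α : Type} [DecidableEq α] (x : Matrix α α ℂ) :
    Matrix (α × Option α) (α × Option α) ℂ :=
  Matrix.of fun i j =>
    Option.elim i.2 (Option.elim j.2 (x i.1 j.1) fun _ => 0)
      fun k' => Option.elim j.2 0 fun l' => if i.1 = j.1 then x k' l' else 0

/-- Continuous `F` equal to some `flipMat x` on `[0,1/3]` and to some `1 ⊗ y` on `[2/3,1]`. -/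
def IsFlip {α : Type} [Fintype α] [DecidableEq α]
    (F : C(unitInterval, Matrix (α × Option α) (α × Option α) ℂ)) : Prop :=
  (∃ x : Matrix α α ℂ, ∀ t : unitInterval, (t : ℝ) ≤ 1 / 3 → F t = flipMat x) ∧
    ∃ y : Matrix (Option α) (Option α) ℂ, ∀ t : unitInterval, 2 / 3 ≤ (t : ℝ) →
      F t = (1 : Matrix α α ℂ) ⊗ₖ y

/-- the flip permutation -/
def flipEquiv (α : Type) : (α × Option α) ≃ (α × Option α) where
  toFun i := Option.elim i.2 (i.1, none) fun l => (l, some i.1)
  invFun i := Option.elim i.2 (i.1, none) fun l => (l, some i.1)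
  left_inv := by rintro ⟨k, _ | l⟩ <;> rfl
  right_inv := by rintro ⟨k, _ | l⟩ <;> rfl

theorem flipMat_eq {α : Type} [Fintype α] [DecidableEq α] (x : Matrix α α ℂ) :
    flipMat x = Matrix.reindex (flipEquiv α) (flipEquiv α)
      (x ⊗ₖ (1 : Matrix (Option α) (Option α) ℂ)) := by
  ext ⟨k, _ | k'⟩ ⟨l, _ | l'⟩ <;>
    simp [flipMat, flipEquiv, Matrix.one_apply]

theorem flipMat_mul {α : Type} [Fintype α] [DecidableEq α] (x y : Matrix α α ℂ) :
    flipMat (x * y) = flipMat x * flipMat y := by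
  rw [flipMat_eq, flipMat_eq, flipMat_eq, ← Matrix.reindexAlgEquiv_apply ℂ ℂ,
    ← Matrix.reindexAlgEquiv_apply ℂ ℂ, ← Matrix.reindexAlgEquiv_apply ℂ ℂ, ← map_mul,
    ← Matrix.mul_kronecker_mul, one_mul]

theorem flipMat_star {α : Type} [Fintype α] [DecidableEq α] (x : Matrix α α ℂ) :
    flipMat (star x) = star (flipMat x) := by
  ext ⟨k, _ | k'⟩ ⟨l, _ | l'⟩ <;>
    simp [flipMat, Matrix.star_apply]
  split_ifs with h1 h2 h3 <;> simp_all

theorem flipMat_one {α : Type} [Fintype α] [DecidableEq α] :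
    flipMat (1 : Matrix α α ℂ) = 1 := by
  ext ⟨k, _ | k'⟩ ⟨l, _ | l'⟩ <;>
    simp [flipMat, Matrix.one_apply]
  split_ifs with h1 h2 h3 <;> simp_all

theorem flipMat_add {α : Type} [DecidableEq α] (x y : Matrix α α ℂ) :
    flipMat (x + y) = flipMat x + flipMat y := by
  ext ⟨k, _ | k'⟩ ⟨l, _ | l'⟩ <;>
    simp [flipMat]
  split_ifs with h1 <;> simp

theorem flipMat_smul {α : Type} [DecidableEq α] (c : ℂ) (x : Matrix α α ℂ) :
    flipMat (c • x) = c • flipMat x := by
  ext ⟨k, _ | k'⟩ ⟨l, _ | l'⟩ <;>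
    simp [flipMat]

/-- The algebra of all `F` with `IsFlip F`. -/
def flipAlg (α : Type) [Fintype α] [DecidableEq α] :
    StarSubalgebra ℂ C(unitInterval, Matrix (α × Option α) (α × Option α) ℂ) where
  carrier := {F | IsFlip F}
  mul_mem' := by
    rintro f g ⟨⟨x, hx⟩, ⟨y, hy⟩⟩ ⟨⟨x', hx'⟩, ⟨y', hy'⟩⟩
    refine ⟨⟨x * x', fun t ht => ?_⟩, ⟨y * y', fun t ht => ?_⟩⟩
    · rw [flipMat_mul, ← hx t ht, ← hx' t ht]; rfl
    · simp [hy t ht, hy' t ht, ← Matrix.mul_kronecker_mul]
  add_mem' := by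
    rintro f g ⟨⟨x, hx⟩, ⟨y, hy⟩⟩ ⟨⟨x', hx'⟩, ⟨y', hy'⟩⟩
    refine ⟨⟨x + x', fun t ht => ?_⟩, ⟨y + y', fun t ht => ?_⟩⟩
    · rw [flipMat_add, ← hx t ht, ← hx' t ht]; rfl
    · simp [hy t ht, hy' t ht, Matrix.kronecker_add]
  algebraMap_mem' := by
    intro r
    refine ⟨⟨r • 1, fun t ht => ?_⟩, ⟨r • 1, fun t ht => ?_⟩⟩
    · rw [flipMat_smul, flipMat_one, Algebra.algebraMap_eq_smul_one]
      rfl
    · rw [Matrix.kronecker_smul, Matrix.one_kronecker_one, Algebra.algebraMap_eq_smul_one]
      rfl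
  star_mem' := by
    rintro f ⟨⟨x, hx⟩, ⟨y, hy⟩⟩
    refine ⟨⟨star x, fun t ht => ?_⟩, ⟨star y, fun t ht => ?_⟩⟩
    · rw [flipMat_star, ← hx t ht]; rfl
    · simp [hy t ht, Matrix.star_eq_conjTranspose, Matrix.conjTranspose_kronecker]

end Vale.Agent.P101
end
end
namespace AFast493285x4687a
@[reducible] noncomputable def a0 {x1 : Type} [x2 : Fintype x1] [x3 : DecidableEq x1] : Ring ↥(Vale.Agent.P101.coneAlg x1) := inferInstance
@[reducible] noncomputable def a1 {x1 : Type} [x2 : Fintype x1] [x3 : DecidableEq x1] : Star ↥(Vale.Agent.P101.coneAlg x1) := inferInstance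
end AFast493285x4687a
attribute [local instance] AFast493285x4687a.a0 AFast493285x4687a.a1
namespace AFast493285x4687b
theorem a0.{u1} {x1 : Type} [x2 : Fintype x1] [x3 : DecidableEq x1] {x4 : Type u1} [x5 : CStarAlgebra x4] : LinearMapClass (↥(Vale.Agent.P101.coneAlg x1) →⋆ₐ[ℂ] x4) ℂ (↥(Vale.Agent.P101.coneAlg x1)) x4 := inferInstance
@[reducible] noncomputable def a1 {x1 : Type} [x2 : Fintype x1] [x3 : DecidableEq x1] : Module ℂ ↥(Vale.Agent.P101.coneAlg x1) := inferInstance
theorem a2.{u1} {x1 : Type} [x2 : Fintype x1] [x3 : DecidableEq x1] {x4 : Type u1} [x5 : CStarAlgebra x4] : AddHomClass (↥(Vale.Agent.P101.coneAlg x1) →⋆ₐ[ℂ] x4) (↥(Vale.Agent.P101.coneAlg x1)) x4 := inferInstance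
@[reducible] noncomputable def a3 {x1 : Type} [x2 : Fintype x1] [x3 : DecidableEq x1] : Semiring ↥(Vale.Agent.P101.coneAlg x1) := inferInstance
theorem a4.{u1} {x1 : Type} [x2 : Fintype x1] [x3 : DecidableEq x1] {x4 : Type u1} [x5 : CStarAlgebra x4] : MulActionSemiHomClass (↥(Vale.Agent.P101.coneAlg x1) →⋆ₐ[ℂ] x4) (⇑(RingHom.id ℂ)) (↥(Vale.Agent.P101.coneAlg x1)) x4 := inferInstance
@[reducible] noncomputable def a5 {x1 : Type} [x2 : Fintype x1] [x3 : DecidableEq x1] : Distrib ↥(Vale.Agent.P101.coneAlg x1) := inferInstance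
theorem a6.{u1} {x1 : Type} [x2 : Fintype x1] [x3 : DecidableEq x1] {x4 : Type u1} [x5 : CStarAlgebra x4] : NonUnitalAlgHomClass (↥(Vale.Agent.P101.coneAlg x1) →⋆ₐ[ℂ] x4) ℂ (↥(Vale.Agent.P101.coneAlg x1)) x4 := inferInstance
@[reducible] noncomputable def a7 {x1 : Type} [x2 : Fintype x1] [x3 : DecidableEq x1] : Sub (Matrix (Option x1) (Option x1) ↥(Vale.Agent.P101.coneAlg x1)) := inferInstance
@[reducible] noncomputable def a8 {x1 : Type} [x2 : Fintype x1] [x3 : DecidableEq x1] : Sub ↥(Vale.Agent.P101.coneAlg x1) := inferInstance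
theorem a9.{u1} {x1 : Type} [x2 : Fintype x1] [x3 : DecidableEq x1] {x4 : Type u1} [x5 : CStarAlgebra x4] : MonoidWithZeroHomClass (↥(Vale.Agent.P101.coneAlg x1) →⋆ₐ[ℂ] x4) (↥(Vale.Agent.P101.coneAlg x1)) x4 := inferInstance
@[reducible] noncomputable def a10 {x1 : Type} [x2 : Fintype x1] [x3 : DecidableEq x1] : Add ↥(Vale.Agent.P101.coneAlg x1) := inferInstance
@[reducible] noncomputable def a11 {x1 : Type} [x2 : Fintype x1] [x3 : DecidableEq x1] : NonUnitalNonAssocSemiring ↥(Vale.Agent.P101.coneAlg x1) := inferInstance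
@[reducible] noncomputable def a12 {x1 : Type} [x2 : Fintype x1] [x3 : DecidableEq x1] : Add (Matrix (Option x1) (Option x1) ↥(Vale.Agent.P101.coneAlg x1)) := inferInstance
@[reducible] noncomputable def a13 {x1 : Type} [x2 : Fintype x1] [x3 : DecidableEq x1] : NonAssocSemiring ↥(Vale.Agent.P101.coneAlg x1) := inferInstance
@[reducible] noncomputable def a14 {x1 : Type} [x2 : Fintype x1] [x3 : DecidableEq x1] : Semiring ↥(Vale.Agent.P101.flipAlg x1) := inferInstance
@[reducible] noncomputable def a15 {x1 : Type} [x2 : Fintype x1] [x3 : DecidableEq x1] : Ring ↥(Vale.Agent.P101.flipAlg x1) := inferInstance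
@[reducible] noncomputable def a16 {x1 : Type} [x2 : Fintype x1] [x3 : DecidableEq x1] : AddCommMonoid ↥(Vale.Agent.P101.coneAlg x1) := inferInstance
@[reducible] noncomputable def a17 {x1 : Type} [x2 : Fintype x1] [x3 : DecidableEq x1] : Mul ↥(Vale.Agent.P101.coneAlg x1) := inferInstance
@[reducible] noncomputable def a18 {x1 : Type} [x2 : Fintype x1] [x3 : DecidableEq x1] : Distrib ↥(Vale.Agent.P101.flipAlg x1) := inferInstance
@[reducible] noncomputable def a19 {x1 : Type} [x2 : Fintype x1] [x3 : DecidableEq x1] : NonUnitalNonAssocRing ↥(Vale.Agent.P101.coneAlg x1) := inferInstance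
theorem a20.{u1} {x1 : Type} [x2 : Fintype x1] [x3 : DecidableEq x1] {x4 : Type u1} [x5 : CStarAlgebra x4] : OneHomClass (↥(Vale.Agent.P101.coneAlg x1) →⋆ₐ[ℂ] x4) (↥(Vale.Agent.P101.coneAlg x1)) x4 := inferInstance
theorem a21.{u1} {x1 : Type} [x2 : Fintype x1] [x3 : DecidableEq x1] {x4 : Type u1} [x5 : CStarAlgebra x4] : MonoidHomClass (↥(Vale.Agent.P101.coneAlg x1) →⋆ₐ[ℂ] x4) (↥(Vale.Agent.P101.coneAlg x1)) x4 := inferInstance
theorem a22.{u1} {x1 : Type} [x2 : Fintype x1] [x3 : DecidableEq x1] {x4 : Type u1} [x5 : CStarAlgebra x4] : ZeroHomClass (↥(Vale.Agent.P101.coneAlg x1) →⋆ₐ[ℂ] x4) (↥(Vale.Agent.P101.coneAlg x1)) x4 := inferInstance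
@[reducible] noncomputable def a23 {x1 : Type} [x2 : Fintype x1] [x3 : DecidableEq x1] : NonAssocRing ↥(Vale.Agent.P101.coneAlg x1) := inferInstance
end AFast493285x4687b
attribute [local instance] AFast493285x4687b.a0 AFast493285x4687b.a1 AFast493285x4687b.a2
  AFast493285x4687b.a3 AFast493285x4687b.a4 AFast493285x4687b.a5 AFast493285x4687b.a6
  AFast493285x4687b.a7 AFast493285x4687b.a8 AFast493285x4687b.a9 AFast493285x4687b.a10
  AFast493285x4687b.a11 AFast493285x4687b.a12 AFast493285x4687b.a13 AFast493285x4687b.a14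
  AFast493285x4687b.a15 AFast493285x4687b.a16 AFast493285x4687b.a17 AFast493285x4687b.a18
  AFast493285x4687b.a19 AFast493285x4687b.a20 AFast493285x4687b.a21 AFast493285x4687b.a22
  AFast493285x4687b.a23

section

section

/-! Second stage of the gluing construction. -/

open scoped BigOperators Kronecker

namespace Vale.Agent.P101

universe u

section Basics

variable {α : Type} [Fintype α] [DecidableEq α]

/-- cut-off function: `1` on `[0,1/3]`, `0` on `[2/3,1]` -/
noncomputable def cutMu : C(unitInterval, ℂ) :=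
  ⟨fun t => ((max 0 (min 1 (2 - 3 * (t : ℝ))) : ℝ) : ℂ), by fun_prop⟩

theorem cutMu_left (t : unitInterval) (ht : (t : ℝ) ≤ 1 / 3) : cutMu t = 1 := by
  have : max 0 (min 1 (2 - 3 * (t : ℝ))) = 1 := by
    rw [min_eq_left (by linarith)]; simp
  simp only [cutMu, ContinuousMap.coe_mk, this, Complex.ofReal_one]

theorem cutMu_right (t : unitInterval) (ht : 2 / 3 ≤ (t : ℝ)) : cutMu t = 0 := by
  have : max 0 (min 1 (2 - 3 * (t : ℝ))) = 0 := by
    rw [min_eq_right (by linarith), max_eq_left (by linarith)]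
  simp only [cutMu, ContinuousMap.coe_mk, this, Complex.ofReal_zero]

theorem cutMu_star (t : unitInterval) : star (cutMu t) = cutMu t := by
  simp only [cutMu, ContinuousMap.coe_mk, RCLike.star_def, Complex.conj_ofReal]

/-- the blocks of `F` -/
noncomputable def blk (F : C(unitInterval, Matrix (α × Option α) (α × Option α) ℂ)) (b b' : Option α) :
    C(unitInterval, Matrix α α ℂ) :=
  ⟨fun t => (F t).submatrix (fun k => (k, b)) (fun l => (l, b')),
    (map_continuous F).matrix_submatrix _ _⟩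

omit [Fintype α] [DecidableEq α] in
@[simp] theorem blk_apply (F : C(unitInterval, Matrix (α × Option α) (α × Option α) ℂ))
    (b b' : Option α) (t : unitInterval) (k l : α) :
    blk F b b' t k l = F t (k, b) (l, b') := rfl

/-- the comparison matrix -/
noncomputable def Wf (x : Matrix α α ℂ) : Option α → Option α → C(unitInterval, Matrix α α ℂ)
  | none, none => ⟨fun t => cutMu t • x, (map_continuous cutMu).smul continuous_const⟩
  | some k, some l => ContinuousMap.const _ (x k l • (1 : Matrix α α ℂ))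
  | none, some _ => 0
  | some _, none => 0

theorem Wf_mem (x : Matrix α α ℂ) (b b' : Option α) : Wf x b b' ∈ coneAlg α := by
  rcases b with _ | k <;> rcases b' with _ | l
  · exact ⟨0, fun t ht => by simp [Wf, cutMu_right t ht]⟩
  · exact ⟨0, fun t ht => by simp [Wf]⟩
  · exact ⟨0, fun t ht => by simp [Wf]⟩
  · exact ⟨x k l, fun t ht => by simp [Wf]⟩

theorem blk_mem (F : C(unitInterval, Matrix (α × Option α) (α × Option α) ℂ))
    (hF : F ∈ flipAlg α) (b b' : Option α) : blk F b b' ∈ coneAlg α := by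
  obtain ⟨-, y, hy⟩ := hF
  refine ⟨y b b', fun t ht => ?_⟩
  ext k l
  simp [hy t ht, Matrix.one_apply]

/-- `Wf` as a matrix over the cone algebra -/
noncomputable def Wm (x : Matrix α α ℂ) : Matrix (Option α) (Option α) (coneAlg α) :=
  Matrix.of fun b b' => ⟨Wf x b b', Wf_mem x b b'⟩

/-- the blocks of `F` as a matrix over the cone algebra -/
noncomputable def Bm (F : flipAlg α) : Matrix (Option α) (Option α) (coneAlg α) :=
  Matrix.of fun b b' => ⟨blk F b b', blk_mem F F.2 b b'⟩

/-- the matrix of `F` near `0` -/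
noncomputable def xm (F : flipAlg α) : Matrix α α ℂ :=
  (((F : C(unitInterval, Matrix (α × Option α) (α × Option α) ℂ)) 0).submatrix
    (fun k => (k, none)) (fun l => (l, none)))

/-- the scalar path `(μ² - μ) x` -/
noncomputable def Nf (x : Matrix α α ℂ) : coneAlg α :=
  ⟨⟨fun t => (cutMu t * cutMu t - cutMu t) • x,
    (((map_continuous cutMu).mul (map_continuous cutMu)).sub (map_continuous cutMu)).smul
      continuous_const⟩, ⟨0, fun t ht => by simp [cutMu_right t ht]⟩⟩

theorem coneAlg_ext {X Y : coneAlg α}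
    (h : ∀ t, (X : C(unitInterval, Matrix α α ℂ)) t = (Y : C(unitInterval, Matrix α α ℂ)) t) :
    X = Y := Subtype.ext (ContinuousMap.ext h)

theorem coe_sum_apply {ι : Type*} (s : Finset ι) (f : ι → coneAlg α) (t : unitInterval) :
    ((∑ i ∈ s, f i : coneAlg α) : C(unitInterval, Matrix α α ℂ)) t
      = ∑ i ∈ s, ((f i : C(unitInterval, Matrix α α ℂ)) t) := by
  rw [AddSubmonoidClass.coe_finsetSum, ContinuousMap.sum_apply]

theorem Bm_mul (F F' : flipAlg α) : Bm (F * F') = Bm F * Bm F' := by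
  ext1 b b''
  refine coneAlg_ext fun t => ?_
  rw [Matrix.mul_apply, coe_sum_apply]
  ext k l
  rw [Matrix.sum_apply]
  simp only [Bm, Matrix.of_apply, MulMemClass.coe_mul, ContinuousMap.mul_apply,
    Matrix.mul_apply, blk_apply]
  rw [Fintype.sum_prod_type_right]

theorem Bm_add (F F' : flipAlg α) : Bm (F + F') = Bm F + Bm F' := by
  ext1 b b'
  refine coneAlg_ext fun t => ?_
  ext k l
  simp [Bm]

theorem Bm_smul (r : ℂ) (F : flipAlg α) : Bm (r • F) = r • Bm F := by
  ext1 b b'
  refine coneAlg_ext fun t => ?_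
  ext k l
  simp [Bm]

theorem Bm_star (F : flipAlg α) : Bm (star F) = (Bm F).conjTranspose := by
  ext1 b b'
  refine coneAlg_ext fun t => ?_
  ext k l
  simp [Bm, Matrix.star_apply]

theorem Bm_one : Bm (1 : flipAlg α) = 1 := by
  ext1 b b'
  refine coneAlg_ext fun t => ?_
  ext k l
  by_cases h : b = b'
  · subst h; simp [Bm, Matrix.one_apply]
  · simp [Bm, h]

theorem xm_mul (F F' : flipAlg α) : xm (F * F') = xm F * xm F' := by
  obtain ⟨⟨x, hx⟩, -⟩ := F.2
  obtain ⟨⟨x', hx'⟩, -⟩ := F'.2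
  have h1 := hx 0 (by norm_num)
  have h2 := hx' 0 (by norm_num)
  have e : ((F * F' : flipAlg α) : C(unitInterval, Matrix (α × Option α) (α × Option α) ℂ)) 0
      = flipMat (x * x') := by
    rw [flipMat_mul, ← h1, ← h2]; rfl
  unfold xm
  rw [e, h1, h2]
  ext k l
  simp [flipMat, Matrix.mul_apply]

theorem xm_add (F F' : flipAlg α) : xm (F + F') = xm F + xm F' := rfl

theorem xm_smul (r : ℂ) (F : flipAlg α) : xm (r • F) = r • xm F := rfl

theorem xm_star (F : flipAlg α) : xm (star F) = star (xm F) := rfl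

theorem xm_one : xm (1 : flipAlg α) = 1 := by
  ext k l
  simp [xm, Matrix.one_apply]

theorem Wm_add (x x' : Matrix α α ℂ) : Wm (x + x') = Wm x + Wm x' := by
  ext1 b b'
  refine coneAlg_ext fun t => ?_
  rcases b with _ | k <;> rcases b' with _ | l <;> simp [Wm, Wf, add_smul]

theorem Wm_smul (r : ℂ) (x : Matrix α α ℂ) : Wm (r • x) = r • Wm x := by
  ext1 b b'
  refine coneAlg_ext fun t => ?_
  rcases b with _ | k <;> rcases b' with _ | l <;> simp [Wm, Wf, smul_smul, mul_comm]

theorem Wm_star (x : Matrix α α ℂ) : Wm (star x) = (Wm x).conjTranspose := by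
  ext1 b b'
  refine coneAlg_ext fun t => ?_
  have := cutMu_star t
  rcases b with _ | k <;> rcases b' with _ | l <;>
    simp_all [Wm, Wf, Matrix.star_apply]

theorem Wm_mul (x x' : Matrix α α ℂ) :
    Wm x * Wm x' = Wm (x * x') + Matrix.single none none (Nf (x * x')) := by
  ext1 b b''
  refine coneAlg_ext fun t => ?_
  rw [Matrix.mul_apply, coe_sum_apply, Fintype.sum_option]
  rcases b with _ | k <;> rcases b'' with _ | l
  · simp [Wm, Wf, Nf, smul_smul, ← add_smul]
  · simp [Wm, Wf]
  · simp [Wm, Wf]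
  · simp [Wm, Wf, Matrix.mul_apply, Finset.sum_smul, smul_smul, mul_comm]

/-- the difference -/
noncomputable def Em (F : flipAlg α) : Matrix (Option α) (Option α) (coneAlg α) :=
  Bm F - Wm (xm F)

theorem Em_left (F : flipAlg α) (b b' : Option α) (t : unitInterval) (ht : (t : ℝ) ≤ 1 / 3) :
    ((Em F b b' : coneAlg α) : C(unitInterval, Matrix α α ℂ)) t = 0 := by
  obtain ⟨⟨x, hx⟩, -⟩ := F.2
  have hx0 : xm F = x := by
    ext k l
    simp [xm, hx 0 (by norm_num), flipMat]
  have h : ((Bm F b b' : coneAlg α) : C(unitInterval, Matrix α α ℂ)) t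
      = ((Wm x b b' : coneAlg α) : C(unitInterval, Matrix α α ℂ)) t := by
    ext k l
    have e : ((Bm F b b' : coneAlg α) : C(unitInterval, Matrix α α ℂ)) t k l
        = flipMat x (k, b) (l, b') := by
      rw [← hx t ht]; rfl
    rw [e]
    rcases b with _ | k' <;> rcases b' with _ | l'
    · simp [Wm, Wf, flipMat, cutMu_left t ht]
    · simp [Wm, Wf, flipMat]
    · simp [Wm, Wf, flipMat]
    · simp [Wm, Wf, flipMat, Matrix.one_apply]
  simp only [Em, Matrix.sub_apply, AddSubgroupClass.coe_sub, ContinuousMap.sub_apply, hx0, h,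
    sub_self]

theorem aux_ring {R : Type*} [Ring R] (B B' W W' WW N : R) (h : W * W' = WW + N) :
    B * B' - WW = N + W * (B' - W') + (B - W) * W' + (B - W) * (B' - W') := by
  have e : N = W * W' - WW := by rw [h]; abel
  rw [e]; noncomm_ring

theorem Em_mul (F F' : flipAlg α) :
    Em (F * F') = Matrix.single none none (Nf (xm F * xm F'))
      + Wm (xm F) * Em F' + Em F * Wm (xm F') + Em F * Em F' := by
  unfold Em
  rw [Bm_mul, xm_mul]
  exact aux_ring (Bm F) (Bm F') (Wm (xm F)) (Wm (xm F')) (Wm (xm F * xm F')) _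
    (Wm_mul (xm F) (xm F'))

end Basics

section Main

variable {G : Type u} [CStarAlgebra G] {α : Type} [Fintype α] [DecidableEq α]
  (C : ConeData α G)

/-- the row vector `(1, u)` -/
def ConeData.c : Option α → G
  | none => 1
  | some k => C.u k

/-- `∑ c_a Γ(M_ab) c_b*` -/
noncomputable def ConeData.T (M : Matrix (Option α) (Option α) (coneAlg α)) : G :=
  ∑ a, ∑ b, C.c a * C.Γ (M a b) * star (C.c b)

/-- `Γ (μ x)` -/
noncomputable def ConeData.P (x : Matrix α α ℂ) : G := C.Γ (Wm x none none)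

namespace ConeData

theorem T_add (M M' : Matrix (Option α) (Option α) (coneAlg α)) :
    C.T (M + M') = C.T M + C.T M' := by
  simp only [T, Matrix.add_apply, map_add, mul_add, add_mul, Finset.sum_add_distrib]

theorem T_smul (r : ℂ) (M : Matrix (Option α) (Option α) (coneAlg α)) :
    C.T (r • M) = r • C.T M := by
  simp only [T, Matrix.smul_apply, map_smul, mul_smul_comm, smul_mul_assoc, Finset.smul_sum]

theorem T_star (M : Matrix (Option α) (Option α) (coneAlg α)) :
    C.T M.conjTranspose = star (C.T M) := by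
  simp only [T, star_sum, star_mul, star_star, Matrix.conjTranspose_apply, map_star]
  rw [Finset.sum_comm]
  simp only [mul_assoc]

theorem T_single (N : coneAlg α) : C.T (Matrix.single none none N) = C.Γ N := by
  have : ∀ a b : Option α, C.c a * C.Γ (Matrix.single none none N a b) * star (C.c b)
      = if a = none then (if b = none then C.Γ N else 0) else 0 := by
    intro a b
    rcases a with _ | a <;> rcases b with _ | b <;> simp [c]
  simp only [T, this]
  simp

theorem P_c (x : Matrix α α ℂ) (b : Option α) :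
    C.P x * C.c b = ∑ a, C.c a * C.Γ (Wm x a b) := by
  rcases b with _ | k
  · rw [Fintype.sum_option]
    have : ∀ a : α, C.c (some a) * C.Γ (Wm x (some a) none) = 0 := by
      intro a
      have e : Wm x (some a) none = 0 := coneAlg_ext fun t => by simp [Wm, Wf]
      rw [e, map_zero, mul_zero]
    rw [Finset.sum_eq_zero fun a _ => this a]
    simp [c, P]
  · rw [Fintype.sum_option]
    have e0 : Wm x none (some k) = 0 := coneAlg_ext fun t => by simp [Wm, Wf]
    rw [e0, map_zero, mul_zero, zero_add]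
    change C.Γ (Wm x none none) * C.u k = _
    rw [C.Γu]
    refine Finset.sum_congr rfl fun a _ => ?_
    have e1 : Wm x (some a) (some k) = (x a k) • (1 : coneAlg α) :=
      coneAlg_ext fun t => by simp [Wm, Wf]
    have e2 : (((Wm x none none : coneAlg α) : C(unitInterval, Matrix α α ℂ)) 0) a k = x a k := by
      simp [Wm, Wf, cutMu_left 0 (by norm_num)]
    rw [e1, e2, map_smul, map_one]
    simp [c]

theorem P_T (x : Matrix α α ℂ) (M : Matrix (Option α) (Option α) (coneAlg α)) :
    C.P x * C.T M = C.T (Wm x * M) := by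
  calc C.P x * C.T M
      = ∑ a, ∑ b, (C.P x * C.c a) * C.Γ (M a b) * star (C.c b) := by
        rw [T, Finset.mul_sum]
        refine Finset.sum_congr rfl fun a _ => ?_
        rw [Finset.mul_sum]
        refine Finset.sum_congr rfl fun b _ => ?_
        simp only [mul_assoc]
    _ = ∑ a, ∑ b, ∑ a', C.c a' * (C.Γ (Wm x a' a) * C.Γ (M a b)) * star (C.c b) := by
        refine Finset.sum_congr rfl fun a _ => Finset.sum_congr rfl fun b _ => ?_
        rw [C.P_c, Finset.sum_mul, Finset.sum_mul]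
        refine Finset.sum_congr rfl fun a' _ => ?_
        simp only [mul_assoc]
    _ = ∑ a', ∑ b, ∑ a, C.c a' * (C.Γ (Wm x a' a) * C.Γ (M a b)) * star (C.c b) := by
        rw [Finset.sum_comm]
        rw [Finset.sum_comm]
        rw [Finset.sum_congr rfl fun a _ => Finset.sum_comm]
        rw [Finset.sum_comm]
        exact Finset.sum_congr rfl fun a' _ => Finset.sum_comm
    _ = C.T (Wm x * M) := by
        rw [T]
        refine Finset.sum_congr rfl fun a' _ => Finset.sum_congr rfl fun b _ => ?_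
        rw [Matrix.mul_apply, map_sum, Finset.mul_sum, Finset.sum_mul]
        simp only [map_mul]

theorem T_P (x : Matrix α α ℂ) (M : Matrix (Option α) (Option α) (coneAlg α)) :
    C.T M * C.P x = C.T (M * Wm x) := by
  have h := congrArg star (C.P_T (star x) M.conjTranspose)
  rw [star_mul, T_star, star_star] at h
  have e : star (C.P (star x)) = C.P x := by
    rw [P, Wm_star, Matrix.conjTranspose_apply, map_star, star_star]; rfl
  rw [e] at h
  rw [h, ← T_star, Matrix.conjTranspose_mul, Wm_star, Matrix.conjTranspose_conjTranspose,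
    Matrix.conjTranspose_conjTranspose]

theorem Γ_c_c_Γ (E E' : coneAlg α)
    (hE : ∀ t : unitInterval, (t : ℝ) ≤ 1 / 3 → (E : C(unitInterval, Matrix α α ℂ)) t = 0)
    (hE' : ∀ t : unitInterval, (t : ℝ) ≤ 1 / 3 → (E' : C(unitInterval, Matrix α α ℂ)) t = 0)
    (b b' : Option α) :
    C.Γ E * (star (C.c b) * C.c b') * C.Γ E' = if b = b' then C.Γ (E * E') else 0 := by
  have h1 : ∀ k, C.Γ E * C.u k = 0 := by
    intro k
    rw [C.Γu, hE 0 (by norm_num)]
    simp
  have h2 : ∀ k, star (C.u k) * C.Γ E' = 0 := by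
    intro k
    have h3 : C.Γ (star E') * C.u k = 0 := by
      rw [C.Γu]
      have : ((star E' : coneAlg α) : C(unitInterval, Matrix α α ℂ)) 0 = 0 := by
        change star ((E' : C(unitInterval, Matrix α α ℂ)) 0) = 0
        rw [hE' 0 (by norm_num), star_zero]
      rw [this]
      simp
    have := congrArg star h3
    simpa [star_mul, ← map_star] using this
  rcases b with _ | k <;> rcases b' with _ | l
  · simp [c]
  · simp only [c, star_one, one_mul, reduceCtorEq, if_false, h1, zero_mul]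
  · simp only [c, mul_one, reduceCtorEq, if_false]
    rw [mul_assoc, h2, mul_zero]
  · simp only [c, C.uu, Option.some.injEq]
    by_cases h : k = l
    · simp only [h, if_true]
      rw [← map_mul, ← map_mul]
      congr 1
      refine coneAlg_ext fun t => ?_
      simp only [MulMemClass.coe_mul, ContinuousMap.mul_apply]
      by_cases ht : (t : ℝ) ≤ 1 / 3
      · rw [hE t ht]; simp
      · rw [C.m_eq t (by linarith), mul_one]
    · simp [h]

theorem T_T (E E' : Matrix (Option α) (Option α) (coneAlg α))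
    (hE : ∀ a b, ∀ t : unitInterval, (t : ℝ) ≤ 1 / 3 →
      (E a b : C(unitInterval, Matrix α α ℂ)) t = 0)
    (hE' : ∀ a b, ∀ t : unitInterval, (t : ℝ) ≤ 1 / 3 →
      (E' a b : C(unitInterval, Matrix α α ℂ)) t = 0) :
    C.T E * C.T E' = C.T (E * E') := by
  have key : ∀ a b a' b', (C.c a * C.Γ (E a b) * star (C.c b)) *
      (C.c a' * C.Γ (E' a' b') * star (C.c b'))
      = if b = a' then C.c a * C.Γ (E a b * E' a' b') * star (C.c b') else 0 := by
    intro a b a' b'
    calc (C.c a * C.Γ (E a b) * star (C.c b)) * (C.c a' * C.Γ (E' a' b') * star (C.c b'))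
        = C.c a * (C.Γ (E a b) * (star (C.c b) * C.c a') * C.Γ (E' a' b')) * star (C.c b') := by
          simp only [mul_assoc]
      _ = _ := by
          rw [C.Γ_c_c_Γ (E a b) (E' a' b') (hE a b) (hE' a' b')]
          split_ifs <;> simp
  calc C.T E * C.T E'
      = ∑ a, ∑ b, ∑ a', ∑ b', (C.c a * C.Γ (E a b) * star (C.c b)) *
          (C.c a' * C.Γ (E' a' b') * star (C.c b')) := by
        rw [T, T, Finset.sum_mul]
        refine Finset.sum_congr rfl fun a _ => ?_
        rw [Finset.sum_mul]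
        refine Finset.sum_congr rfl fun b _ => ?_
        rw [Finset.mul_sum]
        refine Finset.sum_congr rfl fun a' _ => ?_
        rw [Finset.mul_sum]
    _ = ∑ a, ∑ b, ∑ b', C.c a * C.Γ (E a b * E' b b') * star (C.c b') := by
        refine Finset.sum_congr rfl fun a _ => Finset.sum_congr rfl fun b _ => ?_
        rw [Finset.sum_comm]
        refine Finset.sum_congr rfl fun b' _ => ?_
        simp only [key, Finset.sum_ite_eq, Finset.mem_univ, if_true]
    _ = C.T (E * E') := by
        rw [T]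
        refine Finset.sum_congr rfl fun a _ => ?_
        rw [Finset.sum_comm]
        refine Finset.sum_congr rfl fun b' _ => ?_
        rw [Matrix.mul_apply, map_sum, Finset.mul_sum, Finset.sum_mul]

/-- the map of the theorem -/
noncomputable def Φ (F : flipAlg α) : G := C.P (xm F) + C.T (Em F)

theorem P_add (x x' : Matrix α α ℂ) : C.P (x + x') = C.P x + C.P x' := by
  rw [P, Wm_add, Matrix.add_apply, map_add]; rfl

theorem P_smul (r : ℂ) (x : Matrix α α ℂ) : C.P (r • x) = r • C.P x := by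
  rw [P, Wm_smul, Matrix.smul_apply, map_smul]; rfl

theorem P_mul (x x' : Matrix α α ℂ) : C.P x * C.P x' = C.P (x * x') + C.Γ (Nf (x * x')) := by
  rw [P, P, P, ← map_mul, ← map_add]
  congr 1
  refine coneAlg_ext fun t => ?_
  simp [Wm, Wf, Nf, smul_smul, ← add_smul]

theorem P_star (x : Matrix α α ℂ) : C.P (star x) = star (C.P x) := by
  rw [P, Wm_star, Matrix.conjTranspose_apply, map_star]; rfl

theorem Em_add (F F' : flipAlg α) : Em (F + F') = Em F + Em F' := by
  unfold Em; rw [Bm_add, xm_add, Wm_add]; abel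

theorem Em_smul (r : ℂ) (F : flipAlg α) : Em (r • F) = r • Em F := by
  unfold Em; rw [Bm_smul, xm_smul, Wm_smul]
  exact (smul_sub r (Bm F) (Wm (xm F))).symm

theorem Em_star (F : flipAlg α) : Em (star F) = (Em F).conjTranspose := by
  unfold Em; rw [Bm_star, xm_star, Wm_star]
  exact (Matrix.conjTranspose_sub (Bm F) (Wm (xm F))).symm

theorem Φ_add (F F' : flipAlg α) : C.Φ (F + F') = C.Φ F + C.Φ F' := by
  unfold Φ; rw [xm_add, P_add, Em_add, T_add]; abel

theorem Φ_smul (r : ℂ) (F : flipAlg α) : C.Φ (r • F) = r • C.Φ F := by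
  unfold Φ; rw [xm_smul, P_smul, Em_smul, T_smul, smul_add]

theorem Φ_star (F : flipAlg α) : C.Φ (star F) = star (C.Φ F) := by
  unfold Φ; rw [xm_star, P_star, Em_star, T_star, star_add]

theorem Φ_mul (F F' : flipAlg α) : C.Φ (F * F') = C.Φ F * C.Φ F' := by
  unfold Φ
  rw [Em_mul, xm_mul, T_add, T_add, T_add, T_single, ← P_T, ← T_P,
    ← C.T_T (Em F) (Em F') (Em_left F) (Em_left F'), mul_add, add_mul, add_mul, P_mul]
  abel

theorem Φ_one : C.Φ 1 = 1 := by
  have e : Em (1 : flipAlg α) = Matrix.single none none (1 - Wm 1 none none : coneAlg α) := by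
    unfold Em
    rw [Bm_one, xm_one]
    ext1 b b'
    refine coneAlg_ext fun t => ?_
    rcases b with _ | k <;> rcases b' with _ | l
    · simp
    · simp [Wm, Wf]
    · simp [Wm, Wf]
    · by_cases h : k = l
      · subst h; simp [Wm, Wf]
      · simp [Wm, Wf, h]
  unfold Φ
  rw [e, T_single, xm_one, P, ← map_add]
  exact (congrArg C.Γ (add_sub_cancel _ _)).trans (map_one _)

end ConeData

theorem glueB [Nonempty α] (C : ConeData α G) : Nonempty (flipAlg α →⋆ₐ[ℂ] G) :=
  ⟨{ toFun := C.Φ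
     map_one' := C.Φ_one
     map_mul' := C.Φ_mul
     map_zero' := by
      have := C.Φ_smul 0 0
      simpa using this
     map_add' := C.Φ_add
     commutes' := fun r => by
      rw [Algebra.algebraMap_eq_smul_one, C.Φ_smul, C.Φ_one, ← Algebra.algebraMap_eq_smul_one]
     map_star' := C.Φ_star }⟩

end Main

end Vale.Agent.P101
end
end

section

section

/-! From the algebra of functions constant near the ends to the flipped version: conjugation by a
path of unitaries. -/

open scoped BigOperators Kronecker ComplexConjugate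

namespace Vale.Agent.P101

namespace GlueC

theorem flip_symm (α : Type) : (flipEquiv α).symm = flipEquiv α :=
  Equiv.ext (by rintro ⟨k, _ | l⟩ <;> rfl)

/-- the permutation matrix of the flip -/
def σ (α : Type) [DecidableEq α] : Matrix (α × Option α) (α × Option α) ℂ :=
  (flipEquiv α).toPEquiv.toMatrix

theorem star_σ (α : Type) [DecidableEq α] : star (σ α) = σ α := by
  ext i j
  rcases i with ⟨k, _ | l⟩ <;> rcases j with ⟨k', _ | l'⟩ <;>
    simp [σ, flipEquiv, PEquiv.toMatrix_apply, Matrix.star_apply, and_comm, eq_comm]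

theorem σ_mul (α : Type) [Fintype α] [DecidableEq α]
    (M : Matrix (α × Option α) (α × Option α) ℂ) :
    σ α * M = M.submatrix (flipEquiv α) id := PEquiv.toMatrix_toPEquiv_mul _ _

theorem mul_σ (α : Type) [Fintype α] [DecidableEq α]
    (M : Matrix (α × Option α) (α × Option α) ℂ) :
    M * σ α = M.submatrix id (flipEquiv α) := by
  have h := PEquiv.mul_toMatrix_toPEquiv M (flipEquiv α)
  rw [flip_symm] at h
  exact h

theorem σσ (α : Type) [Fintype α] [DecidableEq α] : σ α * σ α = 1 := by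
  rw [σ_mul]
  ext i j
  rcases i with ⟨k, _ | l⟩ <;> rcases j with ⟨k', _ | l'⟩ <;>
    simp [σ, flipEquiv, PEquiv.toMatrix_apply, Matrix.one_apply, and_comm]

theorem σ_conj (α : Type) [Fintype α] [DecidableEq α] (x : Matrix α α ℂ) :
    σ α * (x ⊗ₖ (1 : Matrix (Option α) (Option α) ℂ)) * σ α = flipMat x := by
  rw [σ_mul, mul_σ, flipMat_eq, Matrix.reindex_apply, flip_symm]
  rfl

/-- `θ` equals `π` on `[0,1/3]` and `0` on `[2/3,1]`. -/
noncomputable def θ (t : unitInterval) : ℝ := Real.pi * max 0 (min 1 (2 - 3 * (t : ℝ)))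

theorem θ_cont : Continuous θ := by
  unfold θ
  fun_prop

theorem θ_left (t : unitInterval) (ht : (t : ℝ) ≤ 1 / 3) : θ t = Real.pi := by
  unfold θ
  rw [min_eq_left (by linarith), max_eq_right (by norm_num), mul_one]

theorem θ_right (t : unitInterval) (ht : 2 / 3 ≤ (t : ℝ)) : θ t = 0 := by
  unfold θ
  rw [max_eq_left ((min_le_right _ _).trans (by linarith)), mul_zero]

/-- the path of unitaries -/
noncomputable def U (α : Type) [Fintype α] [DecidableEq α] :
    C(unitInterval, Matrix (α × Option α) (α × Option α) ℂ) where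
  toFun t := (1 / 2 : ℂ) • (1 + σ α) +
    (Complex.exp (θ t * Complex.I) * (1 / 2 : ℂ)) • (1 - σ α)
  continuous_toFun := by
    have h : Continuous fun t : unitInterval => Complex.exp (θ t * Complex.I) * (1 / 2 : ℂ) := by
      have := θ_cont
      fun_prop
    exact continuous_const.add (h.smul continuous_const)

theorem U_apply (α : Type) [Fintype α] [DecidableEq α] (t : unitInterval) :
    U α t = (1 / 2 : ℂ) • (1 + σ α) +
      (Complex.exp (θ t * Complex.I) * (1 / 2 : ℂ)) • (1 - σ α) := rfl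

theorem conj_exp (r : ℝ) : conj (Complex.exp (r * Complex.I)) = Complex.exp (-(r * Complex.I)) := by
  rw [← Complex.exp_conj]
  simp

theorem star_U_apply (α : Type) [Fintype α] [DecidableEq α] (t : unitInterval) :
    star (U α t) = (1 / 2 : ℂ) • (1 + σ α) +
      (Complex.exp (-(θ t * Complex.I)) * (1 / 2 : ℂ)) • (1 - σ α) := by
  rw [U_apply, star_add, star_smul, star_smul, star_add, star_sub, star_one, star_σ, star_mul',
    Complex.star_def, conj_exp, show conj (1 / 2 : ℂ) = 1 / 2 by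
      rw [map_div₀, map_one, Complex.conj_ofNat]]

theorem plus_minus (α : Type) [Fintype α] [DecidableEq α] (a b c d : ℂ) :
    (a • (1 + σ α) + b • (1 - σ α)) * (c • (1 + σ α) + d • (1 - σ α))
      = (2 * (a * c)) • (1 + σ α) + (2 * (b * d)) • (1 - σ α) := by
  have h := σσ α
  have h1 : (1 + σ α) * (1 + σ α) = (2 : ℂ) • (1 + σ α) := by
    rw [show (1 + σ α) * (1 + σ α) = 1 + σ α + σ α + σ α * σ α by noncomm_ring, h, two_smul]
    abel
  have h2 : (1 - σ α) * (1 - σ α) = (2 : ℂ) • (1 - σ α) := by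
    rw [show (1 - σ α) * (1 - σ α) = 1 - σ α - σ α + σ α * σ α by noncomm_ring, h, two_smul]
    abel
  have h3 : (1 + σ α) * (1 - σ α) = 0 := by
    rw [show (1 + σ α) * (1 - σ α) = 1 - σ α * σ α by noncomm_ring, h, sub_self]
  have h4 : (1 - σ α) * (1 + σ α) = 0 := by
    rw [show (1 - σ α) * (1 + σ α) = 1 - σ α * σ α by noncomm_ring, h, sub_self]
  rw [add_mul, mul_add, mul_add, smul_mul_smul_comm, smul_mul_smul_comm, smul_mul_smul_comm,
    smul_mul_smul_comm, h1, h2, h3, h4, smul_zero, smul_zero, smul_smul, smul_smul, add_zero,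
    zero_add, mul_comm (a * c) 2, mul_comm (b * d) 2]

theorem half_sum (α : Type) [Fintype α] [DecidableEq α] :
    (1 / 2 : ℂ) • (1 + σ α) + (1 / 2 : ℂ) • (1 - σ α) = 1 := by
  rw [← smul_add, show (1 + σ α) + (1 - σ α) = (2 : ℂ) • (1 : Matrix _ _ ℂ) by
    rw [two_smul]; abel, smul_smul]
  norm_num

theorem U_unitary (α : Type) [Fintype α] [DecidableEq α] :
    U α ∈ unitary C(unitInterval, Matrix (α × Option α) (α × Option α) ℂ) := by
  constructor
  · ext t : 1
    show star (U α t) * U α t = 1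
    rw [star_U_apply, U_apply, plus_minus, show (2 * ((1 / 2 : ℂ) * (1 / 2 : ℂ))) = 1 / 2 by
      norm_num, show (2 * (Complex.exp (-(θ t * Complex.I)) * (1 / 2 : ℂ) *
        (Complex.exp (θ t * Complex.I) * (1 / 2 : ℂ)))) = 1 / 2 by
      rw [show (2 * (Complex.exp (-(θ t * Complex.I)) * (1 / 2 : ℂ) *
        (Complex.exp (θ t * Complex.I) * (1 / 2 : ℂ)))) = (Complex.exp (-(θ t * Complex.I)) *
        Complex.exp (θ t * Complex.I)) * (1 / 2) by ring, ← Complex.exp_add, neg_add_cancel,
        Complex.exp_zero, one_mul], half_sum]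
  · ext t : 1
    show U α t * star (U α t) = 1
    rw [star_U_apply, U_apply, plus_minus, show (2 * ((1 / 2 : ℂ) * (1 / 2 : ℂ))) = 1 / 2 by
      norm_num, show (2 * (Complex.exp (θ t * Complex.I) * (1 / 2 : ℂ) *
        (Complex.exp (-(θ t * Complex.I)) * (1 / 2 : ℂ)))) = 1 / 2 by
      rw [show (2 * (Complex.exp (θ t * Complex.I) * (1 / 2 : ℂ) *
        (Complex.exp (-(θ t * Complex.I)) * (1 / 2 : ℂ)))) = (Complex.exp (θ t * Complex.I) *
        Complex.exp (-(θ t * Complex.I))) * (1 / 2) by ring, ← Complex.exp_add, add_neg_cancel,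
        Complex.exp_zero, one_mul], half_sum]

theorem U_left (α : Type) [Fintype α] [DecidableEq α] (t : unitInterval) (ht : (t : ℝ) ≤ 1 / 3) :
    U α t = σ α := by
  rw [U_apply, θ_left t ht, Complex.exp_pi_mul_I, show (-1 * (1 / 2 : ℂ)) = -(1 / 2) by ring,
    neg_smul, ← sub_eq_add_neg, ← smul_sub, show (1 + σ α) - (1 - σ α) = (2 : ℂ) • σ α by
    rw [two_smul]; abel, smul_smul]
  norm_num

theorem U_right (α : Type) [Fintype α] [DecidableEq α] (t : unitInterval) (ht : 2 / 3 ≤ (t : ℝ)) :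
    U α t = 1 := by
  rw [U_apply, θ_right t ht, Complex.ofReal_zero, zero_mul, Complex.exp_zero, one_mul, half_sum]

end GlueC

theorem glueC (α : Type) [Fintype α] [DecidableEq α] :
    Nonempty (glueAlg α (Option α) →⋆ₐ[ℂ] flipAlg α) := by
  let u : unitary C(unitInterval, Matrix (α × Option α) (α × Option α) ℂ) :=
    ⟨GlueC.U α, GlueC.U_unitary α⟩
  let φ₁ : C(unitInterval, Matrix (α × Option α) (α × Option α) ℂ) →⋆ₐ[ℂ]
      C(unitInterval, Matrix (α × Option α) (α × Option α) ℂ) :=
    (Unitary.conjStarAlgAut ℂ C(unitInterval, Matrix (α × Option α) (α × Option α) ℂ) u :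
      C(unitInterval, Matrix (α × Option α) (α × Option α) ℂ) ≃⋆ₐ[ℂ]
        C(unitInterval, Matrix (α × Option α) (α × Option α) ℂ))
  let φ : glueAlg α (Option α) →⋆ₐ[ℂ]
      C(unitInterval, Matrix (α × Option α) (α × Option α) ℂ) :=
    φ₁.comp (glueAlg α (Option α)).subtype
  have hφ : ∀ (f : glueAlg α (Option α)) (t : unitInterval),
      φ f t = GlueC.U α t *
        (f : C(unitInterval, Matrix (α × Option α) (α × Option α) ℂ)) t * star (GlueC.U α t) :=
    fun f t => rfl
  refine ⟨StarAlgHom.codRestrict φ (flipAlg α) ?_⟩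
  rintro ⟨f, ⟨x, hx⟩, ⟨y, hy⟩⟩
  refine ⟨⟨x, fun t ht => ?_⟩, ⟨y, fun t ht => ?_⟩⟩
  · rw [hφ, GlueC.U_left α t ht, GlueC.star_σ]
    show GlueC.σ α * f t * GlueC.σ α = _
    rw [hx t ht, GlueC.σ_conj]
  · rw [hφ, GlueC.U_right α t ht, star_one]
    show 1 * f t * 1 = _
    rw [hy t ht, one_mul, mul_one]

end Vale.Agent.P101
end
end

section

section

/-! Unital homomorphisms from prime dimension drop algebras to `glueAlg α β`. -/

open scoped BigOperators Kronecker

namespace Vale.Agent.P101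

namespace S9H

universe u

/-! ### Paths of unitaries to permutation matrices -/

section Path

variable {K : Type u} [Fintype K] [DecidableEq K]

/-- `σ` is implemented by the end point of a path of unitaries that starts at `1`. -/
def PathTo (σ : Equiv.Perm K) : Prop :=
  ∃ V : unitInterval → Matrix K K ℂ, Continuous V ∧ (∀ t, V t * star (V t) = 1) ∧
    (∀ t, star (V t) * V t = 1) ∧ V 0 = 1 ∧
    ∀ M : Matrix K K ℂ, V 1 * M * star (V 1) = M.submatrix σ σ

theorem pathTo_one : PathTo (1 : Equiv.Perm K) :=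
  ⟨fun _ => 1, continuous_const, fun _ => by simp, fun _ => by simp, rfl, fun M => by
    simp⟩

theorem PathTo.mul {σ τ : Equiv.Perm K} (hσ : PathTo σ) (hτ : PathTo τ) : PathTo (σ * τ) := by
  obtain ⟨V, hVc, hV1, hV2, hV3, hV4⟩ := hσ
  obtain ⟨W, hWc, hW1, hW2, hW3, hW4⟩ := hτ
  refine ⟨fun t => W t * V t, hWc.matrix_mul hVc, fun t => ?_, fun t => ?_, by simp [hV3, hW3],
    fun M => ?_⟩
  · rw [star_mul, mul_assoc, ← mul_assoc (V t), hV1, one_mul, hW1]
  · rw [star_mul, mul_assoc, ← mul_assoc (star (W t)), hW2, one_mul, hV2]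
  · have : W 1 * V 1 * M * star (W 1 * V 1) = W 1 * (V 1 * M * star (V 1)) * star (W 1) := by
      rw [star_mul]; simp only [mul_assoc]
    rw [this, hV4, hW4, Matrix.submatrix_submatrix]
    rfl

theorem pathTo_swap (a b : K) : PathTo (Equiv.swap a b) := by
  set P : Matrix K K ℂ := (Equiv.swap a b).toPEquiv.toMatrix with hP
  have hPmul : ∀ M : Matrix K K ℂ, P * M = M.submatrix (Equiv.swap a b) id := fun M => by
    rw [hP, PEquiv.toMatrix_toPEquiv_mul]
  have hmulP : ∀ M : Matrix K K ℂ, M * P = M.submatrix id (Equiv.swap a b) := fun M => by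
    rw [hP, PEquiv.mul_toMatrix_toPEquiv, Equiv.symm_swap]
  have hPP : P * P = 1 := by
    rw [hPmul, hP]
    ext i j
    simp [PEquiv.toMatrix_apply, Matrix.one_apply]
  have hPs : star P = P := by
    rw [hP]
    ext i j
    simp only [Matrix.star_apply, PEquiv.toMatrix_apply, Equiv.toPEquiv_apply, Option.mem_some_iff]
    have : (Equiv.swap a b j = i) ↔ (Equiv.swap a b i = j) := by
      constructor
      · intro h; rw [← h, Equiv.swap_apply_self]
      · intro h; rw [← h, Equiv.swap_apply_self]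
    by_cases h : Equiv.swap a b i = j
    · rw [if_pos h, if_pos (this.2 h)]; simp
    · rw [if_neg h, if_neg (fun h' => h (this.1 h'))]; simp
  set c : unitInterval → ℂ := fun t => Complex.exp (((Real.pi * (t : ℝ) : ℝ) : ℂ) * Complex.I) with hc
  have hcc : ∀ t, c t * star (c t) = 1 := by
    intro t
    have h1 : ‖c t‖ = 1 := by rw [hc]; exact Complex.norm_exp_ofReal_mul_I _
    have h2 : c t * star (c t) = ((‖c t‖ ^ 2 : ℝ) : ℂ) := by
      have := Complex.mul_conj' (c t)
      rw [starRingEnd_apply] at this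
      rw [this]
      push_cast
      rfl
    rw [h2, h1]; simp
  have hc0 : c 0 = 1 := by simp [hc]
  have hc1 : c 1 = -1 := by simp [hc, Complex.exp_pi_mul_I]
  have hstar : ∀ t, star (((1 + c t) / 2) • (1 : Matrix K K ℂ) + ((1 - c t) / 2) • P)
      = ((1 + star (c t)) / 2) • (1 : Matrix K K ℂ) + ((1 - star (c t)) / 2) • P := by
    intro t
    rw [star_add, star_smul, star_smul, hPs, star_one]
    congr 2
    · simp
    · simp
  refine ⟨fun t => ((1 + c t) / 2) • (1 : Matrix K K ℂ) + ((1 - c t) / 2) • P, ?_, ?_, ?_, ?_, ?_⟩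
  · have hcont : Continuous c := by
      rw [hc]; fun_prop
    exact ((continuous_const.add hcont).div_const 2).smul continuous_const |>.add
      (((continuous_const.sub hcont).div_const 2).smul continuous_const)
  · intro t
    rw [hstar t]
    simp only [add_mul, mul_add, smul_mul_smul_comm, mul_one, one_mul, hPP]
    have e1 : (1 + c t) / 2 * ((1 + star (c t)) / 2) + (1 - c t) / 2 * ((1 - star (c t)) / 2) = 1 := by
      linear_combination (1 / 2 : ℂ) * hcc t
    have e2 : (1 + c t) / 2 * ((1 - star (c t)) / 2) + (1 - c t) / 2 * ((1 + star (c t)) / 2) = 0 := by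
      linear_combination (-1 / 2 : ℂ) * hcc t
    calc _ = ((1 + c t) / 2 * ((1 + star (c t)) / 2) + (1 - c t) / 2 * ((1 - star (c t)) / 2)) •
            (1 : Matrix K K ℂ) + ((1 + c t) / 2 * ((1 - star (c t)) / 2)
              + (1 - c t) / 2 * ((1 + star (c t)) / 2)) • P := by
          rw [add_smul, add_smul]; abel
      _ = 1 := by rw [e1, e2]; simp
  · intro t
    rw [hstar t]
    simp only [add_mul, mul_add, smul_mul_smul_comm, mul_one, one_mul, hPP]
    have e1 : (1 + star (c t)) / 2 * ((1 + c t) / 2) + (1 - star (c t)) / 2 * ((1 - c t) / 2) = 1 := by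
      linear_combination (1 / 2 : ℂ) * hcc t
    have e2 : (1 + star (c t)) / 2 * ((1 - c t) / 2) + (1 - star (c t)) / 2 * ((1 + c t) / 2) = 0 := by
      linear_combination (-1 / 2 : ℂ) * hcc t
    calc _ = ((1 + star (c t)) / 2 * ((1 + c t) / 2) + (1 - star (c t)) / 2 * ((1 - c t) / 2)) •
            (1 : Matrix K K ℂ) + ((1 + star (c t)) / 2 * ((1 - c t) / 2)
              + (1 - star (c t)) / 2 * ((1 + c t) / 2)) • P := by
          rw [add_smul, add_smul]; abel
      _ = 1 := by rw [e1, e2]; simp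
  · simp [hc0]
  · intro M
    rw [hstar 1]
    have : ((1 + (-1 : ℂ)) / 2) • (1 : Matrix K K ℂ) + ((1 - (-1 : ℂ)) / 2) • P = P := by
      norm_num
    simp only [hc1, star_neg, star_one]
    rw [this, hPmul, hmulP, Matrix.submatrix_submatrix]
    rfl

theorem pathTo (σ : Equiv.Perm K) : PathTo σ := by
  induction σ using Equiv.Perm.swap_induction_on with
  | one => exact pathTo_one
  | swap_mul f x y _ hf => exact (pathTo_swap x y).mul hf

end Path

/-! ### Homomorphisms to matrices, up to relabelling -/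

section Rep

variable {p q : ℕ}

/-- evaluation at `s` -/
noncomputable def evH (p q : ℕ) (s : unitInterval) :
    dimDrop p q →⋆ₐ[ℂ] Matrix (Fin p × Fin q) (Fin p × Fin q) ℂ where
  toFun f := (f : C(unitInterval, Matrix (Fin p × Fin q) (Fin p × Fin q) ℂ)) s
  map_one' := rfl
  map_mul' _ _ := rfl
  map_zero' := rfl
  map_add' _ _ := rfl
  commutes' _ := rfl
  map_star' _ := rfl

/-- the left end-point representation -/
noncomputable def piL (p q : ℕ) (hq : 0 < q) : dimDrop p q →⋆ₐ[ℂ] Matrix (Fin p) (Fin p) ℂ where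
  toFun f := (evH p q 0 f).submatrix (fun i => (i, ⟨0, hq⟩)) (fun i => (i, ⟨0, hq⟩))
  map_one' := by
    ext i j
    simp [Matrix.one_apply]
  map_mul' f g := by
    obtain ⟨x, hx⟩ := f.2.1
    obtain ⟨y, hy⟩ := g.2.1
    have h1 : evH p q 0 f = x ⊗ₖ (1 : Matrix (Fin q) (Fin q) ℂ) := hx
    have h2 : evH p q 0 g = y ⊗ₖ (1 : Matrix (Fin q) (Fin q) ℂ) := hy
    rw [map_mul, h1, h2, ← Matrix.mul_kronecker_mul]
    ext i j
    simp [Matrix.kroneckerMap_apply, Matrix.mul_apply]
  map_zero' := by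
    ext i j
    simp
  map_add' f g := by
    ext i j
    simp
  commutes' r := by
    rw [AlgHomClass.commutes (evH p q 0) r]
    ext i j
    simp [Matrix.algebraMap_matrix_apply]
  map_star' f := by
    ext i j
    simp [map_star, Matrix.star_apply]

/-- the right end-point representation -/
noncomputable def piR (p q : ℕ) (hp : 0 < p) : dimDrop p q →⋆ₐ[ℂ] Matrix (Fin q) (Fin q) ℂ where
  toFun f := (evH p q 1 f).submatrix (fun i => (⟨0, hp⟩, i)) (fun i => (⟨0, hp⟩, i))
  map_one' := by
    ext i j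
    simp [Matrix.one_apply]
  map_mul' f g := by
    obtain ⟨x, hx⟩ := f.2.2
    obtain ⟨y, hy⟩ := g.2.2
    have h1 : evH p q 1 f = (1 : Matrix (Fin p) (Fin p) ℂ) ⊗ₖ x := hx
    have h2 : evH p q 1 g = (1 : Matrix (Fin p) (Fin p) ℂ) ⊗ₖ y := hy
    rw [map_mul, h1, h2, ← Matrix.mul_kronecker_mul]
    ext i j
    simp [Matrix.kroneckerMap_apply, Matrix.mul_apply]
  map_zero' := by
    ext i j
    simp
  map_add' f g := by
    ext i j
    simp
  commutes' r := by
    rw [AlgHomClass.commutes (evH p q 1) r]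
    ext i j
    simp [Matrix.algebraMap_matrix_apply]
  map_star' f := by
    ext i j
    simp [map_star, Matrix.star_apply]

theorem evH_zero (hq : 0 < q) (f : dimDrop p q) :
    evH p q 0 f = piL p q hq f ⊗ₖ (1 : Matrix (Fin q) (Fin q) ℂ) := by
  obtain ⟨x, hx⟩ := f.2.1
  have h1 : evH p q 0 f = x ⊗ₖ (1 : Matrix (Fin q) (Fin q) ℂ) := hx
  have h2 : piL p q hq f = x := by
    ext i j
    change evH p q 0 f (i, ⟨0, hq⟩) (j, ⟨0, hq⟩) = x i j
    rw [h1]
    simp [Matrix.kroneckerMap_apply]
  rw [h1, h2]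

theorem evH_one (hp : 0 < p) (f : dimDrop p q) :
    evH p q 1 f = (1 : Matrix (Fin p) (Fin p) ℂ) ⊗ₖ piR p q hp f := by
  obtain ⟨x, hx⟩ := f.2.2
  have h1 : evH p q 1 f = (1 : Matrix (Fin p) (Fin p) ℂ) ⊗ₖ x := hx
  have h2 : piR p q hp f = x := by
    ext i j
    change evH p q 1 f (⟨0, hp⟩, i) (⟨0, hp⟩, j) = x i j
    rw [h1]
    simp [Matrix.kroneckerMap_apply]
  rw [h1, h2]

variable {A : Type*} [Semiring A] [Algebra ℂ A] [Star A]

/-- direct sum of `K₀` copies of `φ` and `K₁` copies of `ψ` -/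
noncomputable def sumRep {X Y : Type} [Fintype X] [DecidableEq X] [Fintype Y] [DecidableEq Y]
    (K₀ K₁ : Type) [Fintype K₀] [DecidableEq K₀] [Fintype K₁] [DecidableEq K₁]
    (φ : A →⋆ₐ[ℂ] Matrix X X ℂ) (ψ : A →⋆ₐ[ℂ] Matrix Y Y ℂ) :
    A →⋆ₐ[ℂ] Matrix ((K₀ × X) ⊕ (K₁ × Y)) ((K₀ × X) ⊕ (K₁ × Y)) ℂ where
  toFun f := Matrix.fromBlocks ((1 : Matrix K₀ K₀ ℂ) ⊗ₖ φ f) 0 0 ((1 : Matrix K₁ K₁ ℂ) ⊗ₖ ψ f)
  map_one' := by
    rw [map_one, map_one, Matrix.one_kronecker_one, Matrix.one_kronecker_one,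
      Matrix.fromBlocks_one]
  map_mul' f g := by
    rw [map_mul, map_mul, Matrix.fromBlocks_multiply, ← Matrix.mul_kronecker_mul,
      ← Matrix.mul_kronecker_mul]
    simp
  map_zero' := by
    simp [Matrix.fromBlocks_zero]
  map_add' f g := by
    simp [Matrix.fromBlocks_add, Matrix.kronecker_add]
  commutes' r := by
    rw [AlgHomClass.commutes φ r, AlgHomClass.commutes ψ r]
    ext i j
    rcases i with ⟨i, i'⟩ | ⟨i, i'⟩ <;> rcases j with ⟨j, j'⟩ | ⟨j, j'⟩ <;>
      simp [Matrix.algebraMap_matrix_apply, Matrix.kroneckerMap_apply, Matrix.one_apply,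
        ite_and, Prod.ext_iff] <;> split_ifs <;> rfl
  map_star' f := by
    rw [map_star, map_star, Matrix.star_eq_conjTranspose, Matrix.star_eq_conjTranspose,
      Matrix.star_eq_conjTranspose, Matrix.fromBlocks_conjTranspose,
      Matrix.conjTranspose_kronecker, Matrix.conjTranspose_kronecker]
    simp

/-- two matrix valued functions agree after relabelling -/
def Relab {A I J : Type*} (R : A → Matrix I I ℂ) (S : A → Matrix J J ℂ) : Prop :=
  ∃ e : I ≃ J, ∀ f, R f = (S f).submatrix e e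

theorem Relab.symm {A I J : Type*} {R : A → Matrix I I ℂ} {S : A → Matrix J J ℂ}
    (h : Relab R S) : Relab S R := by
  obtain ⟨e, he⟩ := h
  refine ⟨e.symm, fun f => ?_⟩
  rw [he, Matrix.submatrix_submatrix]
  simp

theorem Relab.trans {A I J L : Type*} {R : A → Matrix I I ℂ} {S : A → Matrix J J ℂ}
    {T : A → Matrix L L ℂ} (h : Relab R S) (h' : Relab S T) : Relab R T := by
  obtain ⟨e, he⟩ := h
  obtain ⟨e', he'⟩ := h'
  refine ⟨e.trans e', fun f => ?_⟩
  rw [he, he', Matrix.submatrix_submatrix]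
  rfl

section RelabLemmas

variable {X Y : Type} [Fintype X] [DecidableEq X] [Fintype Y] [DecidableEq Y]
    {K₀ K₁ K₀' K₁' L : Type} [Fintype K₀] [DecidableEq K₀] [Fintype K₁] [DecidableEq K₁]
    [Fintype K₀'] [DecidableEq K₀'] [Fintype K₁'] [DecidableEq K₁'] [Fintype L] [DecidableEq L]
    (φ : A →⋆ₐ[ℂ] Matrix X X ℂ) (ψ : A →⋆ₐ[ℂ] Matrix Y Y ℂ)

theorem sumRep_inl_inl (f : A) (k k' : K₀) (x x' : X) :
    sumRep K₀ K₁ φ ψ f (Sum.inl (k, x)) (Sum.inl (k', x')) = if k = k' then φ f x x' else 0 := by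
  change (Matrix.fromBlocks ((1 : Matrix K₀ K₀ ℂ) ⊗ₖ φ f) 0 0 ((1 : Matrix K₁ K₁ ℂ) ⊗ₖ ψ f))
    (Sum.inl (k, x)) (Sum.inl (k', x')) = _
  rw [Matrix.fromBlocks_apply₁₁]
  simp [Matrix.kroneckerMap_apply, Matrix.one_apply]

theorem sumRep_inr_inr (f : A) (k k' : K₁) (x x' : Y) :
    sumRep K₀ K₁ φ ψ f (Sum.inr (k, x)) (Sum.inr (k', x')) = if k = k' then ψ f x x' else 0 := by
  change (Matrix.fromBlocks ((1 : Matrix K₀ K₀ ℂ) ⊗ₖ φ f) 0 0 ((1 : Matrix K₁ K₁ ℂ) ⊗ₖ ψ f))
    (Sum.inr (k, x)) (Sum.inr (k', x')) = _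
  rw [Matrix.fromBlocks_apply₂₂]
  simp [Matrix.kroneckerMap_apply, Matrix.one_apply]

theorem sumRep_inl_inr (f : A) (i : K₀ × X) (j : K₁ × Y) :
    sumRep K₀ K₁ φ ψ f (Sum.inl i) (Sum.inr j) = 0 := by
  change (Matrix.fromBlocks ((1 : Matrix K₀ K₀ ℂ) ⊗ₖ φ f) 0 0 ((1 : Matrix K₁ K₁ ℂ) ⊗ₖ ψ f))
    (Sum.inl i) (Sum.inr j) = _
  rw [Matrix.fromBlocks_apply₁₂]
  rfl

theorem sumRep_inr_inl (f : A) (i : K₀ × X) (j : K₁ × Y) :
    sumRep K₀ K₁ φ ψ f (Sum.inr j) (Sum.inl i) = 0 := by
  change (Matrix.fromBlocks ((1 : Matrix K₀ K₀ ℂ) ⊗ₖ φ f) 0 0 ((1 : Matrix K₁ K₁ ℂ) ⊗ₖ ψ f))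
    (Sum.inr j) (Sum.inl i) = _
  rw [Matrix.fromBlocks_apply₂₁]
  rfl

theorem relab_kron_right :
    Relab (fun f => sumRep K₀ K₁ φ ψ f ⊗ₖ (1 : Matrix L L ℂ)) (sumRep (K₀ × L) (K₁ × L) φ ψ) := by
  refine ⟨{
    toFun := fun i => match i with
      | (Sum.inl (k, x), l) => Sum.inl ((k, l), x)
      | (Sum.inr (k, x), l) => Sum.inr ((k, l), x)
    invFun := fun i => match i with
      | Sum.inl ((k, l), x) => (Sum.inl (k, x), l)
      | Sum.inr ((k, l), x) => (Sum.inr (k, x), l)
    left_inv := by rintro ⟨⟨k, x⟩ | ⟨k, x⟩, l⟩ <;> rfl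
    right_inv := by rintro (⟨⟨k, l⟩, x⟩ | ⟨⟨k, l⟩, x⟩) <;> rfl }, fun f => ?_⟩
  ext ⟨i, l⟩ ⟨j, l'⟩
  rcases i with ⟨k, x⟩ | ⟨k, x⟩ <;> rcases j with ⟨k', x'⟩ | ⟨k', x'⟩ <;>
    simp only [Matrix.kroneckerMap_apply, Matrix.submatrix_apply, Equiv.coe_fn_mk,
      sumRep_inl_inl, sumRep_inr_inr, sumRep_inl_inr, sumRep_inr_inl, Matrix.one_apply,
      Prod.mk.injEq, ite_and, mul_ite, mul_one, mul_zero] <;> split_ifs <;> rfl

theorem relab_kron_left :
    Relab (fun f => (1 : Matrix L L ℂ) ⊗ₖ sumRep K₀ K₁ φ ψ f) (sumRep (L × K₀) (L × K₁) φ ψ) := by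
  refine ⟨{
    toFun := fun i => match i with
      | (l, Sum.inl (k, x)) => Sum.inl ((l, k), x)
      | (l, Sum.inr (k, x)) => Sum.inr ((l, k), x)
    invFun := fun i => match i with
      | Sum.inl ((l, k), x) => (l, Sum.inl (k, x))
      | Sum.inr ((l, k), x) => (l, Sum.inr (k, x))
    left_inv := by rintro ⟨l, ⟨k, x⟩ | ⟨k, x⟩⟩ <;> rfl
    right_inv := by rintro (⟨⟨k, l⟩, x⟩ | ⟨⟨k, l⟩, x⟩) <;> rfl }, fun f => ?_⟩
  ext ⟨l, i⟩ ⟨l', j⟩
  rcases i with ⟨k, x⟩ | ⟨k, x⟩ <;> rcases j with ⟨k', x'⟩ | ⟨k', x'⟩ <;>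
    simp only [Matrix.kroneckerMap_apply, Matrix.submatrix_apply, Equiv.coe_fn_mk,
      sumRep_inl_inl, sumRep_inr_inr, sumRep_inl_inr, sumRep_inr_inl, Matrix.one_apply,
      Prod.mk.injEq, ite_and, mul_zero, ite_mul, one_mul, zero_mul]

theorem relab_card (h₀ : Fintype.card K₀ = Fintype.card K₀')
    (h₁ : Fintype.card K₁ = Fintype.card K₁') :
    Relab (sumRep K₀ K₁ φ ψ) (sumRep K₀' K₁' φ ψ) := by
  let e₀ := Fintype.equivOfCardEq h₀
  let e₁ := Fintype.equivOfCardEq h₁
  refine ⟨{
    toFun := fun i => match i with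
      | Sum.inl (k, x) => Sum.inl (e₀ k, x)
      | Sum.inr (k, x) => Sum.inr (e₁ k, x)
    invFun := fun i => match i with
      | Sum.inl (k, x) => Sum.inl (e₀.symm k, x)
      | Sum.inr (k, x) => Sum.inr (e₁.symm k, x)
    left_inv := by rintro (⟨k, x⟩ | ⟨k, x⟩) <;> simp
    right_inv := by rintro (⟨k, x⟩ | ⟨k, x⟩) <;> simp }, fun f => ?_⟩
  ext i j
  rcases i with ⟨k, x⟩ | ⟨k, x⟩ <;> rcases j with ⟨k', x'⟩ | ⟨k', x'⟩ <;>
    simp only [Matrix.submatrix_apply, Equiv.coe_fn_mk,
      sumRep_inl_inl, sumRep_inr_inr, sumRep_inl_inr, sumRep_inr_inl,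
      EmbeddingLike.apply_eq_iff_eq]

/-- the remaining `L` copies specialize to copies of the left representation -/
theorem relab_left (θ : A →⋆ₐ[ℂ] Matrix (X × Y) (X × Y) ℂ)
    (hθ : ∀ f, θ f = φ f ⊗ₖ (1 : Matrix Y Y ℂ)) :
    Relab (sumRep Unit L (sumRep K₀ K₁ φ ψ) θ) (sumRep (K₀ ⊕ (L × Y)) K₁ φ ψ) := by
  refine ⟨{
    toFun := fun i => match i with
      | Sum.inl (_, Sum.inl (k, x)) => Sum.inl (Sum.inl k, x)
      | Sum.inl (_, Sum.inr (k, x)) => Sum.inr (k, x)
      | Sum.inr (l, (x, y)) => Sum.inl (Sum.inr (l, y), x)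
    invFun := fun i => match i with
      | Sum.inl (Sum.inl k, x) => Sum.inl ((), Sum.inl (k, x))
      | Sum.inr (k, x) => Sum.inl ((), Sum.inr (k, x))
      | Sum.inl (Sum.inr (l, y), x) => Sum.inr (l, (x, y))
    left_inv := by rintro (⟨_, ⟨k, x⟩ | ⟨k, x⟩⟩ | ⟨l, ⟨x, y⟩⟩) <;> rfl
    right_inv := by rintro (⟨k | ⟨l, y⟩, x⟩ | ⟨k, x⟩) <;> rfl }, fun f => ?_⟩
  ext i j
  rcases i with ⟨_, ⟨k, x⟩ | ⟨k, x⟩⟩ | ⟨l, ⟨x, y⟩⟩ <;>
    rcases j with ⟨_, ⟨k', x'⟩ | ⟨k', x'⟩⟩ | ⟨l', ⟨x', y'⟩⟩ <;>
    simp only [Matrix.submatrix_apply, Equiv.coe_fn_mk, hθ, Matrix.kroneckerMap_apply,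
      sumRep_inl_inl, sumRep_inr_inr, sumRep_inl_inr, sumRep_inr_inl, Matrix.one_apply,
      Sum.inl.injEq, Sum.inr.injEq, reduceCtorEq, if_true, if_false, Prod.mk.injEq, ite_and,
      mul_ite, mul_one, mul_zero]

/-- the remaining `L` copies specialize to copies of the right representation -/
theorem relab_right (θ : A →⋆ₐ[ℂ] Matrix (X × Y) (X × Y) ℂ)
    (hθ : ∀ f, θ f = (1 : Matrix X X ℂ) ⊗ₖ ψ f) :
    Relab (sumRep Unit L (sumRep K₀ K₁ φ ψ) θ) (sumRep K₀ (K₁ ⊕ (L × X)) φ ψ) := by
  refine ⟨{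
    toFun := fun i => match i with
      | Sum.inl (_, Sum.inl (k, x)) => Sum.inl (k, x)
      | Sum.inl (_, Sum.inr (k, x)) => Sum.inr (Sum.inl k, x)
      | Sum.inr (l, (x, y)) => Sum.inr (Sum.inr (l, x), y)
    invFun := fun i => match i with
      | Sum.inl (k, x) => Sum.inl ((), Sum.inl (k, x))
      | Sum.inr (Sum.inl k, x) => Sum.inl ((), Sum.inr (k, x))
      | Sum.inr (Sum.inr (l, x), y) => Sum.inr (l, (x, y))
    left_inv := by rintro (⟨_, ⟨k, x⟩ | ⟨k, x⟩⟩ | ⟨l, ⟨x, y⟩⟩) <;> rfl
    right_inv := by rintro (⟨k, x⟩ | ⟨k | ⟨l, x⟩, y⟩) <;> rfl }, fun f => ?_⟩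
  ext i j
  rcases i with ⟨_, ⟨k, x⟩ | ⟨k, x⟩⟩ | ⟨l, ⟨x, y⟩⟩ <;>
    rcases j with ⟨_, ⟨k', x'⟩ | ⟨k', x'⟩⟩ | ⟨l', ⟨x', y'⟩⟩ <;>
    simp only [Matrix.submatrix_apply, Equiv.coe_fn_mk, hθ, Matrix.kroneckerMap_apply,
      sumRep_inl_inl, sumRep_inr_inr, sumRep_inl_inr, sumRep_inr_inl, Matrix.one_apply,
      Sum.inl.injEq, Sum.inr.injEq, reduceCtorEq, if_true, if_false, Prod.mk.injEq, ite_and,
      ite_mul, one_mul, zero_mul]

end RelabLemmas

end Rep

/-! ### Multiplicities -/

theorem exists_mult (p q : ℕ) (hp : 0 < p) (hq : 0 < q) (hpq : Nat.Coprime p q) (n m : ℕ)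
    (hn : 2 * (p * q) ≤ n) (hm : 2 * (p * q) ≤ m) :
    ∃ a₀ b₀ a₁ b₁ r : ℕ, n = a₀ * p + b₀ * q ∧ m = a₁ * p + b₁ * q ∧
      a₀ * m = n * a₁ + r * q ∧ n * b₁ = b₀ * m + r * p := by
  have hcop : IsCoprime (p : ℤ) (q : ℤ) := Nat.isCoprime_iff_coprime.2 hpq
  obtain ⟨u, v, huv⟩ := hcop
  have hp' : (0 : ℤ) < p := by exact_mod_cast hp
  have hq' : (0 : ℤ) < q := by exact_mod_cast hq
  have hn' : 2 * ((p : ℤ) * q) ≤ n := by exact_mod_cast hn
  have hm' : 2 * ((p : ℤ) * q) ≤ m := by exact_mod_cast hm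
  have hpq0 : (0 : ℤ) < (p : ℤ) * q := mul_pos hp' hq'
  -- coefficients for `n`
  obtain ⟨a₀, b₀, hb0, hb1, hnab⟩ : ∃ a b : ℤ, 0 ≤ b ∧ b < p ∧ (n : ℤ) = a * p + b * q := by
    refine ⟨n * u + q * ((n * v) / p), (n * v) % p, Int.emod_nonneg _ hp'.ne',
      Int.emod_lt_of_pos _ hp', ?_⟩
    have h1 : (n * v) % p + p * ((n * v) / p) = n * v := Int.emod_add_mul_ediv _ _
    linear_combination (-(n : ℤ)) * huv - (q : ℤ) * h1
  obtain ⟨a₁, b₁, ha0, ha1, hmab⟩ : ∃ a b : ℤ, 0 ≤ a ∧ a < q ∧ (m : ℤ) = a * p + b * q := by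
    refine ⟨(m * u) % q, m * v + p * ((m * u) / q), Int.emod_nonneg _ hq'.ne',
      Int.emod_lt_of_pos _ hq', ?_⟩
    have h1 : (m * u) % q + q * ((m * u) / q) = m * u := Int.emod_add_mul_ediv _ _
    linear_combination (-(m : ℤ)) * huv - (p : ℤ) * h1
  have h2 : (q : ℤ) * (n * b₁ - b₀ * m) = p * (a₀ * m - n * a₁) := by
    linear_combination (m : ℤ) * hnab - (n : ℤ) * hmab
  have h3 : (q : ℤ) ∣ a₀ * m - n * a₁ := by
    have : (q : ℤ) ∣ p * (a₀ * m - n * a₁) := ⟨_, h2.symm⟩
    exact IsCoprime.dvd_of_dvd_mul_left ((Nat.isCoprime_iff_coprime.2 hpq).symm) this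
  obtain ⟨r, hr⟩ := h3
  have h4 : n * b₁ - b₀ * m = p * r := by
    have : (q : ℤ) * (n * b₁ - b₀ * m) = q * (p * r) := by rw [h2, hr]; ring
    exact mul_left_cancel₀ hq'.ne' this
  have hbq : b₀ * q ≤ p * q := mul_le_mul_of_nonneg_right hb1.le hq'.le
  have hap : a₁ * p ≤ p * q := (mul_le_mul_of_nonneg_right ha1.le hp'.le).trans_eq (mul_comm _ _)
  have ha₀ : 0 ≤ a₀ := by
    have : 0 < a₀ * p := by linarith only [hnab, hn', hbq, hpq0]
    exact ((pos_iff_pos_of_mul_pos this).2 hp').le
  have hb₁ : 0 ≤ b₁ := by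
    have : 0 < b₁ * q := by linarith only [hmab, hm', hap, hpq0]
    exact ((pos_iff_pos_of_mul_pos this).2 hq').le
  have hr0 : 0 ≤ r := by
    have h5 : 0 ≤ (p : ℤ) * (q * r) := by
      rw [← hr]
      have e1 : (p : ℤ) * (a₀ * m - n * a₁) = (n - b₀ * q) * m - (a₁ * p) * n := by
        linear_combination (-(m : ℤ)) * hnab
      rw [e1]
      have e2 : (n : ℤ) ≤ 2 * (n - b₀ * q) := by linarith
      have e3 : (n : ℤ) * m ≤ 2 * ((n - b₀ * q) * m) := by
        have : (0 : ℤ) ≤ m := Int.natCast_nonneg m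
        linarith only [mul_le_mul_of_nonneg_right e2 this]
      have e4 : 2 * ((a₁ * p) * n) ≤ (n : ℤ) * m := by
        have : (0 : ℤ) ≤ n := Int.natCast_nonneg n
        linarith only [mul_le_mul_of_nonneg_right
          (show 2 * (a₁ * p) ≤ (m : ℤ) by linarith only [hap, hm']) this]
      linarith
    have h6 : 0 ≤ (p * q : ℤ) * r := by rw [mul_assoc]; exact h5
    exact nonneg_of_mul_nonneg_right h6 hpq0
  lift a₀ to ℕ using ha₀
  lift b₀ to ℕ using hb0
  lift a₁ to ℕ using ha0
  lift b₁ to ℕ using hb₁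
  lift r to ℕ using hr0
  refine ⟨a₀, b₀, a₁, b₁, r, by exact_mod_cast hnab, by exact_mod_cast hmab, ?_, ?_⟩
  · zify
    linear_combination hr
  · zify
    linear_combination h4

/-! ### Assembly -/

section Assembly

variable {p q : ℕ}

/-- the path of diagonal representations -/
noncomputable def pathRep (p q : ℕ) (hp : 0 < p) (hq : 0 < q) (K₀ K₁ L : Type) [Fintype K₀]
    [DecidableEq K₀] [Fintype K₁] [DecidableEq K₁] [Fintype L] [DecidableEq L]
    (s : unitInterval) :=
  sumRep Unit L (sumRep K₀ K₁ (piL p q hq) (piR p q hp)) (evH p q s)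

theorem continuous_pathRep (hp : 0 < p) (hq : 0 < q) (K₀ K₁ L : Type) [Fintype K₀]
    [DecidableEq K₀] [Fintype K₁] [DecidableEq K₁] [Fintype L] [DecidableEq L]
    (f : dimDrop p q) : Continuous fun s => pathRep p q hp hq K₀ K₁ L s f := by
  refine continuous_matrix fun i j => ?_
  unfold pathRep
  rcases i with ⟨k, x⟩ | ⟨k, x⟩ <;> rcases j with ⟨k', x'⟩ | ⟨k', x'⟩
  · simp only [sumRep_inl_inl]
    exact continuous_const
  · simp only [sumRep_inl_inr]
    exact continuous_const
  · simp only [sumRep_inr_inl]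
    exact continuous_const
  · simp only [sumRep_inr_inr]
    split_ifs
    · have h : Continuous fun s => (f : C(unitInterval, Matrix (Fin p × Fin q) (Fin p × Fin q) ℂ)) s :=
        (f : C(unitInterval, Matrix (Fin p × Fin q) (Fin p × Fin q) ℂ)).continuous
      exact h.matrix_elem x x'
    · exact continuous_const

/-- conjugation by a unitary after relabelling -/
noncomputable def conjRep {A : Type*} [Semiring A] [Algebra ℂ A] [Star A] {I J : Type}
    [Fintype I] [DecidableEq I] [Fintype J] [DecidableEq J] (V : Matrix I I ℂ)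
    (h1 : V * star V = 1) (h2 : star V * V = 1) (e : I ≃ J) (φ : A →⋆ₐ[ℂ] Matrix J J ℂ) :
    A →⋆ₐ[ℂ] Matrix I I ℂ where
  toFun f := V * (φ f).submatrix e e * star V
  map_one' := by
    rw [map_one, Matrix.submatrix_one_equiv, mul_one, h1]
  map_mul' f g := by
    have : (φ (f * g)).submatrix e e = (φ f).submatrix e e * (φ g).submatrix e e := by
      rw [map_mul, Matrix.submatrix_mul_equiv]
    rw [this]
    calc V * ((φ f).submatrix e e * (φ g).submatrix e e) * star V
        = V * (φ f).submatrix e e * 1 * ((φ g).submatrix e e * star V) := by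
          simp only [mul_assoc, mul_one]
      _ = V * (φ f).submatrix e e * (star V * V) * ((φ g).submatrix e e * star V) := by rw [h2]
      _ = _ := by simp only [mul_assoc]
  map_zero' := by
    rw [map_zero, Matrix.submatrix_zero]
    simp
  map_add' f g := by
    rw [map_add, Matrix.submatrix_add]
    simp only [Pi.add_apply, mul_add, add_mul]
  commutes' r := by
    have : (φ (algebraMap ℂ A r)).submatrix e e = algebraMap ℂ (Matrix I I ℂ) r := by
      rw [AlgHomClass.commutes]
      ext i j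
      simp [Matrix.algebraMap_matrix_apply]
    rw [this, ← Algebra.commutes, mul_assoc, h1, mul_one]
  map_star' f := by
    have : (φ (star f)).submatrix e e = star ((φ f).submatrix e e) := by
      rw [map_star]
      rfl
    rw [this, star_mul, star_mul, star_star, mul_assoc]

theorem assemble {α β : Type} [Fintype α] [DecidableEq α] [Fintype β] [DecidableEq β]
    {I : Type} [Fintype I] [DecidableEq I] (D : unitInterval → (dimDrop p q →⋆ₐ[ℂ] Matrix I I ℂ))
    (hD : ∀ f, Continuous fun s => D s f) (ρ₀ : dimDrop p q → Matrix α α ℂ)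
    (ρ₁ : dimDrop p q → Matrix β β ℂ)
    (R0 : Relab (fun f => ρ₀ f ⊗ₖ (1 : Matrix β β ℂ)) (D 0))
    (R1 : Relab (fun f => (1 : Matrix α α ℂ) ⊗ₖ ρ₁ f) (D 1)) :
    Nonempty (dimDrop p q →⋆ₐ[ℂ] glueAlg α β) := by
  obtain ⟨e₀, he₀⟩ := R0
  obtain ⟨e₁, he₁⟩ := R1
  obtain ⟨V, hVc, hV1, hV2, hV3, hV4⟩ := pathTo (e₁.trans e₀.symm)
  let Ψ : unitInterval → (dimDrop p q →⋆ₐ[ℂ] Matrix (α × β) (α × β) ℂ) := fun s =>
    conjRep (V s) (hV1 s) (hV2 s) e₀ (D s)
  have hΨ : ∀ s f, Ψ s f = V s * (D s f).submatrix e₀ e₀ * star (V s) := fun s f => rfl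
  have hΨ0 : ∀ f, Ψ 0 f = ρ₀ f ⊗ₖ (1 : Matrix β β ℂ) := by
    intro f
    have h := he₀ f
    simp only at h
    rw [hΨ, hV3, h]
    simp
  have hΨ1 : ∀ f, Ψ 1 f = (1 : Matrix α α ℂ) ⊗ₖ ρ₁ f := by
    intro f
    have h := he₁ f
    simp only at h
    rw [hΨ, hV4, h, Matrix.submatrix_submatrix]
    congr 1 <;>
    · funext x
      simp
  have hΨc : ∀ f, Continuous fun s => Ψ s f := by
    intro f
    have h : Continuous fun s => (D s f).submatrix e₀ e₀ := (hD f).matrix_submatrix _ _
    exact (hVc.matrix_mul h).matrix_mul hVc.star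
  let σ : unitInterval → unitInterval := fun t =>
    Set.projIcc 0 1 zero_le_one (3 * (t : ℝ) - 1)
  have hσc : Continuous σ := by
    refine continuous_projIcc.comp ?_
    fun_prop
  have hσ0 : ∀ t : unitInterval, (t : ℝ) ≤ 1 / 3 → σ t = 0 := by
    intro t ht
    exact Set.projIcc_of_le_left _ (by linarith)
  have hσ1 : ∀ t : unitInterval, 2 / 3 ≤ (t : ℝ) → σ t = 1 := by
    intro t ht
    exact Set.projIcc_of_right_le _ (by linarith)
  refine ⟨{
    toFun := fun f => ⟨⟨fun t => Ψ (σ t) f, (hΨc f).comp hσc⟩,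
      ⟨ρ₀ f, fun t ht => ?_⟩, ⟨ρ₁ f, fun t ht => ?_⟩⟩
    map_one' := ?_
    map_mul' := fun f g => ?_
    map_zero' := ?_
    map_add' := fun f g => ?_
    commutes' := fun r => ?_
    map_star' := fun f => ?_ }⟩
  · change Ψ (σ t) f = _
    rw [hσ0 t ht, hΨ0]
  · change Ψ (σ t) f = _
    rw [hσ1 t ht, hΨ1]
  · apply Subtype.ext
    ext1 t
    exact map_one (Ψ (σ t))
  · apply Subtype.ext
    ext1 t
    exact map_mul (Ψ (σ t)) f g
  · apply Subtype.ext
    ext1 t
    exact map_zero (Ψ (σ t))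
  · apply Subtype.ext
    ext1 t
    exact map_add (Ψ (σ t)) f g
  · apply Subtype.ext
    ext1 t
    exact AlgHomClass.commutes (Ψ (σ t)) r
  · apply Subtype.ext
    ext1 t
    exact map_star (Ψ (σ t)) f

end Assembly

end S9H

open S9H

/-- unital homomorphisms from prime dimension drop algebras to large `glueAlg`s -/
theorem step9H (p q : ℕ) (hp : 0 < p) (hq : 0 < q) (hpq : Nat.Coprime p q) (α β : Type)
    [Fintype α] [DecidableEq α] [Fintype β] [DecidableEq β]
    (hα : 2 * (p * q) ≤ Fintype.card α) (hβ : 2 * (p * q) ≤ Fintype.card β) :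
    Nonempty (dimDrop p q →⋆ₐ[ℂ] glueAlg α β) := by
  obtain ⟨a₀, b₀, a₁, b₁, r, hn, hm, h0, h1⟩ :=
    exists_mult p q hp hq hpq (Fintype.card α) (Fintype.card β) hα hβ
  let φ := piL p q hq
  let ψ := piR p q hp
  let D := pathRep p q hp hq (α × Fin a₁) (Fin b₀ × β) (Fin r)
  let eα : α ≃ (Fin a₀ × Fin p) ⊕ (Fin b₀ × Fin q) := Fintype.equivOfCardEq (by
    simp [hn])
  let eβ : β ≃ (Fin a₁ × Fin p) ⊕ (Fin b₁ × Fin q) := Fintype.equivOfCardEq (by
    simp [hm])
  let ρ₀ : dimDrop p q → Matrix α α ℂ := fun f =>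
    (sumRep (Fin a₀) (Fin b₀) φ ψ f).submatrix eα eα
  let ρ₁ : dimDrop p q → Matrix β β ℂ := fun f =>
    (sumRep (Fin a₁) (Fin b₁) φ ψ f).submatrix eβ eβ
  have R0 : Relab (fun f => ρ₀ f ⊗ₖ (1 : Matrix β β ℂ)) (D 0) := by
    have s1 : Relab (fun f => ρ₀ f ⊗ₖ (1 : Matrix β β ℂ))
        (fun f => sumRep (Fin a₀) (Fin b₀) φ ψ f ⊗ₖ (1 : Matrix β β ℂ)) := by
      refine ⟨Equiv.prodCongr eα (Equiv.refl β), fun f => ?_⟩
      ext ⟨i, j⟩ ⟨i', j'⟩
      simp [ρ₀, Matrix.kroneckerMap_apply, Matrix.one_apply]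
    have s2 := relab_kron_right (K₀ := Fin a₀) (K₁ := Fin b₀) (L := β) φ ψ
    have s3 := relab_left (K₀ := α × Fin a₁) (K₁ := Fin b₀ × β) (L := Fin r) φ ψ (evH p q 0)
      (evH_zero hq)
    have s4 : Relab (sumRep (Fin a₀ × β) (Fin b₀ × β) φ ψ)
        (sumRep ((α × Fin a₁) ⊕ (Fin r × Fin q)) (Fin b₀ × β) φ ψ) :=
      relab_card φ ψ (by simp [h0]) rfl
    exact ((s1.trans s2).trans s4).trans s3.symm
  have R1 : Relab (fun f => (1 : Matrix α α ℂ) ⊗ₖ ρ₁ f) (D 1) := by
    have s1 : Relab (fun f => (1 : Matrix α α ℂ) ⊗ₖ ρ₁ f)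
        (fun f => (1 : Matrix α α ℂ) ⊗ₖ sumRep (Fin a₁) (Fin b₁) φ ψ f) := by
      refine ⟨Equiv.prodCongr (Equiv.refl α) eβ, fun f => ?_⟩
      ext ⟨i, j⟩ ⟨i', j'⟩
      simp [ρ₁, Matrix.kroneckerMap_apply, Matrix.one_apply]
    have s2 := relab_kron_left (K₀ := Fin a₁) (K₁ := Fin b₁) (L := α) φ ψ
    have s3 := relab_right (K₀ := α × Fin a₁) (K₁ := Fin b₀ × β) (L := Fin r) φ ψ (evH p q 1)
      (evH_one hp)
    have s4 : Relab (sumRep (α × Fin a₁) (α × Fin b₁) φ ψ)
        (sumRep (α × Fin a₁) ((Fin b₀ × β) ⊕ (Fin r × Fin p)) φ ψ) :=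
      relab_card φ ψ rfl (by simp [h1])
    exact ((s1.trans s2).trans s4).trans s3.symm
  let i1 : DecidableEq (Unit × (((α × Fin a₁) × Fin p) ⊕ ((Fin b₀ × β) × Fin q))) :=
    inferInstance
  let i2 : DecidableEq
      ((Unit × (((α × Fin a₁) × Fin p) ⊕ ((Fin b₀ × β) × Fin q))) ⊕ (Fin r × Fin p × Fin q)) :=
    inferInstance
  exact assemble D (continuous_pathRep hp hq (α × Fin a₁) (Fin b₀ × β) (Fin r)) ρ₀ ρ₁ R0 R1

end Vale.Agent.P101
end
end

section

section

open scoped TensorProduct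

namespace Vale.Agent.P101

universe u

/-- Two unital star-homomorphisms are approximately unitarily equivalent. -/
def ApproxUnitarilyEquiv {Z B : Type u} [CStarAlgebra Z] [CStarAlgebra B] (φ ψ : Z →⋆ₐ[ℂ] B) :
    Prop :=
  ∀ (S : Finset Z) (ε : ℝ), 0 < ε → ∃ v ∈ unitary B, ∀ x ∈ S, ‖v * φ x * star v - ψ x‖ < ε

/-- `Z` is the closure of an increasing union of prime dimension drop algebras and has
approximately inner half-flip. -/
structure IsJiangSu (Z : Type u) [CStarAlgebra Z] : Prop where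
  limit : ∃ (p q : ℕ → ℕ) (S : ℕ → StarSubalgebra ℂ Z), Monotone S ∧
    (∀ n, 0 < p n ∧ 0 < q n ∧ Nat.Coprime (p n) (q n) ∧
      Nonempty (dimDrop (p n) (q n) ≃⋆ₐ[ℂ] S n)) ∧
    Dense (⋃ n, (S n : Set Z))
  half_flip : ∀ (B : Type u) [CStarAlgebra B] (φ ψ : Z →⋆ₐ[ℂ] B),
    (∀ x y, Commute (φ x) (ψ y)) → ApproxUnitarilyEquiv φ ψ

/-- `B` is, via `i` and `j`, a C*-completion of the algebraic tensor product `A ⊗ Z`. -/
structure IsCStarTensor {A Z B : Type u} [CStarAlgebra A] [CStarAlgebra Z] [CStarAlgebra B]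
    (i : A →⋆ₐ[ℂ] B) (j : Z →⋆ₐ[ℂ] B) : Prop where
  comm : ∀ a z, Commute (i a) (j z)
  inj : Function.Injective
    (Algebra.TensorProduct.lift (i : A →ₐ[ℂ] B) (j : Z →ₐ[ℂ] B) comm : A ⊗[ℂ] Z →ₐ[ℂ] B)
  dense : DenseRange
    (Algebra.TensorProduct.lift (i : A →ₐ[ℂ] B) (j : Z →ₐ[ℂ] B) comm : A ⊗[ℂ] Z →ₐ[ℂ] B)

end Vale.Agent.P101
end
end

section

section

/-! The dimension drop algebras `I(p,q)`, `p, q ≥ 2`, have no characters. -/

open scoped BigOperators Kronecker

namespace Vale.Agent.P101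

namespace NoChar

/-- scalar function times a constant matrix -/
noncomputable def scal (p q : ℕ) (g : C(unitInterval, ℝ))
    (M : Matrix (Fin p × Fin q) (Fin p × Fin q) ℂ) :
    C(unitInterval, Matrix (Fin p × Fin q) (Fin p × Fin q) ℂ) where
  toFun t := ((g t : ℝ) : ℂ) • M
  continuous_toFun := by
    have : Continuous fun t => ((g t : ℝ) : ℂ) := Complex.continuous_ofReal.comp g.continuous
    exact this.smul continuous_const

/-- `t ↦ 1 - t` -/
noncomputable def g₀ : C(unitInterval, ℝ) := ⟨fun t => 1 - (t : ℝ), by fun_prop⟩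

/-- `t ↦ t` -/
noncomputable def g₁ : C(unitInterval, ℝ) := ⟨fun t => (t : ℝ), by fun_prop⟩

theorem isEmpty (p q : ℕ) (hp : 2 ≤ p) (hq : 2 ≤ q) : IsEmpty (dimDrop p q →⋆ₐ[ℂ] ℂ) := by
  refine ⟨fun χ => ?_⟩
  haveI : NeZero p := ⟨by omega⟩
  haveI : NeZero q := ⟨by omega⟩
  -- elements of the two cones
  let a : Fin p → Fin p → dimDrop p q := fun i j =>
    ⟨scal p q g₀ (Matrix.single i j (1 : ℂ) ⊗ₖ (1 : Matrix (Fin q) (Fin q) ℂ)),
      ⟨Matrix.single i j 1, by simp [scal, g₀]⟩, ⟨0, by simp [scal, g₀]⟩⟩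
  let b : Fin q → Fin q → dimDrop p q := fun i j =>
    ⟨scal p q g₁ ((1 : Matrix (Fin p) (Fin p) ℂ) ⊗ₖ Matrix.single i j (1 : ℂ)),
      ⟨0, by simp [scal, g₁]⟩, ⟨Matrix.single i j 1, by simp [scal, g₁]⟩⟩
  have ha : ∀ i j, i ≠ j → χ (a i j) = 0 := by
    intro i j hij
    have h : a i j * a i j = 0 := by
      apply Subtype.ext
      ext t : 1
      show (scal p q g₀ _ t) * (scal p q g₀ _ t) = 0
      simp only [scal, ContinuousMap.coe_mk, Algebra.smul_mul_assoc, Algebra.mul_smul_comm,
        ← Matrix.mul_kronecker_mul]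
      rw [Matrix.single_mul_single_of_ne _ _ _ _ hij.symm]
      simp
    have h2 : χ (a i j) * χ (a i j) = 0 := by rw [← map_mul, h, map_zero]
    exact mul_self_eq_zero.1 h2
  have hb : ∀ i j, i ≠ j → χ (b i j) = 0 := by
    intro i j hij
    have h : b i j * b i j = 0 := by
      apply Subtype.ext
      ext t : 1
      show (scal p q g₁ _ t) * (scal p q g₁ _ t) = 0
      simp only [scal, ContinuousMap.coe_mk, Algebra.smul_mul_assoc, Algebra.mul_smul_comm,
        ← Matrix.mul_kronecker_mul]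
      rw [Matrix.single_mul_single_of_ne _ _ _ _ hij.symm]
      simp
    have h2 : χ (b i j) * χ (b i j) = 0 := by rw [← map_mul, h, map_zero]
    exact mul_self_eq_zero.1 h2
  -- diagonal elements
  have ha' : ∀ i, χ (a i i) = 0 := by
    intro i
    obtain ⟨j, hj⟩ : ∃ j : Fin p, j ≠ i := by
      haveI : Nontrivial (Fin p) := Fin.nontrivial_iff_two_le.2 hp
      exact exists_ne i
    have h : a i i * a i i = a i j * a j i := by
      apply Subtype.ext
      ext t : 1
      show (scal p q g₀ _ t) * (scal p q g₀ _ t) = (scal p q g₀ _ t) * (scal p q g₀ _ t)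
      simp only [scal, ContinuousMap.coe_mk, Algebra.smul_mul_assoc, Algebra.mul_smul_comm,
        ← Matrix.mul_kronecker_mul]
      simp
    have h2 : χ (a i i) * χ (a i i) = 0 := by
      rw [← map_mul, h, map_mul, ha i j hj.symm, zero_mul]
    exact mul_self_eq_zero.1 h2
  have hb' : ∀ i, χ (b i i) = 0 := by
    intro i
    obtain ⟨j, hj⟩ : ∃ j : Fin q, j ≠ i := by
      haveI : Nontrivial (Fin q) := Fin.nontrivial_iff_two_le.2 hq
      exact exists_ne i
    have h : b i i * b i i = b i j * b j i := by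
      apply Subtype.ext
      ext t : 1
      show (scal p q g₁ _ t) * (scal p q g₁ _ t) = (scal p q g₁ _ t) * (scal p q g₁ _ t)
      simp only [scal, ContinuousMap.coe_mk, Algebra.smul_mul_assoc, Algebra.mul_smul_comm,
        ← Matrix.mul_kronecker_mul]
      simp
    have h2 : χ (b i i) * χ (b i i) = 0 := by
      rw [← map_mul, h, map_mul, hb i j hj.symm, zero_mul]
    exact mul_self_eq_zero.1 h2
  have hsum : (∑ i, a i i) + ∑ i, b i i = 1 := by
    apply Subtype.ext
    ext t : 1
    have e1 : (((∑ i, a i i : dimDrop p q) :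
        C(unitInterval, Matrix (Fin p × Fin q) (Fin p × Fin q) ℂ)) t)
        = ((1 - (t : ℝ) : ℝ) : ℂ) • (1 : Matrix (Fin p × Fin q) (Fin p × Fin q) ℂ) := by
      rw [AddSubmonoidClass.coe_finsetSum, ContinuousMap.sum_apply]
      show ∑ i, ((g₀ t : ℝ) : ℂ) • (Matrix.single i i (1 : ℂ) ⊗ₖ (1 : Matrix (Fin q) (Fin q) ℂ)) = _
      rw [← Finset.smul_sum]
      congr 1
      ext ⟨i, j⟩ ⟨k, l⟩
      simp only [Matrix.sum_apply, Matrix.kroneckerMap_apply, Matrix.single_apply,
        Matrix.one_apply, Prod.mk.injEq]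
      by_cases h1 : i = k <;> by_cases h2 : j = l <;> simp [h1, h2]
    have e2 : (((∑ i, b i i : dimDrop p q) :
        C(unitInterval, Matrix (Fin p × Fin q) (Fin p × Fin q) ℂ)) t)
        = ((t : ℝ) : ℂ) • (1 : Matrix (Fin p × Fin q) (Fin p × Fin q) ℂ) := by
      rw [AddSubmonoidClass.coe_finsetSum, ContinuousMap.sum_apply]
      show ∑ i, ((g₁ t : ℝ) : ℂ) • ((1 : Matrix (Fin p) (Fin p) ℂ) ⊗ₖ Matrix.single i i (1 : ℂ)) = _
      rw [← Finset.smul_sum]
      congr 1
      ext ⟨i, j⟩ ⟨k, l⟩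
      simp only [Matrix.sum_apply, Matrix.kroneckerMap_apply, Matrix.single_apply,
        Matrix.one_apply, Prod.mk.injEq]
      by_cases h1 : i = k <;> by_cases h2 : j = l <;> simp [h1, h2]
    rw [AddMemClass.coe_add, ContinuousMap.add_apply, e1, e2, ← add_smul]
    push_cast
    rw [sub_add_cancel, one_smul]
    rfl
  have h1 : χ 1 = 0 := by
    rw [← hsum, map_add, map_sum, map_sum, Finset.sum_eq_zero fun i _ => ha' i,
      Finset.sum_eq_zero fun i _ => hb' i, add_zero]
  rw [map_one] at h1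
  exact one_ne_zero h1

end NoChar

end Vale.Agent.P101
end
end

section

section

open TopologicalSpace
open scoped TensorProduct Kronecker

namespace Vale.Agent.P101

universe u

section
open scoped Matrix.Norms.L2Operator

theorem sepAux_isClosed_dimDrop (p q : ℕ) :
    IsClosed ((dimDrop p q : StarSubalgebra ℂ
      C(unitInterval, Matrix (Fin p × Fin q) (Fin p × Fin q) ℂ)) :
      Set C(unitInterval, Matrix (Fin p × Fin q) (Fin p × Fin q) ℂ)) := by
  have h0 : IsClosed (Set.range fun x : Matrix (Fin p) (Fin p) ℂ =>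
      x ⊗ₖ (1 : Matrix (Fin q) (Fin q) ℂ)) := by
    let f : Matrix (Fin p) (Fin p) ℂ →ₗ[ℂ] Matrix (Fin p × Fin q) (Fin p × Fin q) ℂ :=
      { toFun := fun x => x ⊗ₖ (1 : Matrix (Fin q) (Fin q) ℂ)
        map_add' := fun x y => Matrix.add_kronecker _ _ _
        map_smul' := fun c x => Matrix.smul_kronecker _ _ _ }
    have : IsClosed (LinearMap.range f : Set (Matrix (Fin p × Fin q) (Fin p × Fin q) ℂ)) :=
      Submodule.closed_of_finiteDimensional _
    exact this
  have h1 : IsClosed (Set.range fun x : Matrix (Fin q) (Fin q) ℂ =>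
      (1 : Matrix (Fin p) (Fin p) ℂ) ⊗ₖ x) := by
    let f : Matrix (Fin q) (Fin q) ℂ →ₗ[ℂ] Matrix (Fin p × Fin q) (Fin p × Fin q) ℂ :=
      { toFun := fun x => (1 : Matrix (Fin p) (Fin p) ℂ) ⊗ₖ x
        map_add' := fun x y => Matrix.kronecker_add _ _ _
        map_smul' := fun c x => Matrix.kronecker_smul _ _ _ }
    have : IsClosed (LinearMap.range f : Set (Matrix (Fin p × Fin q) (Fin p × Fin q) ℂ)) :=
      Submodule.closed_of_finiteDimensional _
    exact this
  have e : ((dimDrop p q : StarSubalgebra ℂ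
      C(unitInterval, Matrix (Fin p × Fin q) (Fin p × Fin q) ℂ)) :
      Set C(unitInterval, Matrix (Fin p × Fin q) (Fin p × Fin q) ℂ))
      = (fun f : C(unitInterval, Matrix (Fin p × Fin q) (Fin p × Fin q) ℂ) => f 0) ⁻¹'
          (Set.range fun x : Matrix (Fin p) (Fin p) ℂ => x ⊗ₖ (1 : Matrix (Fin q) (Fin q) ℂ))
        ∩ (fun f : C(unitInterval, Matrix (Fin p × Fin q) (Fin p × Fin q) ℂ) => f 1) ⁻¹'
          (Set.range fun x : Matrix (Fin q) (Fin q) ℂ => (1 : Matrix (Fin p) (Fin p) ℂ) ⊗ₖ x) := by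
    ext f
    constructor
    · rintro ⟨⟨x, hx⟩, ⟨y, hy⟩⟩
      exact ⟨⟨x, hx.symm⟩, ⟨y, hy.symm⟩⟩
    · rintro ⟨⟨x, hx⟩, ⟨y, hy⟩⟩
      exact ⟨⟨x, hx.symm⟩, ⟨y, hy.symm⟩⟩
  rw [e]
  exact (h0.preimage (continuous_eval_const 0)).inter
    (h1.preimage (continuous_eval_const 1))

theorem sepAux_range {Z : Type u} [CStarAlgebra Z] (p q : ℕ) (φ : dimDrop p q →⋆ₐ[ℂ] Z) :
    IsSeparable (Set.range φ) := by
  have : IsClosed ((dimDrop p q : StarSubalgebra ℂ
      C(unitInterval, Matrix (Fin p × Fin q) (Fin p × Fin q) ℂ)) :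
      Set C(unitInterval, Matrix (Fin p × Fin q) (Fin p × Fin q) ℂ)) :=
    sepAux_isClosed_dimDrop p q
  let : CStarAlgebra (dimDrop p q) := StarSubalgebra.cstarAlgebra (dimDrop p q)
  have hc : Continuous φ :=
    AddMonoidHomClass.continuous_of_bound φ 1
      (by simpa only [one_mul] using! NonUnitalStarAlgHom.norm_apply_le φ)
  have : SecondCountableTopology
      C(unitInterval, Matrix (Fin p × Fin q) (Fin p × Fin q) ℂ) := inferInstance
  have : SeparableSpace (dimDrop p q) := inferInstance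
  exact isSeparable_range hc

end

/-- A Jiang-Su algebra is separable. -/
theorem separable_dimDrop_closure {Z : Type u} [CStarAlgebra Z] (h : IsJiangSu Z) :
    TopologicalSpace.SeparableSpace Z := by
  obtain ⟨p, q, S, -, hS, hdense⟩ := h.limit
  have h1 : ∀ n, IsSeparable (S n : Set Z) := by
    intro n
    obtain ⟨-, -, -, ⟨e⟩⟩ := hS n
    have h2 := sepAux_range (p n) (q n) ((S n).subtype.comp (e : dimDrop (p n) (q n) →⋆ₐ[ℂ] S n))
    refine h2.mono ?_
    intro z hz
    exact ⟨e.symm ⟨z, hz⟩, by simp⟩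
  have h2 : IsSeparable (⋃ n, (S n : Set Z)) := IsSeparable.iUnion h1
  have h3 : IsSeparable (Set.univ : Set Z) := by
    rw [← hdense.closure_eq]
    exact h2.closure
  exact isSeparable_univ_iff.mp h3

theorem separable_tensor {A Z B : Type u} [CStarAlgebra A] [CStarAlgebra Z] [CStarAlgebra B]
    [TopologicalSpace.SeparableSpace A] [TopologicalSpace.SeparableSpace Z]
    (i : A →⋆ₐ[ℂ] B) (j : Z →⋆ₐ[ℂ] B) (h : IsCStarTensor i j) :
    TopologicalSpace.SeparableSpace B := by
  have hci : Continuous i :=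
    AddMonoidHomClass.continuous_of_bound i 1
      (by simpa only [one_mul] using! NonUnitalStarAlgHom.norm_apply_le i)
  have hcj : Continuous j :=
    AddMonoidHomClass.continuous_of_bound j 1
      (by simpa only [one_mul] using! NonUnitalStarAlgHom.norm_apply_le j)
  have h1 : IsSeparable (Set.range fun x : A × Z => i x.1 * j x.2) :=
    isSeparable_range ((hci.comp continuous_fst).mul (hcj.comp continuous_snd))
  have h2 : IsSeparable
      (Submodule.span ℂ (Set.range fun x : A × Z => i x.1 * j x.2) : Set B) := h1.span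
  have h3 : Set.range (Algebra.TensorProduct.lift (i : A →ₐ[ℂ] B) (j : Z →ₐ[ℂ] B) h.comm)
      ⊆ (Submodule.span ℂ (Set.range fun x : A × Z => i x.1 * j x.2) : Set B) := by
    rintro _ ⟨t, rfl⟩
    induction t using TensorProduct.induction_on with
    | zero => simp
    | tmul a z =>
      rw [Algebra.TensorProduct.lift_tmul]
      exact Submodule.subset_span ⟨(a, z), rfl⟩
    | add x y hx hy =>
      rw [map_add]
      exact Submodule.add_mem _ hx hy
  have h4 : IsSeparable (Set.univ : Set B) := by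
    rw [← h.dense.closure_eq]
    exact (h2.mono h3).closure
  exact isSeparable_univ_iff.mp h4

end Vale.Agent.P101
end
end

section

section

/-! One-sided approximate intertwining (Elliott). -/

open Filter Topology

namespace Vale.Agent.P101

universe u

theorem elliott {A B : Type u} [CStarAlgebra A] [CStarAlgebra B]
    [TopologicalSpace.SeparableSpace A] [TopologicalSpace.SeparableSpace B] (i : A →⋆ₐ[ℂ] B)
    (hi : Function.Injective i)
    (h : ∀ (S : Finset A) (T : Finset B) (ε : ℝ), 0 < ε → ∃ v ∈ unitary B,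
      (∀ a ∈ S, ‖v * i a - i a * v‖ < ε) ∧ ∀ b ∈ T, ∃ a, ‖star v * b * v - i a‖ < ε) :
    Nonempty (A ≃⋆ₐ[ℂ] B) := by
  classical
  have h' : ∀ (S : Finset A) (T : Finset B) (n : ℕ), ∃ (v : unitary B) (α : B → A),
      (∀ a ∈ S, ‖(v : B) * i a - i a * v‖ < (1 / 2 : ℝ) ^ n) ∧
      ∀ b ∈ T, ‖star (v : B) * b * v - i (α b)‖ < (1 / 2 : ℝ) ^ n := by
    intro S T n
    obtain ⟨v, hv, h1, h2⟩ := h S T ((1 / 2 : ℝ) ^ n) (by positivity)
    have h3 : ∀ b : B, ∃ a : A, b ∈ T → ‖star v * b * v - i a‖ < (1 / 2 : ℝ) ^ n := by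
      intro b
      by_cases hb : b ∈ T
      · obtain ⟨a, ha⟩ := h2 b hb
        exact ⟨a, fun _ => ha⟩
      · exact ⟨0, fun h => absurd h hb⟩
    choose α hα using h3
    exact ⟨⟨v, hv⟩, α, h1, hα⟩
  choose V α hV hα using h'
  obtain ⟨a, ha⟩ := TopologicalSpace.exists_dense_seq A
  obtain ⟨b, hb⟩ := TopologicalSpace.exists_dense_seq B
  let G1 : ℕ → unitary B × Finset A → Finset A :=
    fun n p => p.2 ∪ (Finset.range (n + 1)).image a
  let G2 : ℕ → unitary B × Finset A → Finset B :=
    fun n p => (Finset.range (n + 1)).image (fun j => star (p.1 : B) * b j * p.1)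
  let F : ℕ → unitary B × Finset A := fun n => Nat.rec (1, ∅)
    (fun n p => (p.1 * V (G1 n p) (G2 n p) n,
      G1 n p ∪ (G2 n p).image (α (G1 n p) (G2 n p) n))) n
  let U : ℕ → unitary B := fun n => (F n).1
  let W : ℕ → Finset A := fun n => G1 n (F n)
  let v : ℕ → unitary B := fun n => V (W n) (G2 n (F n)) n
  have hU : ∀ n, U (n + 1) = U n * v n := fun n => rfl
  have hW : ∀ n, W n ⊆ W (n + 1) := by
    intro n x hx
    exact Finset.mem_union_left _ (Finset.mem_union_left _ hx)
  have hWm : ∀ m k, m ≤ k → W m ⊆ W k := by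
    intro m k hmk
    induction hmk with
    | refl => exact Finset.Subset.refl _
    | step _ ih => exact ih.trans (hW _)
  have haW : ∀ j n, j ≤ n → a j ∈ W n := by
    intro j n hj
    exact Finset.mem_union_right _ (Finset.mem_image.2 ⟨j, by simp; omega, rfl⟩)
  have hbW : ∀ j n, j ≤ n → ∃ c ∈ W (n + 1),
      ‖star (U (n + 1) : B) * b j * U (n + 1) - i c‖ < (1 / 2 : ℝ) ^ n := by
    intro j n hj
    have hmem : star (U n : B) * b j * U n ∈ G2 n (F n) :=
      Finset.mem_image.2 ⟨j, by simp; omega, rfl⟩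
    refine ⟨α (W n) (G2 n (F n)) n (star (U n : B) * b j * U n), ?_, ?_⟩
    · exact Finset.mem_union_left _ (Finset.mem_union_right _
        (Finset.mem_image.2 ⟨_, hmem, rfl⟩))
    · have := hα (W n) (G2 n (F n)) n _ hmem
      rw [hU]
      have e : star ((U n * v n : unitary B) : B) * b j * ((U n * v n : unitary B) : B)
          = star (v n : B) * (star (U n : B) * b j * U n) * v n := by
        simp only [Submonoid.coe_mul, star_mul, mul_assoc]
      rw [e]
      exact this
  -- the approximating homomorphisms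
  let φ : ℕ → A →⋆ₐ[ℂ] B := fun n =>
    ((Unitary.conjStarAlgAut ℂ B (U n) : B ≃⋆ₐ[ℂ] B) : B →⋆ₐ[ℂ] B).comp i
  have hφ : ∀ n x, φ n x = (U n : B) * i x * star (U n : B) := fun n x => rfl
  have hφn : ∀ n x, ‖φ n x‖ = ‖x‖ := by
    intro n x
    rw [hφ, CStarRing.norm_mul_mem_unitary _ (Unitary.star_mem (U n).2),
      CStarRing.norm_coe_unitary_mul]
    exact NonUnitalStarAlgHom.norm_map i hi x
  have hstep : ∀ n, ∀ x ∈ W n, ‖φ (n + 1) x - φ n x‖ ≤ (1 / 2 : ℝ) ^ n := by
    intro n x hx
    have e : φ (n + 1) x - φ n x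
        = (U n : B) * (((v n : B) * i x - i x * v n) * star (v n : B)) * star (U n : B) := by
      have e2 : (v n : B) * star (v n : B) = 1 := Unitary.mul_star_self_of_mem (v n).2
      rw [hφ n x, hφ (n + 1) x, hU]
      simp only [Submonoid.coe_mul, star_mul, mul_sub, sub_mul, mul_assoc, e2, mul_one]
    rw [e, CStarRing.norm_mul_mem_unitary _ (Unitary.star_mem (U n).2),
      CStarRing.norm_coe_unitary_mul, CStarRing.norm_mul_mem_unitary _ (Unitary.star_mem (v n).2)]
    exact (hV (W n) (G2 n (F n)) n x hx).le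
  have hclose : ∀ m, ∀ x ∈ W m, ∀ k, m ≤ k →
      ‖φ k x - φ m x‖ ≤ 2 * (1 / 2 : ℝ) ^ m - 2 * (1 / 2 : ℝ) ^ k := by
    intro m x hx k hk
    induction k, hk using Nat.le_induction with
    | base => simp
    | succ k hk ih =>
      have h1 := hstep k x (hWm m k hk hx)
      have h2 : φ (k + 1) x - φ m x = (φ (k + 1) x - φ k x) + (φ k x - φ m x) := by abel
      rw [h2]
      refine (norm_add_le _ _).trans ?_
      rw [pow_succ]
      linarith
  have hclose' : ∀ m, ∀ x ∈ W m, ∀ k, m ≤ k → ‖φ k x - φ m x‖ ≤ 2 * (1 / 2 : ℝ) ^ m := by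
    intro m x hx k hk
    have := hclose m x hx k hk
    have h2 : (0 : ℝ) ≤ (1 / 2 : ℝ) ^ k := by positivity
    linarith
  have hpow : ∀ ε : ℝ, 0 < ε → ∀ N : ℕ, ∃ n ≥ N, (1 / 2 : ℝ) ^ n < ε := by
    intro ε hε N
    obtain ⟨n, hn⟩ := exists_pow_lt_of_lt_one hε (by norm_num : (1 / 2 : ℝ) < 1)
    refine ⟨max n N, le_max_right _ _, ?_⟩
    exact lt_of_le_of_lt (pow_le_pow_of_le_one (by norm_num) (by norm_num) (le_max_left _ _)) hn
  have hcauchy : ∀ x, CauchySeq (fun n => φ n x) := by
    intro x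
    rw [Metric.cauchySeq_iff']
    intro ε hε
    obtain ⟨j, hj⟩ := Metric.denseRange_iff.1 ha x (ε / 4) (by linarith)
    obtain ⟨m, hmj, hm⟩ := hpow (ε / 8) (by linarith) j
    refine ⟨m, fun k hk => ?_⟩
    rw [dist_eq_norm] at hj ⊢
    have e : φ k x - φ m x = φ k (x - a j) + (φ k (a j) - φ m (a j)) - φ m (x - a j) := by
      simp only [map_sub]; abel
    rw [e]
    have h1 := hclose' m (a j) (haW j m hmj) k hk
    have h2 := hφn k (x - a j)
    have h3 := hφn m (x - a j)
    have h4 := norm_sub_le (φ k (x - a j) + (φ k (a j) - φ m (a j))) (φ m (x - a j))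
    have h5 := norm_add_le (φ k (x - a j)) (φ k (a j) - φ m (a j))
    linarith
  choose Φ hΦ using fun x => cauchySeq_tendsto_of_complete (hcauchy x)
  let Ψ : A →⋆ₐ[ℂ] B :=
    { toFun := Φ
      map_one' := tendsto_nhds_unique (hΦ 1) (by simp)
      map_mul' := fun x y => tendsto_nhds_unique (hΦ (x * y))
        (by simpa using (hΦ x).mul (hΦ y))
      map_zero' := tendsto_nhds_unique (hΦ 0) (by simp)
      map_add' := fun x y => tendsto_nhds_unique (hΦ (x + y))
        (by simpa using (hΦ x).add (hΦ y))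
      commutes' := fun r => tendsto_nhds_unique (hΦ (algebraMap ℂ A r))
        (by simpa only [AlgHomClass.commutes] using tendsto_const_nhds)
      map_star' := fun x => tendsto_nhds_unique (hΦ (star x))
        (by simpa only [map_star] using (hΦ x).star) }
  have hΨ : ∀ x, Tendsto (fun n => φ n x) atTop (𝓝 (Ψ x)) := hΦ
  have hnorm : ∀ x, ‖Ψ x‖ = ‖x‖ := by
    intro x
    refine tendsto_nhds_unique (hΨ x).norm ?_
    simp only [hφn]
    exact tendsto_const_nhds
  have hiso : Isometry Ψ := AddMonoidHomClass.isometry_of_norm Ψ hnorm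
  have hclosed : IsClosed (Set.range Ψ) := hiso.isClosedEmbedding.isClosed_range
  have hlim : ∀ m, ∀ x ∈ W m, ‖Ψ x - φ m x‖ ≤ 2 * (1 / 2 : ℝ) ^ m := by
    intro m x hx
    have h1 : Tendsto (fun k => ‖φ k x - φ m x‖) atTop (𝓝 ‖Ψ x - φ m x‖) :=
      ((hΨ x).sub tendsto_const_nhds).norm
    refine le_of_tendsto h1 ?_
    filter_upwards [eventually_ge_atTop m] with k hk
    exact hclose' m x hx k hk
  have hsurj : Function.Surjective Ψ := by
    have hdense : Set.range b ⊆ Set.range Ψ := by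
      rintro _ ⟨j, rfl⟩
      rw [← hclosed.closure_eq, Metric.mem_closure_iff]
      intro ε hε
      obtain ⟨n, hnj, hn⟩ := hpow (ε / 4) (by linarith) j
      obtain ⟨c, hc, hc'⟩ := hbW j n hnj
      refine ⟨Ψ c, ⟨c, rfl⟩, ?_⟩
      rw [dist_eq_norm]
      have h1 := hlim (n + 1) c hc
      have h2 : ‖b j - φ (n + 1) c‖ < (1 / 2 : ℝ) ^ n := by
        have e : b j - φ (n + 1) c
            = (U (n + 1) : B) * (star (U (n + 1) : B) * b j * U (n + 1) - i c)
              * star (U (n + 1) : B) := by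
          have e2 : (U (n + 1) : B) * star (U (n + 1) : B) = 1 :=
            Unitary.mul_star_self_of_mem (U (n + 1)).2
          have e3 : (U (n + 1) : B) * (star (U (n + 1) : B) * b j * U (n + 1))
              * star (U (n + 1) : B) = ((U (n + 1) : B) * star (U (n + 1) : B)) * b j
              * ((U (n + 1) : B) * star (U (n + 1) : B)) := by
            simp only [mul_assoc]
          rw [mul_sub, sub_mul, e3, e2, one_mul, mul_one, hφ (n + 1) c]
        rw [e, CStarRing.norm_mul_mem_unitary _ (Unitary.star_mem (U (n + 1)).2),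
          CStarRing.norm_coe_unitary_mul]
        exact hc'
      have e : b j - Ψ c = (b j - φ (n + 1) c) - (Ψ c - φ (n + 1) c) := by abel
      rw [e]
      have h3 := norm_sub_le (b j - φ (n + 1) c) (Ψ c - φ (n + 1) c)
      rw [pow_succ] at h1
      linarith
    have h1 : closure (Set.range b) ⊆ Set.range Ψ := closure_minimal hdense hclosed
    rw [hb.closure_range] at h1
    intro y
    exact h1 (Set.mem_univ y)
  exact ⟨StarAlgEquiv.ofBijective Ψ ⟨hiso.injective, hsurj⟩⟩

end Vale.Agent.P101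
end
end

section

section

/-! Definitions used by the final statements: see the two imported files. -/
end
end

section

section

/-! Comparison of the definitions used by the final statements with the working definitions. -/

open Filter Topology
open scoped Kronecker TensorProduct

namespace Vale.Agent.P101

universe u

theorem isCentral_iff {A : Type u} [CStarAlgebra A] (ω : Filter ℕ) (x : ℕ → A) :
    IsCentral ω x ↔ x ∈ centralSeq A ω :=
  ⟨fun h => ⟨h.1, h.2⟩, fun h => ⟨h.1, h.2⟩⟩

theorem isEmpty_of_not_char (A : Type u) [CStarAlgebra A] (ω : Filter ℕ)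
    (h : ¬ ∃ χ : (ℕ → A) → ℂ, IsCharacter ω χ) : IsEmpty (Fcs A ω →⋆ₐ[ℂ] ℂ) := by
  classical
  refine ⟨fun χ => h ?_⟩
  have hmem : ∀ x : ℕ → A, IsCentral ω x → x ∈ centralSeq A ω :=
    fun x hx => (isCentral_iff ω x).1 hx
  let χ' : (ℕ → A) → ℂ := fun x =>
    if hx : x ∈ centralSeq A ω then χ ((⟨x, hx⟩ : centralSeq A ω) : Fcs A ω) else 0
  have hχ' : ∀ (x : ℕ → A) (hx : x ∈ centralSeq A ω),
      χ' x = χ ((⟨x, hx⟩ : centralSeq A ω) : Fcs A ω) := fun x hx => by
    simp only [χ', dif_pos hx]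
  refine ⟨χ', ?_, ?_, ?_, ?_, ?_, ?_⟩
  · intro x hx h0
    rw [hχ' x (hmem x hx)]
    have : (((⟨x, hmem x hx⟩ : centralSeq A ω) : Fcs A ω)) = ((0 : centralSeq A ω) : Fcs A ω) := by
      refine (RingCon.eq _).2 ?_
      show Tendsto (fun i => ‖x i - ((0 : centralSeq A ω) : ℕ → A) i‖) ω (𝓝 0)
      simpa using h0
    rw [this, RingCon.coe_zero, map_zero]
  · rw [hχ' 1 (one_mem _)]
    exact map_one χ
  · intro x y hx hy
    rw [hχ' x (hmem x hx), hχ' y (hmem y hy), hχ' _ (add_mem (hmem x hx) (hmem y hy)), ← map_add]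
    rfl
  · intro x y hx hy
    rw [hχ' x (hmem x hx), hχ' y (hmem y hy), hχ' _ (mul_mem (hmem x hx) (hmem y hy)), ← map_mul]
    rfl
  · intro c x hx
    rw [hχ' x (hmem x hx), hχ' _ ((centralSeq A ω).smul_mem (hmem x hx) c), ← smul_eq_mul,
      ← map_smul]
    rfl
  · intro x hx
    rw [hχ' x (hmem x hx), hχ' _ (star_mem (hmem x hx)), ← map_star]
    rfl

attribute [-instance] AFast493285x7a.a0 AFast493285x7a.a1 AFast493285x7a.a2 AFast493285x7a.a3 AFast493285x7a.a4 AFast493285x7a.a5 AFast493285x7a.a6 AFast493285x7a.a7 AFast493285x7a.a8 AFast493285x7a.a9 AFast493285x7a.a10 AFast493285x7a.a11 AFast493285x7a.a12 AFast493285x7a.a13 AFast493285x7a.a14 AFast493285x7a.a15 AFast493285x7a.a16 AFast493285x7a.a17 AFast493285x7a.a18 AFast493285x7a.a19 AFast493285x7a.a20 AFast493285x7a.a21 AFast493285x7a.a22 AFast493285x7a.a23 AFast493285x7a.a24 AFast493285x7a.a25 AFast493285x7a.a26 AFast493285x7a.a27 AFast493285x7a.a28 AFast493285x7a.a29 AFast493285x7a.a30 AFast493285x7a.a31 AFast493285x7a.a32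 AFast493285x7a.a33 AFast493285x7a.a34 AFast493285x7a.a35 AFast493285x7b.a0 AFast493285x7b.a1 AFast493285x158a.a0 AFast493285x158a.a1 AFast493285x158a.a2 AFast493285x158a.a3 AFast493285x158a.a4 AFast493285x158a.a5 AFast493285x158a.a6 AFast493285x158a.a7 AFast493285x158b.a0 AFast493285x158b.a1 AFast493285x158b.a2 AFast493285x158b.a3 AFast493285x158b.a4 AFast493285x158b.a5 AFast493285x158b.a6 AFast493285x158b.a7 AFast493285x158b.a8 AFast493285x158b.a9 AFast493285x158b.a10 AFast493285x158b.a11 AFast493285x158b.a12 AFast493285x158b.a13 AFast493285x158b.a14 AFast493285x158b.a15 AFast493285x158b.a16 AFast493285x158b.a17 AFast493285x158b.a18 AFast493285x158b.a19 AFast493285x158b.a20 AFast493285x158b.a21 AFast493285x158b.a22 AFast493285x158b.a23 AFast493285x158b.a24 AFast493285x158b.a25 AFast493285x158b.a26 AFast493285x158b.a27 AFast493285x4687a.a0 AFast493285x4687a.a1 AFast493285x4687b.a0 AFast493285x4687b.a1 AFast493285x4687b.a2 AFast493285x4687b.a3 AFast493285x4687b.a4 AFast493285x4687b.a5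 AFast493285x4687b.a6 AFast493285x4687b.a7 AFast493285x4687b.a8 AFast493285x4687b.a9 AFast493285x4687b.a10 AFast493285x4687b.a11 AFast493285x4687b.a12 AFast493285x4687b.a13 AFast493285x4687b.a14 AFast493285x4687b.a15 AFast493285x4687b.a16 AFast493285x4687b.a17 AFast493285x4687b.a18 AFast493285x4687b.a19 AFast493285x4687b.a20 AFast493285x4687b.a21 AFast493285x4687b.a22 AFast493285x4687b.a23 in
theorem dimDrop_of_isDimDrop {Z : Type u} [CStarAlgebra Z] {p q : ℕ} {R : StarSubalgebra ℂ Z}
    (h : IsDimDrop p q R) : Nonempty (dimDrop p q ≃⋆ₐ[ℂ] R) := by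
  obtain ⟨S, hS, e⟩ := h.iso
  have : S = dimDrop p q := by
    ext f
    rw [hS f]
    rfl
  rw [← this]
  exact e

theorem IsJiangSuAlgebra.isJiangSu {Z : Type u} [CStarAlgebra Z] (h : IsJiangSuAlgebra Z) :
    IsJiangSu Z := by
  obtain ⟨p, q, R, hR, hn, hd⟩ := h.limit
  refine ⟨⟨p, q, R, hR, fun n => ?_, hd⟩, fun B _ φ ψ hc S ε hε => (h.half_flip B).flip φ ψ hc S ε hε⟩
  obtain ⟨h1, h2, h3, h4⟩ := hn n
  exact ⟨h1, h2, h3, dimDrop_of_isDimDrop h4⟩

theorem IsTensorCompletion.isCStarTensor {A Z B : Type u} [CStarAlgebra A] [CStarAlgebra Z]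
    [CStarAlgebra B] {i : A →⋆ₐ[ℂ] B} {j : Z →⋆ₐ[ℂ] B} (h : IsTensorCompletion i j) :
    IsCStarTensor i j :=
  ⟨h.comm, h.injective, h.dense⟩

end Vale.Agent.P101
end
end
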