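import Vale.Agent.P101.MathlibUsed
import Vale.Agent.P101.Bdl.B1
import Vale.Agent.P101.StmtHom
import Vale.Agent.P101.StmtStable

set_option linter.all false

namespace AFast210ccax7a
theorem a0.{u1, u2} {x1 : Type u1} {x2 : Type u2} [x3 : CStarAlgebra x2] : SubringClass (StarSubalgebra ℂ (x1 → x2)) (x1 → x2) := inferInstance
@[reducible] noncomputable def a1.{u1, u2} {x1 : Type u1} {x2 : Type u2} [x3 : CStarAlgebra x2] : SetLike (StarSubalgebra ℂ (x1 → x2)) (x1 → x2) := inferInstance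
@[reducible] noncomputable def a2.{u1, u2} {x1 : Type u1} {x2 : Type u2} [x3 : CStarAlgebra x2] {x4 : Filter x1} : Semiring ↥(Vale.Agent.P101.centralSeq x2 x4) := inferInstance
theorem a3 {x1 : Type} [x2 : Fintype x1] [x3 : DecidableEq x1] : StarModule ℂ C(↑unitInterval, Matrix x1 x1 ℂ) := inferInstance
@[reducible] noncomputable def a4.{u1, u2} {x1 : Type u1} {x2 : Type u2} [x3 : CStarAlgebra x2] {x4 : Filter x1} : Ring ↥(Vale.Agent.P101.centralSeq x2 x4) := inferInstance
theorem a5 : IsTopologicalSemiring ℂ := inferInstance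
theorem a6 : IsTopologicalRing ℂ := inferInstance
theorem a7.{u1, u2} {x1 : Type u1} {x2 : Type u2} [x3 : CStarAlgebra x2] : StarModule ℂ (x1 → x2) := inferInstance
@[reducible] noncomputable def a8.{u1} {x1 : Type} {x2 : Type u1} [x3 : CStarAlgebra x2] {x4 : Filter x1} : Semiring ↥(Vale.Agent.P101.centralSeq x2 x4) := inferInstance
@[reducible] noncomputable def a9.{u1, u2} {x1 : Type u1} {x2 : Type u2} [x3 : CStarAlgebra x2] {x4 : Filter x1} : NonUnitalNonAssocSemiring (Vale.Agent.P101.nullCon x2 x4).Quotient := inferInstance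
@[reducible] noncomputable def a10.{u1} {x1 : Type} {x2 : Type u1} [x3 : CStarAlgebra x2] {x4 : Filter x1} : Ring ↥(Vale.Agent.P101.centralSeq x2 x4) := inferInstance
@[reducible] def a11.{u1, u2} {x1 : Type u1} {x2 : Type u2} {x3 : x1} [x4 : CStarAlgebra x2] : StarMul ((fun a => x2) x3) := inferInstance
@[reducible] noncomputable def a12.{u1, u2} {x1 : Type u1} {x2 : Type u2} [x3 : CStarAlgebra x2] {x4 : Filter x1} : Mul ↥(Vale.Agent.P101.centralSeq x2 x4) := inferInstance
@[reducible] noncomputable def a13.{u1, u2} {x1 : Type u1} {x2 : Type u2} [x3 : CStarAlgebra x2] {x4 : Filter x1} : Distrib ↥(Vale.Agent.P101.centralSeq x2 x4) := inferInstance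
@[reducible] noncomputable def a14.{u1} {x1 : Type} {x2 : Type u1} [x3 : CStarAlgebra x2] {x4 : Filter x1} : NonUnitalNonAssocSemiring (Vale.Agent.P101.nullCon x2 x4).Quotient := inferInstance
@[reducible] noncomputable def a15 {x1 : Type} [x2 : DecidableEq x1] [x3 : Fintype x1] : Semiring C(↑unitInterval, Matrix x1 x1 ℂ) := inferInstance
theorem a16 {x1 : Type} [x2 : Fintype x1] [x3 : DecidableEq x1] : ContinuousConstSMul ℂ (Matrix x1 x1 ℂ) := inferInstance
@[reducible] noncomputable def a17.{u1, u2} {x1 : Type u1} {x2 : Type u2} [x3 : CStarAlgebra x2] {x4 : Filter x1} : Add ↥(Vale.Agent.P101.centralSeq x2 x4) := inferInstance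
@[reducible] noncomputable def a18.{u1} {x1 : Type u1} [x2 : CStarAlgebra x1] {x3 : Type} {x4 : Filter x3} : AddCommMonoid (Vale.Agent.P101.Fcs x1 x4) := inferInstance
@[reducible] noncomputable def a19.{u1, u2} {x1 : Type u1} {x2 : Type u2} [x3 : CStarAlgebra x2] {x4 : Filter x1} : NonAssocSemiring ↥(Vale.Agent.P101.centralSeq x2 x4) := inferInstance
theorem a20 {x1 : Type} [x2 : Fintype x1] : IsTopologicalSemiring (Matrix x1 x1 ℂ) := inferInstance
theorem a21.{u1} {x1 : Type} {x2 : Type u1} [x3 : CStarAlgebra x2] : SubringClass (StarSubalgebra ℂ (x1 → x2)) (x1 → x2) := inferInstance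
theorem a22 {x1 : ℕ} {x2 : ℕ} : StarModule ℂ C(↑unitInterval, Matrix (Fin x1 × Fin x2) (Fin x1 × Fin x2) ℂ) := inferInstance
@[reducible] noncomputable def a23.{u1} {x1 : Type} {x2 : Type u1} [x3 : CStarAlgebra x2] {x4 : Filter x1} : NonUnitalNonAssocSemiring ↥(Vale.Agent.P101.centralSeq x2 x4) := inferInstance
theorem a24 {x1 : ℕ} {x2 : ℕ} : SubringClass (StarSubalgebra ℂ C(↑unitInterval, Matrix (Fin x1 × Fin x2) (Fin x1 × Fin x2) ℂ)) C(↑unitInterval, Matrix (Fin x1 × Fin x2) (Fin x1 × Fin x2) ℂ) := inferInstance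
@[reducible] def a25.{u1, u2} {x1 : Type u1} {x2 : Type u2} {x3 : x1} [x4 : CStarAlgebra x2] : InvolutiveStar ((fun a => x2) x3) := inferInstance
@[reducible] noncomputable def a26.{u1} {x1 : Type} {x2 : Type u1} [x3 : CStarAlgebra x2] {x4 : Filter x1} : NonAssocSemiring ↥(Vale.Agent.P101.centralSeq x2 x4) := inferInstance
theorem a27.{u1, u2} {x1 : Type u1} {x2 : Type u2} [x3 : CStarAlgebra x2] : SubsemiringClass (StarSubalgebra ℂ (x1 → x2)) (x1 → x2) := inferInstance
@[reducible] noncomputable def a28.{u1} {x1 : Type} {x2 : Type u1} [x3 : CStarAlgebra x2] : SetLike (StarSubalgebra ℂ (x1 → x2)) (x1 → x2) := inferInstance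
@[reducible] noncomputable def a29.{u1, u2} {x1 : Type u1} [x2 : CStarAlgebra x1] {x3 : Type u2} {x4 : Filter x3} : AddCommMonoid (Vale.Agent.P101.Fcs x1 x4) := inferInstance
theorem a30 : IsTopologicalDivisionRing ℂ := inferInstance
@[reducible] noncomputable def a31.{u1} {x1 : Type u1} [x2 : CStarAlgebra x1] {x3 : Filter ℕ} : NonUnitalNonAssocSemiring (Vale.Agent.P101.nullCon x1 x3).Quotient := inferInstance
@[reducible] noncomputable def a32.{u1, u2} {x1 : Type u1} {x2 : Type u2} [x3 : CStarAlgebra x2] {x4 : Filter x1} : Algebra ℂ ↥(Vale.Agent.P101.centralSeq x2 x4) := inferInstance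
@[reducible] noncomputable def a33.{u1, u2} {x1 : Type u1} {x2 : Type u2} [x3 : CStarAlgebra x2] {x4 : Filter x1} : NonUnitalNonAssocSemiring ↥(Vale.Agent.P101.centralSeq x2 x4) := inferInstance
@[reducible] noncomputable def a34.{u1, u2} {x1 : Type u1} {x2 : Type u2} [x3 : CStarAlgebra x2] {x4 : Filter x1} : Algebra ℂ (Vale.Agent.P101.nullCon x2 x4).Quotient := inferInstance
@[reducible] def a35.{u1, u2} {x1 : Type u1} {x2 : Type u2} [x3 : CStarAlgebra x2] : Algebra ℂ (x1 → x2) := inferInstance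
@[reducible] def a36.{u1, u2} {x1 : Type u1} {x2 : Type u2} [x3 : CStarAlgebra x2] : Semiring (x1 → x2) := inferInstance
theorem a37 : CovariantClass ℝ ℝ (Function.swap fun x1 x2 => x1 + x2) fun x1 x2 => x1 ≤ x2 := inferInstance
@[reducible] noncomputable def a38.{u1, u2} {x1 : Type u1} {x2 : Type u2} [x3 : CStarAlgebra x2] : StarRing (x1 → x2) := inferInstance
theorem a39.{u1} {x1 : Type u1} [x2 : CStarAlgebra x1] : SubringClass (StarSubalgebra ℂ (ℕ → x1)) (ℕ → x1) := inferInstance
@[reducible] noncomputable def a40 {x1 : ℕ} {x2 : ℕ} : Ring C(↑unitInterval, Matrix (Fin x1 × Fin x2) (Fin x1 × Fin x2) ℂ) := inferInstance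
@[reducible] noncomputable def a41.{u1} {x1 : Type u1} [x2 : CStarAlgebra x1] {x3 : Filter ℕ} : Semiring ↥(Vale.Agent.P101.centralSeq x1 x3) := inferInstance
@[reducible] noncomputable def a42.{u1} {x1 : Type} {x2 : Type u1} [x3 : CStarAlgebra x2] {x4 : Filter x1} : Ring (Vale.Agent.P101.nullCon x2 x4).Quotient := inferInstance
@[reducible] def a43.{u1, u2} {x1 : Type u1} {x2 : Type u2} {x3 : x1} [x4 : CStarAlgebra x2] : NonUnitalSemiring ((fun a => x2) x3) := inferInstance
@[reducible] noncomputable def a44.{u1} {x1 : Type u1} [x2 : CStarAlgebra x1] {x3 : Filter ℕ} : Ring ↥(Vale.Agent.P101.centralSeq x1 x3) := inferInstance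
@[reducible] noncomputable def a45 {x1 : ℕ} {x2 : ℕ} : Semiring C(↑unitInterval, Matrix (Fin x1 × Fin x2) (Fin x1 × Fin x2) ℂ) := inferInstance
@[reducible] def a46.{u1, u2} {x1 : Type u1} {x2 : Type u2} {x3 : x1} [x4 : CStarAlgebra x2] : NonUnitalNonAssocSemiring ((fun a => x2) x3) := inferInstance
theorem a47.{u1, u2} {x1 : Type u1} {x2 : Type u2} [x3 : CStarAlgebra x2] : StarMemClass (StarSubalgebra ℂ (x1 → x2)) (x1 → x2) := inferInstance
theorem a48 {x1 : ℕ} {x2 : ℕ} : ContinuousConstSMul ℂ (Matrix (Fin x1 × Fin x2) (Fin x1 × Fin x2) ℂ) := inferInstance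
theorem a49 {x1 : Type} [x2 : Fintype x1] [x3 : DecidableEq x1] : SubringClass (StarSubalgebra ℂ C(↑unitInterval, Matrix x1 x1 ℂ)) C(↑unitInterval, Matrix x1 x1 ℂ) := inferInstance
theorem a50 {x1 : Type} : StarModule ℂ (Matrix x1 x1 ℂ) := inferInstance
@[reducible] def a51.{u1, u2} {x1 : Type u1} {x2 : Type u2} {x3 : x1} [x4 : CStarAlgebra x2] : Distrib ((fun a => x2) x3) := inferInstance
theorem a52 {x1 : ℕ} {x2 : ℕ} : IsTopologicalSemiring (Matrix (Fin x1 × Fin x2) (Fin x1 × Fin x2) ℂ) := inferInstance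
@[reducible] noncomputable def a53.{u1} {x1 : Type u1} [x2 : CStarAlgebra x1] : SetLike (StarSubalgebra ℂ (ℕ → x1)) (ℕ → x1) := inferInstance
@[reducible] noncomputable def a54 {x1 : Type} [x2 : Fintype x1] [x3 : DecidableEq x1] : SetLike (StarSubalgebra ℂ C(↑unitInterval, Matrix x1 x1 ℂ)) C(↑unitInterval, Matrix x1 x1 ℂ) := inferInstance
@[reducible] noncomputable def a55 : Semiring C(↑unitInterval, ℂ) := inferInstance
@[reducible] noncomputable def a56.{u1} {x1 : Type} {x2 : Type u1} [x3 : CStarAlgebra x2] {x4 : Filter x1} : Algebra ℂ (Vale.Agent.P101.nullCon x2 x4).Quotient := inferInstance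
@[reducible] noncomputable def a57.{u1} {x1 : Type u1} [x2 : CStarAlgebra x1] {x3 : Filter ℕ} : NonUnitalNonAssocSemiring ↥(Vale.Agent.P101.centralSeq x1 x3) := inferInstance
end AFast210ccax7a
attribute [local instance] AFast210ccax7a.a0 AFast210ccax7a.a1 AFast210ccax7a.a2 AFast210ccax7a.a3
  AFast210ccax7a.a4 AFast210ccax7a.a5 AFast210ccax7a.a6 AFast210ccax7a.a7 AFast210ccax7a.a8
  AFast210ccax7a.a9 AFast210ccax7a.a10 AFast210ccax7a.a11 AFast210ccax7a.a12 AFast210ccax7a.a13
  AFast210ccax7a.a14 AFast210ccax7a.a15 AFast210ccax7a.a16 AFast210ccax7a.a17 AFast210ccax7a.a18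
  AFast210ccax7a.a19 AFast210ccax7a.a20 AFast210ccax7a.a21 AFast210ccax7a.a22 AFast210ccax7a.a23
  AFast210ccax7a.a24 AFast210ccax7a.a25 AFast210ccax7a.a26 AFast210ccax7a.a27 AFast210ccax7a.a28
  AFast210ccax7a.a29 AFast210ccax7a.a30 AFast210ccax7a.a31 AFast210ccax7a.a32 AFast210ccax7a.a33
  AFast210ccax7a.a34 AFast210ccax7a.a35 AFast210ccax7a.a36 AFast210ccax7a.a37 AFast210ccax7a.a38
  AFast210ccax7a.a39 AFast210ccax7a.a40 AFast210ccax7a.a41 AFast210ccax7a.a42 AFast210ccax7a.a43
  AFast210ccax7a.a44 AFast210ccax7a.a45 AFast210ccax7a.a46 AFast210ccax7a.a47 AFast210ccax7a.a48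
  AFast210ccax7a.a49 AFast210ccax7a.a50 AFast210ccax7a.a51 AFast210ccax7a.a52 AFast210ccax7a.a53
  AFast210ccax7a.a54 AFast210ccax7a.a55 AFast210ccax7a.a56 AFast210ccax7a.a57
namespace AFast210ccax7b
@[reducible] noncomputable def a0.{u1} {x1 : Type u1} [x2 : CStarAlgebra x1] {x3 : Type} {x4 : Filter x3} : StarAddMonoid (Vale.Agent.P101.Fcs x1 x4) := inferInstance
@[reducible] noncomputable def a1.{u1, u2} {x1 : Type u1} [x2 : CStarAlgebra x1] {x3 : Type u2} {x4 : Filter x3} : StarAddMonoid (Vale.Agent.P101.Fcs x1 x4) := inferInstance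
@[reducible] noncomputable def a2.{u1} {x1 : Type u1} [x2 : CStarAlgebra x1] {x3 : Type} {x4 : Filter x3} : Star (Vale.Agent.P101.Fcs x1 x4) := inferInstance
@[reducible] noncomputable def a3.{u1} {x1 : Type u1} [x2 : CStarAlgebra x1] {x3 : Type} {x4 : Filter x3} : InvolutiveStar (Vale.Agent.P101.Fcs x1 x4) := inferInstance
@[reducible] noncomputable def a4.{u1, u2} {x1 : Type u1} [x2 : CStarAlgebra x1] {x3 : Type u2} {x4 : Filter x3} : Star (Vale.Agent.P101.Fcs x1 x4) := inferInstance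
@[reducible] noncomputable def a5.{u1, u2} {x1 : Type u1} [x2 : CStarAlgebra x1] {x3 : Type u2} {x4 : Filter x3} : InvolutiveStar (Vale.Agent.P101.Fcs x1 x4) := inferInstance
@[reducible] noncomputable def a6 {x1 : ℕ} {x2 : ℕ} : Semiring ↥(Vale.Agent.P101.dimDrop x1 x2) := inferInstance
@[reducible] noncomputable def a7 {x1 : ℕ} {x2 : ℕ} : Ring ↥(Vale.Agent.P101.dimDrop x1 x2) := inferInstance
@[reducible] noncomputable def a8.{u1} {x1 : Type u1} [x2 : CStarAlgebra x1] {x3 : Filter ℕ} : StarAddMonoid (Vale.Agent.P101.Fcs x1 x3) := inferInstance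
@[reducible] noncomputable def a9 {x1 : Type} [x2 : Fintype x1] [x3 : DecidableEq x1] : Semiring ↥(Vale.Agent.P101.coneAlg x1) := inferInstance
@[reducible] noncomputable def a10 {x1 : ℕ} {x2 : ℕ} : Module ℂ ↥(Vale.Agent.P101.dimDrop x1 x2) := inferInstance
@[reducible] noncomputable def a11.{u1} {x1 : Type u1} [x2 : CStarAlgebra x1] {x3 : Filter ℕ} : Star (Vale.Agent.P101.Fcs x1 x3) := inferInstance
@[reducible] noncomputable def a12.{u1} {x1 : Type u1} [x2 : CStarAlgebra x1] {x3 : Filter ℕ} : InvolutiveStar (Vale.Agent.P101.Fcs x1 x3) := inferInstance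
@[reducible] noncomputable def a13 {x1 : Type} [x2 : Fintype x1] [x3 : DecidableEq x1] : Distrib ↥(Vale.Agent.P101.coneAlg x1) := inferInstance
@[reducible] noncomputable def a14 {x1 : Type} [x2 : Fintype x1] [x3 : DecidableEq x1] : Ring ↥(Vale.Agent.P101.coneAlg x1) := inferInstance
@[reducible] noncomputable def a15.{u1, u2} {x1 : Type u1} [x2 : CStarAlgebra x1] {x3 : ℕ → Type u2} {x4 : ℕ} {x5 : (n : ℕ) → Filter (x3 n)} : StarAddMonoid (Vale.Agent.P101.Fcs x1 (x5 x4)) := inferInstance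
@[reducible] noncomputable def a16.{u1} {x1 : Type u1} [x2 : CStarAlgebra x1] {x3 : Ultrafilter Nat} : Star (@Vale.Agent.P101.Fcs x1 x2 Nat (@Ultrafilter.toFilter Nat x3)) := inferInstance
@[reducible] noncomputable def a17 {x1 : Type} [x2 : Fintype x1] [x3 : DecidableEq x1] : Mul ↥(Vale.Agent.P101.coneAlg x1) := inferInstance
@[reducible] noncomputable def a18.{u1} {x1 : Type u1} [x2 : CStarAlgebra x1] {x3 : Ultrafilter Nat} : InvolutiveStar (@Vale.Agent.P101.Fcs x1 x2 Nat (@Ultrafilter.toFilter Nat x3)) := inferInstance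
@[reducible] noncomputable def a19 {x1 : Type} [x2 : Fintype x1] [x3 : DecidableEq x1] : Add ↥(Vale.Agent.P101.coneAlg x1) := inferInstance
@[reducible] noncomputable def a21 {x1 : Type} [x2 : Fintype x1] [x3 : DecidableEq x1] : NonAssocSemiring ↥(Vale.Agent.P101.coneAlg x1) := inferInstance
@[reducible] noncomputable def a22.{u1} {x1 : Type u1} [x2 : CStarAlgebra x1] {x3 : Filter ℕ} : SMul ℂ (Vale.Agent.P101.nullCon x1 x3).Quotient := inferInstance
end AFast210ccax7b
attribute [local instance] AFast210ccax7b.a0 AFast210ccax7b.a1 AFast210ccax7b.a2 AFast210ccax7b.a3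
  AFast210ccax7b.a4 AFast210ccax7b.a5 AFast210ccax7b.a6 AFast210ccax7b.a7 AFast210ccax7b.a8
  AFast210ccax7b.a9 AFast210ccax7b.a10 AFast210ccax7b.a11 AFast210ccax7b.a12 AFast210ccax7b.a13
  AFast210ccax7b.a14 AFast210ccax7b.a15 AFast210ccax7b.a16 AFast210ccax7b.a17 AFast210ccax7b.a18
  AFast210ccax7b.a19 AFast210ccax7b.a21 AFast210ccax7b.a22
section

section

/-! Descent: countably many `*`-polynomial relations that can be solved in some central sequence
algebra of a separable `A` can be solved in the central sequence algebra along every filter on `ℕ`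
finer than the cofinite one. -/

open Filter Topology

namespace Vale.Agent.P101

universe u v

namespace Descend

/-- Diagonal choice. -/
lemma exists_seq_tendsto {ι : Type v} (μ : Filter ι) [NeBot μ] (G : ℕ → ι → ℝ)
    (hG : ∀ m, Tendsto (G m) μ (𝓝 0)) :
    ∃ i : ℕ → ι, ∀ m, Tendsto (fun n => G m (i n)) atTop (𝓝 0) := by
  have h : ∀ n : ℕ, ∃ j : ι, ∀ m ∈ Finset.range (n + 1), |G m j| < 1 / ((n : ℝ) + 1) := by
    intro n
    have h1 : ∀ m ∈ Finset.range (n + 1), ∀ᶠ j in μ, |G m j| < 1 / ((n : ℝ) + 1) := by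
      intro m _
      have h2 := (hG m).abs
      rw [abs_zero] at h2
      exact h2.eventually (gt_mem_nhds (by positivity))
    exact ((Finset.eventually_all _).mpr h1).exists
  choose i hi using h
  refine ⟨i, fun m => ?_⟩
  rw [tendsto_zero_iff_abs_tendsto_zero]
  refine squeeze_zero' (Eventually.of_forall fun n => abs_nonneg _) ?_
    tendsto_one_div_add_atTop_nhds_zero_nat
  filter_upwards [eventually_ge_atTop m] with n hn
  exact (hi n m (Finset.mem_range.mpr (by omega))).le

/-- Diagonal choice for a countable index. -/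
lemma exists_seq_tendsto' {ι : Type v} (μ : Filter ι) [NeBot μ] {K : Type*} [Countable K]
    (G : K → ι → ℝ) (hG : ∀ m, Tendsto (G m) μ (𝓝 0)) :
    ∃ i : ℕ → ι, ∀ m, Tendsto (fun n => G m (i n)) atTop (𝓝 0) := by
  rcases isEmpty_or_nonempty K with hK | hK
  · obtain ⟨j⟩ := nonempty_of_neBot μ
    exact ⟨fun _ => j, fun m => (hK.false m).elim⟩
  · obtain ⟨f, hf⟩ := exists_surjective_nat K
    obtain ⟨i, hi⟩ := exists_seq_tendsto μ (fun m => G (f m)) (fun m => hG (f m))
    refine ⟨i, fun m => ?_⟩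
    obtain ⟨k, rfl⟩ := hf m
    exact hi k

variable {A : Type u} [CStarAlgebra A]

/-- Reindexing of functions as an algebra homomorphism. -/
def reindex {ι : Type v} (i : ℕ → ι) : (ι → A) →ₐ[ℂ] (ℕ → A) where
  toFun x := fun n => x (i n)
  map_one' := rfl
  map_mul' _ _ := rfl
  map_zero' := rfl
  map_add' _ _ := rfl
  commutes' _ := rfl

/-- Evaluation of `*`-polynomials. -/
noncomputable def ev {κ : Type*} {B : Type*} [Ring B] [Algebra ℂ B] [Star B] (x : κ → B) :
    FreeAlgebra ℂ (κ ⊕ κ) →ₐ[ℂ] B :=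
  FreeAlgebra.lift ℂ (Sum.elim x (fun k => star (x k)))

@[simp] lemma ev_inl {κ : Type*} {B : Type*} [Ring B] [Algebra ℂ B] [Star B] (x : κ → B) (k : κ) :
    ev x (FreeAlgebra.ι ℂ (Sum.inl k)) = x k := by
  simp [ev]

@[simp] lemma ev_inr {κ : Type*} {B : Type*} [Ring B] [Algebra ℂ B] [Star B] (x : κ → B) (k : κ) :
    ev x (FreeAlgebra.ι ℂ (Sum.inr k)) = star (x k) := by
  simp [ev]

/-- The quotient map. -/
noncomputable def quo (A : Type u) [CStarAlgebra A] {ι : Type v} (μ : Filter ι) :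
    centralSeq A μ →ₐ[ℂ] Fcs A μ :=
  RingCon.mkₐ ℂ (nullCon A μ)

lemma quo_surjective {ι : Type v} (μ : Filter ι) :
    Function.Surjective (quo A μ) := RingCon.mkₐ_surjective (nullCon A μ)

lemma quo_star {ι : Type v} (μ : Filter ι) (x : centralSeq A μ) :
    quo A μ (star x) = star (quo A μ x) := rfl

lemma quo_eq_zero_iff {ι : Type v} (μ : Filter ι) (x : centralSeq A μ) :
    quo A μ x = 0 ↔ Tendsto (fun j => ‖(x : ι → A) j‖) μ (𝓝 0) := by
  rw [← map_zero (quo A μ)]
  have : quo A μ x = quo A μ 0 ↔ nullCon A μ x 0 := (nullCon A μ).eq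
  rw [this]
  change Tendsto (fun i => ‖(x : ι → A) i - ((0 : centralSeq A μ) : ι → A) i‖) μ (𝓝 0) ↔ _
  simp

/-- Descent of countably many relations in countably many variables. -/
theorem descend_poly [TopologicalSpace.SeparableSpace A] {ι : Type v} (μ : Filter ι) [NeBot μ]
    {κ : Type*} [Countable κ] (x : κ → Fcs A μ) {K : Type*} [Countable K]
    (p : K → FreeAlgebra ℂ (κ ⊕ κ)) (hp : ∀ k, ev x (p k) = 0) (ω : Filter ℕ)
    (hω : ω ≤ cofinite) :
    ∃ y : κ → Fcs A ω, ∀ k, ev y (p k) = 0 := by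
  choose X hX using fun k => quo_surjective μ (x k)
  obtain ⟨d, hd⟩ := TopologicalSpace.exists_countable_dense A
  have hdc : Countable d := hd.1.to_subtype
  -- evaluation of lifts
  have hevquo : ∀ q, quo A μ (ev X q) = ev x q := by
    intro q
    have : ((quo A μ).comp (ev X)) = ev x := by
      apply FreeAlgebra.hom_ext
      funext c
      rcases c with k | k
      · simp [hX]
      · simp [quo_star, hX]
    rw [← this]; rfl
  have hzero : ∀ k, Tendsto (fun j => ‖((ev X (p k) : centralSeq A μ) : ι → A) j‖) μ (𝓝 0) := by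
    intro k
    rw [← quo_eq_zero_iff, hevquo]
    exact hp k
  -- the family of functions tending to zero
  let G : (κ × d) ⊕ K → ι → ℝ := Sum.elim
    (fun c j => ‖(X c.1 : ι → A) j * (c.2 : A) - (c.2 : A) * (X c.1 : ι → A) j‖)
    (fun k j => ‖((ev X (p k) : centralSeq A μ) : ι → A) j‖)
  have hG : ∀ m, Tendsto (G m) μ (𝓝 0) := by
    rintro (c | k)
    · exact (X c.1).2.2 c.2
    · exact hzero k
  obtain ⟨i, hi⟩ := exists_seq_tendsto' μ G hG
  have hωt : ω ≤ atTop := by rwa [← Nat.cofinite_eq_atTop]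
  -- commutators
  have hcomm : ∀ (k : κ) (a : A),
      Tendsto (fun n => ‖(X k : ι → A) (i n) * a - a * (X k : ι → A) (i n)‖) atTop (𝓝 0) := by
    intro k a
    obtain ⟨C, hC⟩ := (X k).2.1
    have hC0 : 0 ≤ C := (norm_nonneg _).trans (hC (i 0))
    rw [Metric.tendsto_atTop]
    intro ε hε
    obtain ⟨b, hb, hbd⟩ := Metric.dense_iff.mp hd.2 a (ε / (2 * (2 * C + 1))) (by positivity)
    rw [Metric.mem_ball, dist_eq_norm] at hb
    have hi' : Tendsto (fun n => ‖(X k : ι → A) (i n) * b - b * (X k : ι → A) (i n)‖)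
        atTop (𝓝 0) := hi (Sum.inl (k, ⟨b, hbd⟩))
    obtain ⟨N, hN⟩ := Metric.tendsto_atTop.mp hi' (ε / 2) (by positivity)
    refine ⟨N, fun n hn => ?_⟩
    have h1 := hN n hn
    rw [dist_zero_right, norm_norm] at h1 ⊢
    set z := (X k : ι → A) (i n) with hz
    have hzC : ‖z‖ ≤ C := hC (i n)
    have e : z * a - a * z = (z * b - b * z) + (z * (a - b) - (a - b) * z) := by noncomm_ring
    have hab : ‖a - b‖ < ε / (2 * (2 * C + 1)) := by rwa [norm_sub_rev]
    have h2 : ‖z * (a - b) - (a - b) * z‖ ≤ 2 * C * (ε / (2 * (2 * C + 1))) := by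
      refine (norm_sub_le _ _).trans ?_
      have h3 : ‖z * (a - b)‖ ≤ C * (ε / (2 * (2 * C + 1))) :=
        (norm_mul_le _ _).trans (mul_le_mul hzC hab.le (norm_nonneg _) hC0)
      have h4 : ‖(a - b) * z‖ ≤ (ε / (2 * (2 * C + 1))) * C :=
        (norm_mul_le _ _).trans (mul_le_mul hab.le hzC (norm_nonneg _) (by positivity))
      linarith
    have h5 : 2 * C * (ε / (2 * (2 * C + 1))) < ε / 2 := by
      rw [← sub_pos]
      have : ε / 2 - 2 * C * (ε / (2 * (2 * C + 1))) = ε / (2 * (2 * C + 1)) := by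
        field_simp; ring
      rw [this]; positivity
    rw [e]
    exact (norm_add_le _ _).trans_lt (by linarith)
  let Y : κ → centralSeq A ω := fun k => ⟨fun n => (X k : ι → A) (i n),
    ⟨(X k).2.1.imp fun C hC n => hC (i n), fun a => (hcomm k a).mono_left hωt⟩⟩
  refine ⟨fun k => quo A ω (Y k), fun k => ?_⟩
  -- evaluation commutes with reindexing
  have hev : ∀ q, ((ev Y q : centralSeq A ω) : ℕ → A) =
      reindex i ((ev X q : centralSeq A μ) : ι → A) := by
    intro q
    have : ((centralSeq A ω).subtype.toAlgHom.comp (ev Y)) =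
        (reindex i).comp ((centralSeq A μ).subtype.toAlgHom.comp (ev X)) := by
      apply FreeAlgebra.hom_ext
      funext c
      rcases c with k | k
      · simp [Y]; rfl
      · simp [Y]; rfl
    exact congrArg (fun f => f q) this
  have hquo : ∀ q, ev (fun k => quo A ω (Y k)) q = quo A ω (ev Y q) := by
    intro q
    have : ev (fun k => quo A ω (Y k)) = ((quo A ω).comp (ev Y)) := by
      apply FreeAlgebra.hom_ext
      funext c
      rcases c with k | k
      · simp
      · simp [quo_star]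
    rw [this]; rfl
  rw [hquo, quo_eq_zero_iff]
  have h6 : Tendsto (fun n => ‖((ev X (p k) : centralSeq A μ) : ι → A) (i n)‖) atTop (𝓝 0) :=
    hi (Sum.inr k)
  refine (h6.mono_left hωt).congr fun n => ?_
  rw [hev]; rfl

/-- The variable `k`. -/
noncomputable def va {κ : Type*} (k : κ) : FreeAlgebra ℂ (κ ⊕ κ) := FreeAlgebra.ι ℂ (Sum.inl k)

/-- The adjoint of the variable `k`. -/
noncomputable def vs {κ : Type*} (k : κ) : FreeAlgebra ℂ (κ ⊕ κ) := FreeAlgebra.ι ℂ (Sum.inr k)

@[simp] lemma ev_va {κ : Type*} {B : Type*} [Ring B] [Algebra ℂ B] [Star B] (x : κ → B) (k : κ) :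
    ev x (va k) = x k := by
  simp [va]

@[simp] lemma ev_vs {κ : Type*} {B : Type*} [Ring B] [Algebra ℂ B] [Star B] (x : κ → B) (k : κ) :
    ev x (vs k) = star (x k) := by
  simp [vs]

end Descend

open Descend in
/-- Descent of gluing data. -/
theorem glueData_descend (A : Type u) [CStarAlgebra A] [TopologicalSpace.SeparableSpace A]
    (α γ : Type) [Fintype α] [DecidableEq α] [Countable γ] [DecidableEq γ]
    (ι : Type) (μ : Filter ι) [NeBot μ] (D : GlueData α γ (Fcs A μ)) (ω : Filter ℕ)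
    (hω : ω ≤ Filter.cofinite) : Nonempty (GlueData α γ (Fcs A ω)) := by
  let x : (α ⊕ γ) ⊕ Bool → Fcs A μ :=
    Sum.elim (Sum.elim D.g D.s) (fun k => if k then D.e else D.z)
  let G : α → FreeAlgebra ℂ (((α ⊕ γ) ⊕ Bool) ⊕ ((α ⊕ γ) ⊕ Bool)) := fun k =>
    va (Sum.inl (Sum.inl k))
  let Gs : α → FreeAlgebra ℂ (((α ⊕ γ) ⊕ Bool) ⊕ ((α ⊕ γ) ⊕ Bool)) := fun k =>
    vs (Sum.inl (Sum.inl k))
  let S : γ → FreeAlgebra ℂ (((α ⊕ γ) ⊕ Bool) ⊕ ((α ⊕ γ) ⊕ Bool)) := fun k =>
    va (Sum.inl (Sum.inr k))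
  let Ss : γ → FreeAlgebra ℂ (((α ⊕ γ) ⊕ Bool) ⊕ ((α ⊕ γ) ⊕ Bool)) := fun k =>
    vs (Sum.inl (Sum.inr k))
  let e : FreeAlgebra ℂ (((α ⊕ γ) ⊕ Bool) ⊕ ((α ⊕ γ) ⊕ Bool)) := va (Sum.inr true)
  let z : FreeAlgebra ℂ (((α ⊕ γ) ⊕ Bool) ⊕ ((α ⊕ γ) ⊕ Bool)) := va (Sum.inr false)
  let p : ((α × α) ⊕ (γ × γ)) ⊕ (α ⊕ γ) ⊕ Unit →
      FreeAlgebra ℂ (((α ⊕ γ) ⊕ Bool) ⊕ ((α ⊕ γ) ⊕ Bool)) :=
    Sum.elim (Sum.elim
      (fun kl => Gs kl.1 * G kl.2 - if kl.1 = kl.2 then e else 0)
      (fun ab => Ss ab.1 * S ab.2 - if ab.1 = ab.2 then z else 0))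
      (Sum.elim (Sum.elim (fun k => G k * z - z * G k) (fun a => e * S a - S a))
      (fun _ => ∑ k, G k * Gs k - (1 - z)))
  obtain ⟨y, hy⟩ := descend_poly μ x p (by
    rintro ((⟨k, l⟩ | ⟨a, b⟩) | ((k | a) | ⟨⟩))
    · simp only [p, Sum.elim_inl, G, Gs, e, map_sub, map_mul, ev_va, ev_vs, x]
      rw [D.gg k l]
      split_ifs <;> simp
    · simp only [p, Sum.elim_inl, Sum.elim_inr, S, Ss, z, map_sub, map_mul, ev_va, ev_vs, x]
      rw [D.ss a b]
      split_ifs <;> simp
    · simp only [p, Sum.elim_inl, Sum.elim_inr, G, z, map_sub, map_mul, ev_va, x]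
      simpa using sub_eq_zero.mpr (D.gz k).eq
    · simp only [p, Sum.elim_inl, Sum.elim_inr, S, e, map_sub, map_mul, ev_va, x]
      simpa using sub_eq_zero.mpr (D.es a)
    · simp only [p, Sum.elim_inl, Sum.elim_inr, G, Gs, z, map_sub, map_mul, map_sum, map_one,
        ev_va, ev_vs, x]
      simpa using sub_eq_zero.mpr D.sum_eq) ω hω
  refine ⟨⟨fun k => y (Sum.inl (Sum.inl k)), y (Sum.inr true), y (Sum.inr false),
    fun a => y (Sum.inl (Sum.inr a)), ?_, ?_, ?_, ?_, ?_⟩⟩
  · intro k l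
    have h := hy (Sum.inl (Sum.inl (k, l)))
    simp only [p, Sum.elim_inl, G, Gs, e, map_sub, map_mul, ev_va, ev_vs] at h
    rw [sub_eq_zero.mp h]
    split_ifs <;> simp
  · have h := hy (Sum.inr (Sum.inr ()))
    simp only [p, Sum.elim_inr, G, Gs, z, map_sub, map_mul, map_sum, map_one, ev_va, ev_vs] at h
    exact sub_eq_zero.mp h
  · intro k
    have h := hy (Sum.inr (Sum.inl (Sum.inl k)))
    simp only [p, Sum.elim_inl, Sum.elim_inr, G, z, map_sub, map_mul, ev_va] at h
    exact sub_eq_zero.mp h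
  · intro a b
    have h := hy (Sum.inl (Sum.inr (a, b)))
    simp only [p, Sum.elim_inl, Sum.elim_inr, S, Ss, z, map_sub, map_mul, ev_va, ev_vs] at h
    rw [sub_eq_zero.mp h]
    split_ifs <;> simp
  · intro a
    have h := hy (Sum.inr (Sum.inl (Sum.inr a)))
    simp only [p, Sum.elim_inl, Sum.elim_inr, S, e, map_sub, map_mul, ev_va] at h
    exact sub_eq_zero.mp h

end Vale.Agent.P101
end
end

section

section

/-! General version of step 7: `l` modes. -/

open scoped BigOperators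

namespace Vale.Agent.P101

universe u v

namespace Tower

variable {G : Type v} [Ring G] [StarRing G] (T : Tower G)

/-- `Y` commutes with all `V`, `P` of the tower and their adjoints. -/
structure Mode (T : Tower G) (Y : G) : Prop where
  V : ∀ k, Commute Y (T.V k)
  Vs : ∀ k, Commute Y (star (T.V k))
  P : ∀ k, Commute Y (T.P k)
  Ps : ∀ k, Commute Y (star (T.P k))

namespace Mode

variable {T} {Y Z : G}

theorem star_ (h : T.Mode Y) : T.Mode (star Y) where
  V k := by simpa using (h.Vs k).star_star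
  Vs k := (h.V k).star_star
  P k := by simpa using (h.Ps k).star_star
  Ps k := (h.P k).star_star

theorem mul (h : T.Mode Y) (h' : T.Mode Z) : T.Mode (Y * Z) where
  V k := (h.V k).mul_left (h'.V k)
  Vs k := (h.Vs k).mul_left (h'.Vs k)
  P k := (h.P k).mul_left (h'.P k)
  Ps k := (h.Ps k).mul_left (h'.Ps k)

theorem add (h : T.Mode Y) (h' : T.Mode Z) : T.Mode (Y + Z) where
  V k := (h.V k).add_left (h'.V k)
  Vs k := (h.Vs k).add_left (h'.Vs k)
  P k := (h.P k).add_left (h'.P k)
  Ps k := (h.Ps k).add_left (h'.Ps k)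

theorem one : T.Mode 1 where
  V _ := Commute.one_left _
  Vs _ := Commute.one_left _
  P _ := Commute.one_left _
  Ps _ := Commute.one_left _

theorem zero : T.Mode 0 where
  V _ := Commute.zero_left _
  Vs _ := Commute.zero_left _
  P _ := Commute.zero_left _
  Ps _ := Commute.zero_left _

theorem A (h : T.Mode Y) (k : ℕ) : Commute Y (T.A k) := T.commute_A_of h.P h.V k

theorem Q (h : T.Mode Y) (k : ℕ) : Commute Y (T.Q k) := T.commute_Q_of h.P k

theorem As (h : T.Mode Y) (k : ℕ) : Commute Y (star (T.A k)) := by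
  simpa using (h.star_.A k).star_star

theorem Qs (h : T.Mode Y) (k : ℕ) : Commute Y (star (T.Q k)) := by
  simpa using (h.star_.Q k).star_star

theorem BB (h : T.Mode Y) (k : ℕ) : Commute Y (T.B k * T.B k) := by
  rw [← T.QsQ k]
  exact (h.Qs k).mul_right (h.Q k)

end Mode

theorem mode_B (k : ℕ) : T.Mode (T.B k) where
  V i := T.BV k i
  Vs i := by
    have := (T.BV k i).star_star
    rwa [B_sa] at this
  P i := T.BP k i
  Ps i := by
    have := (T.BP k i).star_star
    rwa [B_sa] at this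

/-- key computation of step 7 with a spectator `Y` -/
theorem EYE (k n : ℕ) (h : k < n) {Y : G} (hY : T.Mode Y) :
    T.E k * ((star (T.A n) * T.A n) * Y) * T.E k
      = (star (T.A k) * T.A k + T.B k * T.B k) * (T.E k * Y * T.E k) := by
  have x1 : ∀ Y : G, T.Mode Y → star (T.A k * T.E k) * Y * (T.Q k * T.V k * T.E k) = 0 := by
    intro Y hY
    have cEs := (T.commAs k k le_rfl _ (T.hE k)).eq
    have cQE' := (T.commQ k k le_rfl _ (T.hE k)).eq
    calc star (T.A k * T.E k) * Y * (T.Q k * T.V k * T.E k)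
        = (T.E k * star (T.A k)) * (Y * (T.Q k * T.V k)) * T.E k := by
          rw [star_mul, T.E_sa]; simp only [mul_assoc]
      _ = (star (T.A k) * T.E k) * ((T.Q k * T.V k) * Y) * T.E k := by
          rw [cEs, ((hY.Q k).mul_right (hY.V k)).eq]
      _ = star (T.A k) * (T.E k * T.Q k) * (T.V k * Y) * T.E k := by simp only [mul_assoc]
      _ = star (T.A k) * (T.Q k * T.E k) * (T.V k * Y) * T.E k := by rw [cQE']
      _ = star (T.A k) * T.Q k * (T.E k * T.V k) * Y * T.E k := by simp only [mul_assoc]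
      _ = 0 := by rw [T.EV]; simp
  have x2 : star (T.Q k * T.V k * T.E k) * Y * (T.A k * T.E k) = 0 := by
    have := congrArg star (x1 _ hY.star_)
    simpa [star_mul, mul_assoc] using this
  have d1 : star (T.A k * T.E k) * Y * (T.A k * T.E k)
      = star (T.A k) * T.A k * (T.E k * Y * T.E k) := by
    have cEs := (T.commAs k k le_rfl _ (T.hE k)).eq
    have cE := (T.commA k k le_rfl _ (T.hE k)).eq
    calc star (T.A k * T.E k) * Y * (T.A k * T.E k)
        = (T.E k * star (T.A k)) * (Y * T.A k) * T.E k := by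
          rw [star_mul, T.E_sa]; simp only [mul_assoc]
      _ = (star (T.A k) * T.E k) * (T.A k * Y) * T.E k := by rw [cEs, (hY.A k).eq]
      _ = star (T.A k) * (T.E k * T.A k) * Y * T.E k := by simp only [mul_assoc]
      _ = star (T.A k) * (T.A k * T.E k) * Y * T.E k := by rw [cE]
      _ = _ := by simp only [mul_assoc]
  have d2 : star (T.Q k * T.V k * T.E k) * Y * (T.Q k * T.V k * T.E k)
      = T.B k * T.B k * (T.E k * Y * T.E k) := by
    have c1 : Commute (T.B k * T.B k) (star (T.V k)) :=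
      (T.commB k k le_rfl _ (T.star_mem k _ (T.hV k))).mul_left
        (T.commB k k le_rfl _ (T.star_mem k _ (T.hV k)))
    have c2 : Commute (T.B k * T.B k) (T.E k * Y) :=
      ((T.commB k k le_rfl _ (T.hE k)).mul_left (T.commB k k le_rfl _ (T.hE k))).mul_right
        (hY.BB k).symm
    have c3 : Commute (star (T.V k) * star (T.Q k)) Y := ((hY.Vs k).mul_right (hY.Qs k)).symm
    calc star (T.Q k * T.V k * T.E k) * Y * (T.Q k * T.V k * T.E k)
        = T.E k * ((star (T.V k) * star (T.Q k)) * Y) * T.Q k * T.V k * T.E k := by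
          rw [star_mul, star_mul, T.E_sa]; simp only [mul_assoc]
      _ = T.E k * Y * (star (T.V k) * (star (T.Q k) * T.Q k)) * T.V k * T.E k := by
          rw [c3.eq]; simp only [mul_assoc]
      _ = T.E k * Y * ((T.B k * T.B k) * star (T.V k)) * T.V k * T.E k := by
          rw [T.QsQ, c1.eq]
      _ = (T.E k * Y * (T.B k * T.B k)) * (star (T.V k) * T.V k * T.E k) := by
          simp only [mul_assoc]
      _ = (T.B k * T.B k * (T.E k * Y)) * T.E k := by rw [← c2.eq, T.VE]
      _ = _ := by simp only [mul_assoc]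
  have cY : Commute (T.A n) Y := (hY.A n).symm
  calc T.E k * ((star (T.A n) * T.A n) * Y) * T.E k
      = T.E k * (star (T.A n) * (T.A n * Y)) * T.E k := by simp only [mul_assoc]
    _ = star (T.A n * T.E k) * Y * (T.A n * T.E k) := by
        rw [cY.eq, star_mul, T.E_sa]; simp only [mul_assoc]
    _ = star (T.A k * T.E k) * Y * (T.A k * T.E k)
        + star (T.A k * T.E k) * Y * (T.Q k * T.V k * T.E k)
        + star (T.Q k * T.V k * T.E k) * Y * (T.A k * T.E k)
        + star (T.Q k * T.V k * T.E k) * Y * (T.Q k * T.V k * T.E k) := by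
        rw [T.AE k n h, star_add, add_mul, add_mul, mul_add, mul_add]; abel
    _ = _ := by rw [x1 _ hY, x2, d1, d2]; noncomm_ring

end Tower

/-- Several towers with common `β`, `E` whose modes commute. -/
structure MTower (l : ℕ) (G : Type v) [Ring G] [StarRing G] where
  T : Fin l → Tower G
  i0 : Fin l
  hβ : ∀ i k, (T i).β k = (T i0).β k
  hE : ∀ i k, (T i).E k = (T i0).E k
  hleg : ∀ i k, (T i).leg k = (T i0).leg k
  cV : ∀ i j, i ≠ j → ∀ k, (T i).Mode ((T j).V k)
  cP : ∀ i j, i ≠ j → ∀ k, (T i).Mode ((T j).P k)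

namespace MTower

variable {l : ℕ} {G : Type v} [Ring G] [StarRing G] (M : MTower l G)

theorem hB (i : Fin l) (k : ℕ) : (M.T i).B k = (M.T M.i0).B k := by
  induction k with
  | zero => rfl
  | succ k ih => rw [Tower.B_succ, Tower.B_succ, ih, M.hβ]

theorem mode_Q (i j : Fin l) (h : i ≠ j) (k : ℕ) : (M.T i).Mode ((M.T j).Q k) := by
  induction k with
  | zero => exact Tower.Mode.one
  | succ k ih => exact ih.mul (M.cP i j h k)

theorem mode_A (i j : Fin l) (h : i ≠ j) (k : ℕ) : (M.T i).Mode ((M.T j).A k) := by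
  induction k with
  | zero => exact Tower.Mode.zero
  | succ k ih => exact ih.add ((M.mode_Q i j h k).mul (M.cV i j h k))

theorem mode_As (i j : Fin l) (h : i ≠ j) (k : ℕ) : (M.T i).Mode (star ((M.T j).A k)) :=
  (M.mode_A i j h k).star_

theorem mode_B (i : Fin l) (k : ℕ) : (M.T i).Mode ((M.T M.i0).B k) := by
  rw [← M.hB i k]
  exact (M.T i).mode_B k

/-- the product of the `A n` over a list of modes -/
def Qs (n : ℕ) (ls : List (Fin l)) : G := (ls.map fun i => (M.T i).A n).prod

/-- the building blocks of the lower bound -/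
def C (κ : ℕ) (i : Fin l) : G :=
  star ((M.T i).A κ) * (M.T i).A κ + (M.T M.i0).B κ * (M.T M.i0).B κ

/-- the product of the `C κ i` over a list of modes -/
def R (κ : ℕ) (ls : List (Fin l)) : G := (ls.map fun i => M.C κ i).prod

@[simp] theorem Qs_nil (n : ℕ) : M.Qs n [] = 1 := rfl
@[simp] theorem R_nil (n : ℕ) : M.R n [] = 1 := rfl
theorem Qs_cons (n : ℕ) (i : Fin l) (ls : List (Fin l)) :
    M.Qs n (i :: ls) = (M.T i).A n * M.Qs n ls := by simp [Qs]
theorem R_cons (n : ℕ) (i : Fin l) (ls : List (Fin l)) :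
    M.R n (i :: ls) = M.C n i * M.R n ls := by simp [R]

theorem mode_Qs (n : ℕ) (i : Fin l) (ls : List (Fin l)) (h : i ∉ ls) :
    (M.T i).Mode (M.Qs n ls) := by
  induction ls with
  | nil => exact Tower.Mode.one
  | cons j ls ih =>
    rw [Qs_cons]
    simp only [List.mem_cons, not_or] at h
    exact (M.mode_A i j h.1 n).mul (ih h.2)

theorem mode_C (n : ℕ) (i j : Fin l) (h : i ≠ j) : (M.T i).Mode (M.C n j) :=
  ((M.mode_As i j h n).mul (M.mode_A i j h n)).add ((M.mode_B i n).mul (M.mode_B i n))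

theorem mode_R (n : ℕ) (i : Fin l) (ls : List (Fin l)) (h : i ∉ ls) :
    (M.T i).Mode (M.R n ls) := by
  induction ls with
  | nil => exact Tower.Mode.one
  | cons j ls ih =>
    rw [R_cons]
    simp only [List.mem_cons, not_or] at h
    exact (M.mode_C n i j h.1).mul (ih h.2)

theorem E_Qs (κ n : ℕ) (hκ : κ < n) (ls : List (Fin l)) (hls : ls.Nodup) :
    (M.T M.i0).E κ * (star (M.Qs n ls) * M.Qs n ls) * (M.T M.i0).E κ
      = M.R κ ls * ((M.T M.i0).E κ * (M.T M.i0).E κ) := by
  induction ls with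
  | nil => simp
  | cons i ls ih =>
    rw [List.nodup_cons] at hls
    have hm := M.mode_Qs n i ls hls.1
    have c : Commute (star (M.Qs n ls)) (star ((M.T i).A n) * (M.T i).A n) :=
      (hm.star_.As n).mul_right (hm.star_.A n)
    have e : star (M.Qs n (i :: ls)) * M.Qs n (i :: ls)
        = (star ((M.T i).A n) * (M.T i).A n) * (star (M.Qs n ls) * M.Qs n ls) := by
      rw [Qs_cons, star_mul]
      calc star (M.Qs n ls) * star ((M.T i).A n) * ((M.T i).A n * M.Qs n ls)
          = (star (M.Qs n ls) * (star ((M.T i).A n) * (M.T i).A n)) * M.Qs n ls := by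
            simp only [mul_assoc]
        _ = _ := by rw [c.eq]; simp only [mul_assoc]
    rw [e, ← M.hE i κ, (M.T i).EYE κ n hκ (hm.star_.mul hm), M.hE i κ, ih hls.2, R_cons, C,
      M.hB i κ]
    simp only [mul_assoc]

theorem commute_R_of {x : G} (κ : ℕ) (hA : ∀ i, Commute x ((M.T i).A κ))
    (hAs : ∀ i, Commute x (star ((M.T i).A κ))) (hB : Commute x ((M.T M.i0).B κ))
    (ls : List (Fin l)) : Commute x (M.R κ ls) := by
  induction ls with
  | nil => exact Commute.one_right _
  | cons j ls ih =>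
    rw [R_cons]
    exact (((hAs j).mul_right (hA j)).add_right (hB.mul_right hB)).mul_right ih

theorem commute_Qs_of {x : G} (n : ℕ) (hA : ∀ i, Commute x ((M.T i).A n))
    (ls : List (Fin l)) : Commute x (M.Qs n ls) := by
  induction ls with
  | nil => exact Commute.one_right _
  | cons j ls ih =>
    rw [Qs_cons]
    exact (hA j).mul_right ih

theorem B_A (k n : ℕ) (i : Fin l) : Commute ((M.T M.i0).B k) ((M.T i).A n) := by
  rw [← M.hB i k]; exact (M.T i).BA k n

theorem B_As (k n : ℕ) (i : Fin l) : Commute ((M.T M.i0).B k) (star ((M.T i).A n)) := by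
  rw [← M.hB i k]; exact (M.T i).BAs k n

theorem β_A (k n : ℕ) (i : Fin l) : Commute ((M.T M.i0).β k) ((M.T i).A n) := by
  rw [← M.hβ i k]; exact (M.T i).βA k n

theorem β_As (k n : ℕ) (i : Fin l) : Commute ((M.T M.i0).β k) (star ((M.T i).A n)) := by
  rw [← M.hβ i k]; exact (M.T i).βAs k n

theorem commB (k j : ℕ) (h : k ≤ j) (y : G) (hy : y ∈ (M.T M.i0).leg j) :
    Commute ((M.T M.i0).B k) y := (M.T M.i0).commB k j h y hy

theorem commA (i : Fin l) (k j : ℕ) (h : k ≤ j) (y : G) (hy : y ∈ (M.T M.i0).leg j) :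
    Commute ((M.T i).A k) y := (M.T i).commA k j h y (by rw [M.hleg]; exact hy)

theorem commAs (i : Fin l) (k j : ℕ) (h : k ≤ j) (y : G) (hy : y ∈ (M.T M.i0).leg j) :
    Commute (star ((M.T i).A k)) y := (M.T i).commAs k j h y (by rw [M.hleg]; exact hy)

section

variable {M} {N n : ℕ} (X : Tower.Extra (M.T M.i0) N n)

/-- The extra legs commute with every mode. -/
def ExComm : Prop := ∀ i, ∀ x ∈ X.ex, (M.T i).Mode x

theorem ExComm.commA (h : ExComm X) {x : G} (hx : x ∈ X.ex) (i : Fin l) (k : ℕ) :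
    Commute x ((M.T i).A k) := (h i x hx).A k

theorem ExComm.commAs (h : ExComm X) {x : G} (hx : x ∈ X.ex) (i : Fin l) (k : ℕ) :
    Commute x (star ((M.T i).A k)) := (h i x hx).As k

end

section Order

variable [PartialOrder G] [StarOrderedRing G]

theorem pow_mul_self_nonneg {b : G} (hb : star b = b) (m : ℕ) : 0 ≤ (b * b) ^ m := by
  have : (b * b) ^ m = star (b ^ m) * b ^ m := by
    rw [star_pow, hb, (Commute.refl b).mul_pow]
  rw [this]
  exact star_mul_self_nonneg _

theorem R_ge (κ : ℕ) (ls : List (Fin l)) (hls : ls.Nodup) :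
    ((M.T M.i0).B κ * (M.T M.i0).B κ) ^ ls.length ≤ M.R κ ls := by
  have hb := (M.T M.i0).B_sa κ
  induction ls with
  | nil => simp
  | cons i ls ih =>
    rw [List.nodup_cons] at hls
    have ih' := ih hls.2
    have hR0 : 0 ≤ M.R κ ls := (pow_mul_self_nonneg hb _).trans ih'
    have c1 := ((M.mode_R κ i ls hls.1).A κ).eq
    have c2 : Commute ((M.T M.i0).B κ)
        (M.R κ ls - ((M.T M.i0).B κ * (M.T M.i0).B κ) ^ ls.length) :=
      (M.commute_R_of κ (fun i => M.B_A κ κ i) (fun i => M.B_As κ κ i) (Commute.refl _)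
        ls).sub_right (((Commute.refl _).mul_right (Commute.refl _)).pow_right _)
    rw [List.length_cons, R_cons, ← sub_nonneg, C]
    have e : (star ((M.T i).A κ) * (M.T i).A κ + (M.T M.i0).B κ * (M.T M.i0).B κ) * M.R κ ls
        - ((M.T M.i0).B κ * (M.T M.i0).B κ) ^ (ls.length + 1)
        = star ((M.T i).A κ) * M.R κ ls * (M.T i).A κ
          + star ((M.T M.i0).B κ) *
            (M.R κ ls - ((M.T M.i0).B κ * (M.T M.i0).B κ) ^ ls.length) * (M.T M.i0).B κ := by
      rw [mul_assoc (star ((M.T i).A κ)) (M.R κ ls), c1,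
        mul_assoc (star ((M.T M.i0).B κ)), ← c2.eq, hb, pow_succ']
      noncomm_ring
    rw [e]
    exact add_nonneg (star_left_conjugate_nonneg hR0 _)
      (star_left_conjugate_nonneg (sub_nonneg.2 ih') _)

theorem pow_le_pow_of_commute {b c : G} (hb : star b = b) (hc : star c = c) (hbc : Commute b c)
    (h : b * b ≤ c * c) (m : ℕ) : (b * b) ^ m ≤ (c * c) ^ m := by
  induction m with
  | zero => simp
  | succ m ih =>
    rw [← sub_nonneg]
    have c1 : Commute (c ^ m) (c * c - b * b) :=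
      ((Commute.refl c).mul_right (Commute.refl c)).pow_left m |>.sub_right
        ((hbc.symm.mul_right hbc.symm).pow_left m)
    have c2 : Commute b ((c * c) ^ m - (b * b) ^ m) :=
      ((hbc.mul_right hbc).pow_right m).sub_right
        (((Commute.refl b).mul_right (Commute.refl b)).pow_right m)
    have e : (c * c) ^ (m + 1) - (b * b) ^ (m + 1)
        = star (c ^ m) * (c * c - b * b) * c ^ m
          + star b * ((c * c) ^ m - (b * b) ^ m) * b := by
      rw [star_pow, hc, hb, mul_assoc (c ^ m), ← c1.eq, ← mul_assoc (c ^ m),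
        c2.eq, ← (Commute.refl c).mul_pow, pow_succ, pow_succ]
      noncomm_ring
    rw [e]
    exact add_nonneg (star_left_conjugate_nonneg (sub_nonneg.2 h) _)
      (star_left_conjugate_nonneg (sub_nonneg.2 ih) _)

variable {M} {N n : ℕ} (X : Tower.Extra (M.T M.i0) N n)

theorem le_main (hex : ExComm X) :
    (M.T M.i0).B n ^ (2 * (l + 1)) ≤
      star X.S * (star (M.Qs n (List.finRange l)) * M.Qs n (List.finRange l)) * X.S := by
  have cQ : ∀ x : G, (∀ i, Commute x ((M.T i).A n)) → (∀ i, Commute x (star ((M.T i).A n))) →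
      Commute x (star (M.Qs n (List.finRange l)) * M.Qs n (List.finRange l)) := by
    intro x h1 h2
    refine Commute.mul_right ?_ (M.commute_Qs_of n h1 _)
    have h3 : ∀ i, Commute (star x) ((M.T i).A n) := fun i => by
      simpa using (h2 i).star_star
    simpa using (M.commute_Qs_of n h3 (List.finRange l)).star_star
  have h := X.SYS (Y := star (M.Qs n (List.finRange l)) * M.Qs n (List.finRange l))
    (fun x hx => cQ x (fun i => hex.commA X hx i n) (fun i => hex.commAs X hx i n))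
    (fun k => cQ _ (fun i => M.β_A k n i) (fun i => M.β_As k n i))
  rw [h]
  have e : ∀ κ : Fin n, ((M.T M.i0).B n * (∑ r, star (X.d κ r) * ((M.T M.i0).E κ *
      (star (M.Qs n (List.finRange l)) * M.Qs n (List.finRange l)) * (M.T M.i0).E κ)
      * X.d κ r) * (M.T M.i0).B n)
      = (M.T M.i0).B n * M.R κ (List.finRange l) * (M.T M.i0).B n := by
    intro κ
    have c : ∀ r, Commute (star (X.d κ r)) (M.R κ (List.finRange l)) := fun r =>
      M.commute_R_of κ
        (fun i => (M.commA i κ κ le_rfl _ ((M.T M.i0).star_mem κ _ (X.d_mem κ r))).symm)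
        (fun i => (M.commAs i κ κ le_rfl _ ((M.T M.i0).star_mem κ _ (X.d_mem κ r))).symm)
        (M.commB κ κ le_rfl _ ((M.T M.i0).star_mem κ _ (X.d_mem κ r))).symm _
    have e3 : ∑ r, star (X.d κ r) * ((M.T M.i0).E κ *
        (star (M.Qs n (List.finRange l)) * M.Qs n (List.finRange l)) * (M.T M.i0).E κ) * X.d κ r
        = M.R κ (List.finRange l) := by
      calc ∑ r, star (X.d κ r) * ((M.T M.i0).E κ *
            (star (M.Qs n (List.finRange l)) * M.Qs n (List.finRange l)) * (M.T M.i0).E κ)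
              * X.d κ r
          = ∑ r, M.R κ (List.finRange l) *
              (star (X.d κ r) * ((M.T M.i0).E κ * (M.T M.i0).E κ) * X.d κ r) := by
            refine Finset.sum_congr rfl fun r _ => ?_
            rw [M.E_Qs κ n κ.2 _ (List.nodup_finRange l), ← mul_assoc, (c r).eq]
            simp only [mul_assoc]
        _ = _ := by rw [← Finset.mul_sum, X.d_sum κ κ.2, mul_one]
    rw [e3]
  rw [Finset.sum_congr rfl fun κ _ => by rw [e κ]]
  have e4 : (M.T M.i0).B n ^ (2 * (l + 1)) = ∑ κ, (star (X.h κ) * (star X.τ * X.τ) * X.h κ) *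
      ((M.T M.i0).B n ^ (2 * (l + 1))) := by
    rw [← Finset.sum_mul, X.h_sum, one_mul]
  rw [e4]
  refine Finset.sum_le_sum fun κ _ => ?_
  rw [← sub_nonneg, ← mul_sub]
  have hb := (M.T M.i0).B_sa n
  have hpow : (M.T M.i0).B n ^ (2 * (l + 1))
      = (M.T M.i0).B n * ((M.T M.i0).B n * (M.T M.i0).B n) ^ l * (M.T M.i0).B n := by
    rw [← pow_two, ← pow_mul, ← pow_succ', ← pow_succ]
    congr 1
  have e5 : (M.T M.i0).B n * M.R κ (List.finRange l) * (M.T M.i0).B n
      - (M.T M.i0).B n ^ (2 * (l + 1))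
      = star ((M.T M.i0).B n) * (M.R κ (List.finRange l)
        - ((M.T M.i0).B n * (M.T M.i0).B n) ^ l) * (M.T M.i0).B n := by
    rw [hb, hpow]; noncomm_ring
  have hRge : ((M.T M.i0).B n * (M.T M.i0).B n) ^ l ≤ M.R κ (List.finRange l) := by
    have h1 := M.R_ge κ (List.finRange l) (List.nodup_finRange l)
    rw [List.length_finRange] at h1
    refine le_trans ?_ h1
    refine pow_le_pow_of_commute hb ((M.T M.i0).B_sa κ) ?_ ((M.T M.i0).B_anti κ n κ.2.le) l
    exact Tower.commute_B_of (fun k => by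
      refine Commute.symm (Tower.commute_B_of (fun j => ?_) n)
      by_cases hkj : k = j
      · subst hkj; exact Commute.refl _
      · exact (M.T M.i0).comm k j hkj _ ((M.T M.i0).hβ k) _ ((M.T M.i0).hβ j)) κ
  have h5 : 0 ≤ (M.T M.i0).B n * M.R κ (List.finRange l) * (M.T M.i0).B n
      - (M.T M.i0).B n ^ (2 * (l + 1)) := by
    rw [e5]
    exact star_left_conjugate_nonneg (sub_nonneg.2 hRge) _
  have c6 : ∀ x ∈ X.ex, Commute x
      ((M.T M.i0).B n * M.R κ (List.finRange l) * (M.T M.i0).B n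
        - (M.T M.i0).B n ^ (2 * (l + 1))) := fun x hx =>
    (((X.commB hx n).mul_right (M.commute_R_of κ (fun i => hex.commA X hx i κ)
      (fun i => hex.commAs X hx i κ) (X.commB hx κ) _)).mul_right (X.commB hx n)).sub_right
      ((X.commB hx n).pow_right _)
  have e7 : star (X.h κ) * (star X.τ * X.τ) * X.h κ *
      ((M.T M.i0).B n * M.R κ (List.finRange l) * (M.T M.i0).B n
        - (M.T M.i0).B n ^ (2 * (l + 1)))
      = star (X.τ * X.h κ) *
      ((M.T M.i0).B n * M.R κ (List.finRange l) * (M.T M.i0).B n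
        - (M.T M.i0).B n ^ (2 * (l + 1))) * (X.τ * X.h κ) := by
    rw [mul_assoc (star (X.τ * X.h κ)), ← ((c6 _ X.hτ).mul_left (c6 _ (X.hh κ))).eq, star_mul]
    simp only [mul_assoc]
  rw [e7]
  exact star_left_conjugate_nonneg h5 _

/-- The output of the general step 7 from a tower with extra legs. -/
noncomputable def absData (hex : ExComm X) : ModeAbsData l G where
  w i := (M.T i).A n
  Q := M.Qs n (List.finRange l)
  S := X.S
  b := (M.T M.i0).B n
  b_sa := (M.T M.i0).B_sa n
  ww i := (M.T i).AA n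
  sum_eq i := by rw [← M.hB i n]; exact (M.T i).AsA_add n
  comm i j h := ((M.mode_A i j h n).A n).symm
  comms i j h := ((M.mode_As i j h n).A n).symm
  bw i := M.B_A n n i
  Q_eq := by rw [List.ofFn_eq_map]; rfl
  bS := X.bS
  le := le_main X hex

end Order

end MTower

section Final

variable {F : Type u} {G : Type v} [CStarAlgebra F] [CStarAlgebra G]

/-- `V i`, `P i` of one mode as leg data. -/
def ModeData.toLegData {l : ℕ} (D : ModeData l F) (i : Fin l) : LegData F where
  V := D.V i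
  P := D.P i
  β := D.β
  E := D.E
  N := D.N
  d := D.d
  β_sa := D.β_sa
  E_sa := D.E_sa
  VV := D.VV i
  VP := D.VP i
  VsP := D.VsP i
  PsP := D.PsP i
  PPs := D.PPs i
  VsV := D.VsV i
  βV := D.βV i
  βP := D.βP i
  Eβ := D.Eβ
  EV := D.EV i
  VE := D.VE i
  full := D.full

theorem towerOf_commute {n : ℕ} (σ : Fin n → F →⋆ₐ[ℂ] G)
    (hσ : ∀ i j, i ≠ j → ∀ x y, Commute (σ i x) (σ j y)) (k k' : ℕ) (x y : F) (c c' : G)
    (hc : c = 0 ∨ c = 1) (hc' : c' = 0 ∨ c' = 1) (hxy : Commute x y) :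
    Commute (if h : k < n then σ ⟨k, h⟩ x else c) (if h : k' < n then σ ⟨k', h⟩ y else c') := by
  have hc1 : ∀ z, Commute c z := fun z => by
    rcases hc with rfl | rfl
    · exact Commute.zero_left _
    · exact Commute.one_left _
  have hc2 : ∀ z, Commute z c' := fun z => by
    rcases hc' with rfl | rfl
    · exact Commute.zero_right _
    · exact Commute.one_right _
  by_cases h : k < n
  · by_cases h' : k' < n
    · simp only [h, h', dif_pos]
      by_cases hk : k = k'
      · subst hk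
        exact hxy.map (σ ⟨k, h⟩)
      · exact hσ _ _ (by simpa using hk) x y
    · simp only [h', dif_neg, not_false_eq_true]
      exact hc2 _
  · simp only [h, dif_neg, not_false_eq_true]
    exact hc1 _

theorem star_dite' {n : ℕ} (σ : Fin n → F →⋆ₐ[ℂ] G) (k : ℕ) (x : F) (c : G) (hc : star c = c) :
    star (if h : k < n then σ ⟨k, h⟩ x else c) = if h : k < n then σ ⟨k, h⟩ (star x) else c := by
  by_cases h : k < n
  · simp [h, map_star]
  · simp [h, hc]

/-- All the towers together. -/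
noncomputable def mtowerOf {l : ℕ} (i0 : Fin l) (D : ModeData l F) {n : ℕ}
    (σ : Fin n → F →⋆ₐ[ℂ] G)
    (hσ : ∀ i j, i ≠ j → ∀ x y, Commute (σ i x) (σ j y)) : MTower l G where
  T i := towerOf (D.toLegData i) σ hσ
  i0 := i0
  hβ _ _ := rfl
  hE _ _ := rfl
  hleg _ _ := rfl
  cV i j h k :=
    { V := fun k' => towerOf_commute σ hσ k k' _ _ _ _ (Or.inl rfl) (Or.inl rfl)
        (D.cVV j i h.symm)
      Vs := fun k' => by
        have e := star_dite' σ k' (D.V i) 0 (star_zero _)
        change Commute _ (star (if h : k' < n then σ ⟨k', h⟩ (D.V i) else 0))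
        rw [e]
        exact towerOf_commute σ hσ k k' _ _ _ _ (Or.inl rfl) (Or.inl rfl)
          (D.cVVs j i h.symm)
      P := fun k' => towerOf_commute σ hσ k k' _ _ _ _ (Or.inl rfl) (Or.inr rfl)
        (D.cVP j i h.symm)
      Ps := fun k' => by
        have e := star_dite' σ k' (D.P i) 1 (star_one _)
        change Commute _ (star (if h : k' < n then σ ⟨k', h⟩ (D.P i) else 1))
        rw [e]
        exact towerOf_commute σ hσ k k' _ _ _ _ (Or.inl rfl) (Or.inr rfl)
          (D.cVPs j i h.symm) }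
  cP i j h k :=
    { V := fun k' => towerOf_commute σ hσ k k' _ _ _ _ (Or.inr rfl) (Or.inl rfl)
        (D.cVP i j h).symm
      Vs := fun k' => by
        have e := star_dite' σ k' (D.V i) 0 (star_zero _)
        change Commute _ (star (if h : k' < n then σ ⟨k', h⟩ (D.V i) else 0))
        rw [e]
        refine towerOf_commute σ hσ k k' _ _ _ _ (Or.inr rfl) (Or.inl rfl) ?_
        have := (D.cVPs i j h).star_star
        change Commute (D.P j) (star (D.V i))
        simpa using this.symm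
      P := fun k' => towerOf_commute σ hσ k k' _ _ _ _ (Or.inr rfl) (Or.inr rfl)
        (D.cPP j i h.symm)
      Ps := fun k' => by
        have e := star_dite' σ k' (D.P i) 1 (star_one _)
        change Commute _ (star (if h : k' < n then σ ⟨k', h⟩ (D.P i) else 1))
        rw [e]
        exact towerOf_commute σ hσ k k' _ _ _ _ (Or.inr rfl) (Or.inr rfl)
          (D.cPPs j i h.symm) }

theorem step7G [PartialOrder G] [StarOrderedRing G] (l : ℕ) (hl : 0 < l) (D : ModeData l F)
    (L : Legs (Fin (D.N ^ D.N) ⊕ Fin D.N) F G) :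
    Nonempty (ModeAbsData l G) := by
  classical
  set n := D.N ^ D.N with hn
  let i0 : Fin l := ⟨0, hl⟩
  let σ : Fin n → F →⋆ₐ[ℂ] G := fun i => L.σ (Sum.inl i)
  have hσ : ∀ i j, i ≠ j → ∀ x y, Commute (σ i x) (σ j y) := fun i j h x y =>
    L.comm _ _ (by simpa using h) x y
  let K : Legs (Fin D.N) F G := ⟨fun j => L.σ (Sum.inr j), fun i j h x y =>
    L.comm _ _ (by simpa using h) x y⟩
  let M := mtowerOf i0 D σ hσ
  obtain ⟨X, hX⟩ := exists_extra (D.toLegData i0) σ hσ K hn
    (fun i j x y => L.comm _ _ (by simp) x y)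
  have hex : MTower.ExComm (M := M) X := by
    intro i x hx
    have h := hX x hx
    exact
      { V := fun k => h k _ ((M.T i).hV k)
        Vs := fun k => h k _ ((M.T i).star_mem k _ ((M.T i).hV k))
        P := fun k => h k _ ((M.T i).hP k)
        Ps := fun k => h k _ ((M.T i).star_mem k _ ((M.T i).hP k)) }
  exact ⟨MTower.absData (M := M) X hex⟩

end Final

end Vale.Agent.P101
end
end

section

section

/-! Assembly of the steps for the algebras `Fcs A μ`. -/

open Filter Topology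

namespace Vale.Agent.P101

universe u

theorem exists_nilpotent (A : Type u) [CStarAlgebra A] (ι : Type) (μ : Filter ι) [NeBot μ]
    (h : IsEmpty (Fcs A μ →⋆ₐ[ℂ] ℂ)) :
    ∃ (ι' : Type) (μ' : Filter ι') (_ : NeBot μ') (X : Fcs A μ'), X * X = 0 ∧ Full {X} := by
  -- step 1
  obtain ⟨n, l, x, r, hx, hsum⟩ := (step1 h).exists_sum
  choose a b ha hab using hx
  have hfull : Full {y : Fcs A μ | ∃ j b, y = a j * b - b * a j} :=
    Full.of_sum Finset.univ l x r (fun i _ => ⟨i, b i, hab i⟩) hsum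
  -- step 2
  obtain ⟨ι₂, μ₂, _, ⟨L₂⟩⟩ := exists_legs A (Fin (n + 1)) ι μ
  obtain ⟨q, hq, hqf⟩ := step2 n a ha hfull L₂
  -- step 3
  obtain ⟨D⟩ := step3 q hq hqf
  -- step 4
  obtain ⟨ι₄, μ₄, _, ⟨L₄⟩⟩ := exists_legs A (Fin (3 * D.M + 2)) ι₂ μ₂
  obtain ⟨ξ, hξ, hξf⟩ := step4 D L₄
  -- nilpotents
  obtain ⟨n', l', x', r', hx', hsum'⟩ := D.full.exists_sum
  have hnil : ∀ i, x' i * x' i = 0 := by
    intro i
    obtain ⟨s, t, b, hst, hi⟩ := hx' i
    have h0 : D.f t * D.f s = 0 := D.orth t s (by rw [abs_sub_comm]; omega)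
    rw [hi, show D.f s * b * D.f t * (D.f s * b * D.f t)
      = D.f s * b * (D.f t * D.f s) * b * D.f t by noncomm_ring, h0]
    simp
  let σ : Fcs A μ₂ →⋆ₐ[ℂ] Fcs A μ₄ := L₄.σ ⟨0, by omega⟩
  have hfull' : Full (Set.range fun i => σ (x' i)) := by
    refine Full.of_sum Finset.univ (fun i => σ (l' i)) (fun i => σ (x' i)) (fun i => σ (r' i))
      (fun i _ => ⟨i, rfl⟩) ?_
    rw [← map_one σ, ← hsum', map_sum]
    simp
  have hnil' : ∀ i, σ (x' i) * σ (x' i) = 0 := fun i => by rw [← map_mul, hnil, map_zero]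
  -- step 5
  obtain ⟨ι₅, μ₅, h₅, ⟨L₅⟩⟩ := exists_legs A (Fin (n' + 1)) ι₄ μ₄
  obtain ⟨X, hX, hXf⟩ := step5 n' (fun i => σ (x' i)) hnil' hfull' ξ hξ hξf L₅
  exact ⟨ι₅, μ₅, h₅, X, hX, hXf⟩

theorem exists_glueData (A : Type u) [CStarAlgebra A] (ι : Type) (μ : Filter ι) [NeBot μ]
    (h : IsEmpty (Fcs A μ →⋆ₐ[ℂ] ℂ)) (l : ℕ) (hl : 0 < l) :
    ∃ (ι' : Type) (μ' : Filter ι') (_ : NeBot μ'),
      Nonempty (GlueData (Fin l → Bool) Unit (Fcs A μ')) := by
  obtain ⟨ι₅, μ₅, _, X, hX, hXf⟩ := exists_nilpotent A ι μ h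
  obtain ⟨ι₆, μ₆, _, ⟨L₆⟩⟩ := exists_legs A (Fin l) ι₅ μ₅
  obtain ⟨D⟩ := step6G X hX hXf l L₆
  obtain ⟨ι₇, μ₇, h₇, ⟨L₇⟩⟩ := exists_legs A (Fin (D.N ^ D.N) ⊕ Fin D.N) ι₆ μ₆
  let _ : PartialOrder (Fcs A μ₇) := CStarAlgebra.spectralOrder (Fcs A μ₇)
  have _ : StarOrderedRing (Fcs A μ₇) := CStarAlgebra.spectralOrderedRing (Fcs A μ₇)
  obtain ⟨D'⟩ := step7G l hl D L₇
  exact ⟨ι₇, μ₇, h₇, step8G l D'⟩

end Vale.Agent.P101
end
end

section

section

/-! Stage 1 of the gluing theorem: the cone homomorphism. -/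

open scoped BigOperators Kronecker

namespace Vale.Agent.P101

universe u

namespace GlueA

section Tau

variable {G : Type u} [CStarAlgebra G]

/-- real part of the extension to the line -/
noncomputable def rp (h : C(unitInterval, ℂ)) (t : ℝ) : ℝ :=
  (h (Set.projIcc 0 1 zero_le_one t)).re

/-- imaginary part of the extension to the line -/
noncomputable def ip (h : C(unitInterval, ℂ)) (t : ℝ) : ℝ :=
  (h (Set.projIcc 0 1 zero_le_one t)).im

theorem rp_cont (h : C(unitInterval, ℂ)) : Continuous (rp h) :=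
  Complex.continuous_re.comp (h.continuous.comp continuous_projIcc)

theorem ip_cont (h : C(unitInterval, ℂ)) : Continuous (ip h) :=
  Complex.continuous_im.comp (h.continuous.comp continuous_projIcc)

/-- functional calculus of a self-adjoint element, for complex functions on the unit interval. -/
noncomputable def tauFun (z : G) (h : C(unitInterval, ℂ)) : G :=
  cfc (rp h) z + Complex.I • cfc (ip h) z

theorem tauFun_mul (z : G) (h k : C(unitInterval, ℂ)) :
    tauFun z (h * k) = tauFun z h * tauFun z k := by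
  have c1 := rp_cont h
  have c2 := ip_cont h
  have c3 := rp_cont k
  have c4 := ip_cont k
  have e1 : rp (h * k) = fun t => rp h t * rp k t - ip h t * ip k t := by
    funext t; simp [rp, ip, Complex.mul_re]
  have e2 : ip (h * k) = fun t => rp h t * ip k t + ip h t * rp k t := by
    funext t; simp [rp, ip, Complex.mul_im]
  unfold tauFun
  rw [e1, e2, cfc_sub (fun t => rp h t * rp k t) (fun t => ip h t * ip k t) z (by fun_prop)
      (by fun_prop),
    cfc_add z (fun t => rp h t * ip k t) (fun t => ip h t * rp k t) (by fun_prop) (by fun_prop),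
    cfc_mul (rp h) (rp k) z (by fun_prop) (by fun_prop),
    cfc_mul (ip h) (ip k) z (by fun_prop) (by fun_prop),
    cfc_mul (rp h) (ip k) z (by fun_prop) (by fun_prop),
    cfc_mul (ip h) (rp k) z (by fun_prop) (by fun_prop)]
  simp only [add_mul, mul_add, smul_mul_assoc, mul_smul_comm, smul_add, smul_smul,
    Complex.I_mul_I, neg_smul, one_smul]
  abel

theorem tauFun_add (z : G) (h k : C(unitInterval, ℂ)) :
    tauFun z (h + k) = tauFun z h + tauFun z k := by
  have c1 := rp_cont h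
  have c2 := ip_cont h
  have c3 := rp_cont k
  have c4 := ip_cont k
  have e1 : rp (h + k) = fun t => rp h t + rp k t := by
    funext t; simp [rp]
  have e2 : ip (h + k) = fun t => ip h t + ip k t := by
    funext t; simp [ip]
  unfold tauFun
  rw [e1, e2, cfc_add z (rp h) (rp k) (by fun_prop) (by fun_prop),
    cfc_add z (ip h) (ip k) (by fun_prop) (by fun_prop), smul_add]
  abel

theorem tauFun_const (z : G) (hz : IsSelfAdjoint z) (r : ℂ) :
    tauFun z (algebraMap ℂ C(unitInterval, ℂ) r) = algebraMap ℂ G r := by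
  have e1 : rp (algebraMap ℂ C(unitInterval, ℂ) r) = fun _ => r.re := by
    funext t; simp [rp]
  have e2 : ip (algebraMap ℂ C(unitInterval, ℂ) r) = fun _ => r.im := by
    funext t; simp [ip]
  unfold tauFun
  rw [e1, e2, cfc_const r.re z hz, cfc_const r.im z hz]
  rw [Algebra.algebraMap_eq_smul_one, Algebra.algebraMap_eq_smul_one,
    Algebra.algebraMap_eq_smul_one]
  rw [← Complex.coe_smul r.re (1 : G), ← Complex.coe_smul r.im (1 : G), smul_smul, ← add_smul]
  congr 1
  rw [mul_comm]; exact Complex.re_add_im r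

theorem tauFun_star (z : G) (h : C(unitInterval, ℂ)) :
    tauFun z (star h) = star (tauFun z h) := by
  have c2 := ip_cont h
  have e1 : rp (star h) = rp h := by
    funext t; simp [rp]
  have e2 : ip (star h) = fun t => - ip h t := by
    funext t; simp [ip]
  unfold tauFun
  rw [e1, e2, cfc_neg (ip h) z, star_add, star_smul, Step6.star_cfc_real, Step6.star_cfc_real]
  simp

/-- `τ`: functional calculus as a star homomorphism from `C([0,1])`. -/
noncomputable def tau (z : G) (hz : IsSelfAdjoint z) : C(unitInterval, ℂ) →⋆ₐ[ℂ] G where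
  toFun := tauFun z
  map_one' := by
    have := tauFun_const z hz 1
    rwa [map_one, map_one] at this
  map_mul' := tauFun_mul z
  map_zero' := by
    have := tauFun_const z hz 0
    rwa [map_zero, map_zero] at this
  map_add' := tauFun_add z
  commutes' := tauFun_const z hz
  map_star' := tauFun_star z

theorem tau_apply (z : G) (hz : IsSelfAdjoint z) (h : C(unitInterval, ℂ)) :
    tau z hz h = cfc (rp h) z + Complex.I • cfc (ip h) z := rfl

theorem tau_commute (z : G) (hz : IsSelfAdjoint z) (h : C(unitInterval, ℂ)) {x : G}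
    (hx : Commute x z) : Commute x (tau z hz h) := by
  rw [tau_apply]
  exact (hx.symm.cfc_real _).symm.add_right ((hx.symm.cfc_real _).symm.smul_right _)

theorem tau_mul_of_mul_eq_zero (z : G) (hz : IsSelfAdjoint z) (h : C(unitInterval, ℂ)) {x : G}
    (hx : z * x = 0) : tau z hz h * x = h 0 • x := by
  rw [tau_apply, add_mul, smul_mul_assoc,
    Step6.cfc_mul_of_mul_eq_zero z x hz hx _ (rp_cont h),
    Step6.cfc_mul_of_mul_eq_zero z x hz hx _ (ip_cont h)]
  have e0 : Set.projIcc (0 : ℝ) 1 zero_le_one 0 = 0 := Set.projIcc_left _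
  have e1 : rp h 0 = (h 0).re := by unfold rp; rw [e0]
  have e2 : ip h 0 = (h 0).im := by unfold ip; rw [e0]
  rw [e1, e2, ← Complex.coe_smul (h 0).re x, ← Complex.coe_smul (h 0).im x, smul_smul, ← add_smul]
  congr 1
  rw [mul_comm]; exact Complex.re_add_im _

/-- the coordinate function -/
noncomputable def idc : C(unitInterval, ℂ) := ⟨fun t => ((t : ℝ) : ℂ), by fun_prop⟩

theorem tau_id (z : G) (hz : IsSelfAdjoint z) (hsp : ∀ t ∈ spectrum ℝ z, t ∈ Set.Icc (0 : ℝ) 1) :
    tau z hz idc = z := by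
  rw [tau_apply]
  have e1 : cfc (rp idc) z = z := by
    have : cfc (rp idc) z = cfc (fun t : ℝ => t) z := by
      refine cfc_congr fun t ht => ?_
      simp only [rp, idc, ContinuousMap.coe_mk, Complex.ofReal_re]
      rw [Set.projIcc_of_mem zero_le_one (hsp t ht)]
    rw [this, cfc_id' ℝ z]
  have e2 : cfc (ip idc) z = 0 := by
    have : ip idc = fun _ => (0 : ℝ) := by
      funext t; simp [ip, idc]
    rw [this, cfc_const_zero ℝ z]
  rw [e1, e2]; simp

end Tau

section Cone

variable {α : Type} [Fintype α] [DecidableEq α] [Nonempty α]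

/-- the scalar value at the right end -/
noncomputable def sc (F : coneAlg α) : ℂ :=
  (F : C(unitInterval, Matrix α α ℂ)) 1 (Classical.arbitrary α) (Classical.arbitrary α)

theorem sc_spec (F : coneAlg α) (t : unitInterval) (ht : 2 / 3 ≤ (t : ℝ)) :
    (F : C(unitInterval, Matrix α α ℂ)) t = sc F • (1 : Matrix α α ℂ) := by
  obtain ⟨c, hc⟩ := F.2
  have h1 := hc 1 (by norm_num)
  have : sc F = c := by unfold sc; rw [h1]; simp
  rw [this]; exact hc t ht

theorem sc_eq (F : coneAlg α) (c : ℂ)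
    (h : (F : C(unitInterval, Matrix α α ℂ)) 1 = c • (1 : Matrix α α ℂ)) : sc F = c := by
  unfold sc; rw [h]; simp

theorem sc_one_eq (F : coneAlg α) :
    (F : C(unitInterval, Matrix α α ℂ)) 1 = sc F • (1 : Matrix α α ℂ) :=
  sc_spec F 1 (by norm_num)

theorem sc_mul (F H : coneAlg α) : sc (F * H) = sc F * sc H := by
  apply sc_eq
  show (F : C(unitInterval, Matrix α α ℂ)) 1 * (H : C(unitInterval, Matrix α α ℂ)) 1 = _
  rw [sc_one_eq F, sc_one_eq H]; simp [smul_smul, mul_comm]

theorem sc_add (F H : coneAlg α) : sc (F + H) = sc F + sc H := by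
  apply sc_eq
  show (F : C(unitInterval, Matrix α α ℂ)) 1 + (H : C(unitInterval, Matrix α α ℂ)) 1 = _
  rw [sc_one_eq F, sc_one_eq H, add_smul]

theorem sc_star (F : coneAlg α) : sc (star F) = star (sc F) := by
  apply sc_eq
  show star ((F : C(unitInterval, Matrix α α ℂ)) 1) = _
  rw [sc_one_eq F]; simp

theorem sc_algebraMap (r : ℂ) : sc (algebraMap ℂ (coneAlg α) r) = r := by
  apply sc_eq
  show (algebraMap ℂ C(unitInterval, Matrix α α ℂ) r) 1 = _
  rw [Algebra.algebraMap_eq_smul_one]; rfl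

/-- matrix entries minus the scalar part -/
noncomputable def en (F : coneAlg α) (k l : α) : C(unitInterval, ℂ) where
  toFun t := (F : C(unitInterval, Matrix α α ℂ)) t k l - if k = l then sc F else 0
  continuous_toFun := by
    refine Continuous.sub ?_ continuous_const
    exact ((F : C(unitInterval, Matrix α α ℂ)).continuous.matrix_elem k l)

theorem en_apply (F : coneAlg α) (k l : α) (t : unitInterval) :
    en F k l t = (F : C(unitInterval, Matrix α α ℂ)) t k l - if k = l then sc F else 0 := rfl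

theorem en_eq_zero (F : coneAlg α) (k l : α) (t : unitInterval) (ht : 2 / 3 ≤ (t : ℝ)) :
    en F k l t = 0 := by
  rw [en_apply, sc_spec F t ht, Matrix.smul_apply, Matrix.one_apply]
  split_ifs <;> simp

theorem en_mul (F H : coneAlg α) (k l : α) :
    en (F * H) k l = ∑ j, en F k j * en H j l + sc H • en F k l + sc F • en H k l := by
  ext t
  simp only [ContinuousMap.add_apply, ContinuousMap.coe_sum, Finset.sum_apply,
    ContinuousMap.mul_apply, ContinuousMap.smul_apply, en_apply, sc_mul, smul_eq_mul]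
  have e : ((F * H : coneAlg α) : C(unitInterval, Matrix α α ℂ)) t k l
      = ∑ j, (F : C(unitInterval, Matrix α α ℂ)) t k j * (H : C(unitInterval, Matrix α α ℂ)) t j l := by
    show ((F : C(unitInterval, Matrix α α ℂ)) t * (H : C(unitInterval, Matrix α α ℂ)) t) k l = _
    rw [Matrix.mul_apply]
  rw [e]
  simp only [sub_mul, mul_sub, Finset.sum_sub_distrib, mul_ite, ite_mul, mul_zero, zero_mul,
    Finset.sum_ite_eq, Finset.sum_ite_eq', Finset.mem_univ, if_true]
  split_ifs with h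
  · subst h; ring
  · ring

theorem en_add (F H : coneAlg α) (k l : α) : en (F + H) k l = en F k l + en H k l := by
  ext t
  simp only [ContinuousMap.add_apply, en_apply, sc_add]
  have e : ((F + H : coneAlg α) : C(unitInterval, Matrix α α ℂ)) t k l
      = (F : C(unitInterval, Matrix α α ℂ)) t k l + (H : C(unitInterval, Matrix α α ℂ)) t k l := rfl
  rw [e]; split_ifs <;> ring

theorem en_star (F : coneAlg α) (k l : α) : en (star F) k l = star (en F l k) := by
  ext t
  simp only [ContinuousMap.star_apply, en_apply, sc_star]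
  have e : ((star F : coneAlg α) : C(unitInterval, Matrix α α ℂ)) t k l
      = star ((F : C(unitInterval, Matrix α α ℂ)) t l k) := rfl
  rw [e, star_sub]
  by_cases h : k = l
  · subst h; simp
  · have h' : ¬ l = k := fun h' => h h'.symm
    simp [h, h']

theorem en_algebraMap (r : ℂ) (k l : α) : en (algebraMap ℂ (coneAlg α) r) k l = 0 := by
  ext t
  rw [en_apply, sc_algebraMap]
  have e : ((algebraMap ℂ (coneAlg α) r : coneAlg α) : C(unitInterval, Matrix α α ℂ)) t
      = r • (1 : Matrix α α ℂ) := by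
    show (algebraMap ℂ C(unitInterval, Matrix α α ℂ) r) t = _
    rw [Algebra.algebraMap_eq_smul_one]; rfl
  rw [e, Matrix.smul_apply, Matrix.one_apply]
  split_ifs <;> simp

/-- `1 / max (1 - t, 1/3)` -/
noncomputable def q1 : C(unitInterval, ℂ) :=
  ⟨fun t => (((max (1 - (t : ℝ)) (1 / 3))⁻¹ : ℝ) : ℂ), by
    refine Complex.continuous_ofReal.comp (Continuous.inv₀ (by fun_prop) fun t => ?_)
    exact (lt_max_of_lt_right (by norm_num)).ne'⟩

/-- `1 / sqrt (max (t, 1/3))` -/
noncomputable def q2 : C(unitInterval, ℂ) :=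
  ⟨fun t => (((Real.sqrt (max (t : ℝ) (1 / 3)))⁻¹ : ℝ) : ℂ), by
    refine Complex.continuous_ofReal.comp (Continuous.inv₀ (by fun_prop) fun t => ?_)
    exact (Real.sqrt_pos.2 (lt_max_of_lt_right (by norm_num))).ne'⟩

/-- `t / max (t, 1/3)` -/
noncomputable def mm : C(unitInterval, ℂ) :=
  ⟨fun t => (((t : ℝ) * (max (t : ℝ) (1 / 3))⁻¹ : ℝ) : ℂ), by
    refine Complex.continuous_ofReal.comp (Continuous.mul (by fun_prop)
      (Continuous.inv₀ (by fun_prop) fun t => ?_))
    exact (lt_max_of_lt_right (by norm_num)).ne'⟩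

theorem q1_star : star q1 = q1 := by ext t; simp [q1]

theorem q2_star : star q2 = q2 := by ext t; simp [q2]

theorem q1_key (h : C(unitInterval, ℂ)) (hh : ∀ t : unitInterval, 2 / 3 ≤ (t : ℝ) → h t = 0) :
    q1 * h * (1 - idc) = h := by
  ext t
  by_cases ht : 2 / 3 ≤ (t : ℝ)
  · simp [hh t ht]
  · push Not at ht
    have h1 : max (1 - (t : ℝ)) (1 / 3) = 1 - t := max_eq_left (by linarith)
    have h2 : (1 - (t : ℝ)) ≠ 0 := by have : 0 < 1 - (t : ℝ) := by linarith
                                      exact this.ne'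
    have h3 : (1 - ((t : ℝ) : ℂ)) ≠ 0 := by exact_mod_cast h2
    simp only [ContinuousMap.mul_apply, ContinuousMap.sub_apply, ContinuousMap.one_apply, q1, idc,
      ContinuousMap.coe_mk, h1]
    push_cast
    field_simp

theorem q2_key : q2 * q2 * idc = mm := by
  ext t
  have h1 : 0 < max (t : ℝ) (1 / 3) := lt_max_of_lt_right (by norm_num)
  have h2 : Real.sqrt (max (t : ℝ) (1 / 3)) * Real.sqrt (max (t : ℝ) (1 / 3))
      = max (t : ℝ) (1 / 3) := Real.mul_self_sqrt h1.le
  simp only [ContinuousMap.mul_apply, q2, idc, mm, ContinuousMap.coe_mk]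
  rw [← Complex.ofReal_mul, ← Complex.ofReal_mul, ← mul_inv, h2, mul_comm]

end Cone

end GlueA

open GlueA in
theorem glueA {G : Type u} [CStarAlgebra G] {α : Type} [Fintype α] [DecidableEq α] [Nonempty α]
    (D : GlueData α Unit G) : Nonempty (ConeData α G) := by
  let _ : PartialOrder G := CStarAlgebra.spectralOrder G
  have _ : StarOrderedRing G := CStarAlgebra.spectralOrderedRing G
  obtain ⟨g, e, z, s', gg, sum_eq, gz, ss, es⟩ := D
  set s : G := s' () with hs
  have ss' : star s * s = z := by simpa using ss () ()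
  have es' : e * s = s := es ()
  have z0 : 0 ≤ z := by rw [← ss']; exact star_mul_self_nonneg _
  have z_sa : IsSelfAdjoint z := z0.isSelfAdjoint
  have z1 : z ≤ 1 := by
    have : 0 ≤ ∑ k, g k * star (g k) := Finset.sum_nonneg fun k _ => mul_star_self_nonneg _
    rw [sum_eq] at this
    exact sub_nonneg.1 this
  have hsp : ∀ t ∈ spectrum ℝ z, t ∈ Set.Icc (0 : ℝ) 1 := by
    intro t ht
    refine ⟨spectrum_nonneg_of_nonneg z0 ht, ?_⟩
    rcases subsingleton_or_nontrivial G with hG | hG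
    · exact absurd ht (by simp [spectrum.of_subsingleton])
    · have h1 := spectrum.norm_le_norm_of_mem ht
      have h2 : ‖z‖ ≤ 1 := (CStarAlgebra.norm_le_one_iff_of_nonneg z z0).2 z1
      exact (le_abs_self t).trans (h1.trans h2)
  have gzs : ∀ k, Commute (star (g k)) z := fun k => by
    have := (gz k).star_star
    rwa [z_sa.star_eq] at this
  set k0 : α := Classical.arbitrary α with hk0
  have e_def : e = star (g k0) * g k0 := by simpa using (gg k0 k0).symm
  have e_sa : star e = e := by rw [e_def]; simp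
  have ez : Commute e z := by rw [e_def]; exact (gzs k0).mul_left (gz k0)
  have ge : ∀ l, g l * e = (1 - z) * g l := by
    intro l
    have h1 : (∑ k, g k * star (g k)) * g l = g l * e := by
      rw [Finset.sum_mul, Finset.sum_eq_single l]
      · rw [mul_assoc, gg, if_pos rfl]
      · intro k _ hk
        rw [mul_assoc, gg, if_neg hk, mul_zero]
      · intro h; exact absurd (Finset.mem_univ l) h
    rw [← h1, sum_eq]
  have egs : ∀ l, e * star (g l) = (1 - z) * star (g l) := by
    intro l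
    have h1 := congrArg star (ge l)
    rw [star_mul, star_mul, e_sa, star_sub, star_one, z_sa.star_eq] at h1
    rw [h1, mul_sub, sub_mul, mul_one, one_mul, (gzs l).eq]
  have ee : e * e = (1 - z) * e := by
    have h1 : e * e = star (g k0) * (g k0 * e) := by
      conv_lhs => rw [e_def, mul_assoc]
      rw [← e_def]
    rw [h1, ge, ← mul_assoc]
    have h2 : star (g k0) * (1 - z) = (1 - z) * star (g k0) := by
      rw [mul_sub, sub_mul, mul_one, one_mul, (gzs k0).eq]
    rw [h2, mul_assoc, ← e_def]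
  have zs : z * s = 0 := by
    have h1 : e * e * s = s := by rw [mul_assoc, es', es']
    rw [ee, mul_assoc, es', sub_mul, one_mul] at h1
    simpa using h1
  set τ := tau z z_sa with hτ
  have τid : τ idc = z := tau_id z z_sa hsp
  have τg : ∀ h k, Commute (g k) (τ h) := fun h k => tau_commute z z_sa h (gz k)
  have τgs : ∀ h k, Commute (star (g k)) (τ h) := fun h k => tau_commute z z_sa h (gzs k)
  have τe : ∀ h, Commute e (τ h) := fun h => tau_commute z z_sa h ez
  have τz : τ (1 - idc) = 1 - z := by rw [map_sub, map_one, τid]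
  have τs : ∀ h, τ h * s = h 0 • s := fun h => tau_mul_of_mul_eq_zero z z_sa h zs
  -- the linear part
  let Λ : coneAlg α → G := fun F => ∑ k, ∑ l, g k * τ (q1 * en F k l) * star (g l)
  have Λ_add : ∀ F H, Λ (F + H) = Λ F + Λ H := by
    intro F H
    simp only [Λ, en_add, mul_add, map_add, add_mul, Finset.sum_add_distrib]
  have Λ_alg : ∀ r, Λ (algebraMap ℂ (coneAlg α) r) = 0 := by
    intro r
    simp only [Λ, en_algebraMap, mul_zero, map_zero, zero_mul, Finset.sum_const_zero]
  have Λ_star : ∀ F, Λ (star F) = star (Λ F) := by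
    intro F
    simp only [Λ, star_sum, star_mul, star_star]
    rw [Finset.sum_comm]
    refine Finset.sum_congr rfl fun l _ => Finset.sum_congr rfl fun k _ => ?_
    rw [← map_star, star_mul, q1_star, en_star, mul_comm (star (en F l k)) q1, mul_assoc]
  have Λ_mul : ∀ F H, Λ (F * H) = Λ F * Λ H + sc H • Λ F + sc F • Λ H := by
    intro F H
    have h1 : Λ F * Λ H = ∑ k, ∑ l, ∑ j, g k * τ (q1 * (en F k j * en H j l)) * star (g l) := by
      simp only [Λ]
      rw [Finset.sum_mul]
      refine Finset.sum_congr rfl fun k _ => ?_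
      have h2 : ∀ j, (g k * τ (q1 * en F k j) * star (g j)) *
          (∑ k', ∑ l, g k' * τ (q1 * en H k' l) * star (g l))
          = ∑ l, g k * τ (q1 * (en F k j * en H j l)) * star (g l) := by
        intro j
        rw [Finset.mul_sum, Finset.sum_eq_single j]
        · rw [Finset.mul_sum]
          refine Finset.sum_congr rfl fun l _ => ?_
          have h3 : (g k * τ (q1 * en F k j) * star (g j)) * (g j * τ (q1 * en H j l) * star (g l))
              = g k * τ (q1 * en F k j) * (star (g j) * g j) * τ (q1 * en H j l) * star (g l) := by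
            noncomm_ring
          have h4 : q1 * en F k j * (q1 * en H j l) * (1 - idc) = q1 * (en F k j * en H j l) := by
            have := q1_key (en F k j * en H j l) (fun t ht => by
              rw [ContinuousMap.mul_apply, en_eq_zero F k j t ht, zero_mul])
            calc q1 * en F k j * (q1 * en H j l) * (1 - idc)
                = q1 * (q1 * (en F k j * en H j l) * (1 - idc)) := by ring
              _ = _ := by rw [this]
          have h6 : τ (q1 * (en F k j * en H j l))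
              = τ (q1 * en F k j) * τ (q1 * en H j l) * (1 - z) := by
            rw [← h4, map_mul τ (q1 * en F k j * (q1 * en H j l)) (1 - idc),
              map_mul τ (q1 * en F k j) (q1 * en H j l), τz]
          rw [h3, gg, if_pos rfl, h6]
          have h5 : e * τ (q1 * en H j l) * star (g l) = τ (q1 * en H j l) * ((1 - z) * star (g l)) := by
            rw [(τe _).eq, mul_assoc, egs]
          calc g k * τ (q1 * en F k j) * e * τ (q1 * en H j l) * star (g l)
              = g k * τ (q1 * en F k j) * (e * τ (q1 * en H j l) * star (g l)) := by noncomm_ring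
            _ = _ := by rw [h5]; noncomm_ring
        · intro k' _ hk'
          rw [Finset.mul_sum]
          refine Finset.sum_eq_zero fun l _ => ?_
          calc (g k * τ (q1 * en F k j) * star (g j)) * (g k' * τ (q1 * en H k' l) * star (g l))
              = g k * τ (q1 * en F k j) * (star (g j) * g k') * τ (q1 * en H k' l) * star (g l) := by
                noncomm_ring
            _ = 0 := by rw [gg, if_neg (Ne.symm hk')]; simp
        · intro h; exact absurd (Finset.mem_univ j) h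
      rw [Finset.sum_mul, Finset.sum_congr rfl fun j _ => h2 j, Finset.sum_comm]
    rw [h1]
    simp only [Λ, en_mul, Finset.smul_sum]
    rw [← Finset.sum_add_distrib, ← Finset.sum_add_distrib]
    refine Finset.sum_congr rfl fun k _ => ?_
    rw [← Finset.sum_add_distrib, ← Finset.sum_add_distrib]
    refine Finset.sum_congr rfl fun l _ => ?_
    rw [mul_add, mul_add, Finset.mul_sum, mul_smul_comm, mul_smul_comm, map_add, map_add, map_sum,
      map_smul, map_smul]
    simp only [mul_add, add_mul, Finset.mul_sum, Finset.sum_mul, mul_smul_comm, smul_mul_assoc]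
  let Γ : coneAlg α →⋆ₐ[ℂ] G :=
    { toFun := fun F => algebraMap ℂ G (sc F) + Λ F
      map_one' := by
        have h1 := sc_algebraMap (α := α) 1
        have h2 := Λ_alg 1
        rw [map_one] at h1 h2
        rw [h1, h2, map_one, add_zero]
      map_mul' := fun F H => by
        rw [sc_mul, Λ_mul, map_mul]
        simp only [Algebra.algebraMap_eq_smul_one, add_mul, mul_add, smul_mul_assoc, one_mul,
          mul_smul_comm, mul_one, smul_add]
        abel
      map_zero' := by
        have h1 := sc_algebraMap (α := α) 0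
        have h2 := Λ_alg 0
        rw [map_zero] at h1 h2
        rw [h1, h2, map_zero, add_zero]
      map_add' := fun F H => by
        rw [sc_add, Λ_add, map_add]; abel
      commutes' := fun r => by
        rw [sc_algebraMap, Λ_alg, add_zero]
      map_star' := fun F => by
        rw [sc_star, Λ_star, star_add]
        congr 1
        rw [Algebra.algebraMap_eq_smul_one, Algebra.algebraMap_eq_smul_one, star_smul, star_one] }
  have Γ_apply : ∀ F, Γ F = algebraMap ℂ G (sc F) + Λ F := fun F => rfl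
  -- the function `m`
  let mC : C(unitInterval, Matrix α α ℂ) :=
    ⟨fun t => mm t • (1 : Matrix α α ℂ), mm.continuous.smul continuous_const⟩
  have mC_mem : mC ∈ coneAlg α := by
    refine ⟨1, fun t ht => ?_⟩
    show mm t • (1 : Matrix α α ℂ) = _
    congr 1
    simp only [mm, ContinuousMap.coe_mk]
    have h1 : max (t : ℝ) (1 / 3) = t := max_eq_left (by linarith)
    have h2 : (t : ℝ) ≠ 0 := by have : 0 < (t : ℝ) := by linarith
                                exact this.ne'
    rw [h1, mul_inv_cancel₀ h2]; simp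
  let m : coneAlg α := ⟨mC, mC_mem⟩
  have m_sc : sc m = 1 := by
    apply sc_eq
    show mm 1 • (1 : Matrix α α ℂ) = _
    congr 1
    simp only [mm, ContinuousMap.coe_mk]
    norm_num
  have Γm : Γ m = τ mm := by
    rw [Γ_apply, m_sc, map_one]
    have h1 : ∀ k l, en m k l = if k = l then mm - 1 else 0 := by
      intro k l
      ext t
      rw [en_apply, m_sc]
      show (mm t • (1 : Matrix α α ℂ)) k l - _ = _
      rw [Matrix.smul_apply, Matrix.one_apply]
      split_ifs <;> simp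
    have h2 : Λ m = τ (mm - 1) := by
      simp only [Λ, h1]
      have h3 : ∀ k, ∑ l, g k * τ (q1 * if k = l then mm - 1 else 0) * star (g l)
          = τ (q1 * (mm - 1)) * (g k * star (g k)) := by
        intro k
        rw [Finset.sum_eq_single k]
        · rw [if_pos rfl, (τg _ _).eq, mul_assoc]
        · intro l _ hl
          rw [if_neg (Ne.symm hl)]; simp
        · intro h; exact absurd (Finset.mem_univ k) h
      rw [Finset.sum_congr rfl fun k _ => h3 k, ← Finset.mul_sum, sum_eq, ← τz, ← map_mul]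
      rw [q1_key (mm - 1)]
      intro t ht
      simp only [ContinuousMap.sub_apply, ContinuousMap.one_apply, mm, ContinuousMap.coe_mk]
      have h1 : max (t : ℝ) (1 / 3) = t := max_eq_left (by linarith)
      have h2 : (t : ℝ) ≠ 0 := by have : 0 < (t : ℝ) := by linarith
                                  exact this.ne'
      rw [h1, mul_inv_cancel₀ h2]; simp
    rw [h2, map_sub, map_one]; abel
  refine ⟨{ Γ := Γ, u := fun k => g k * s * τ q2, m := m, m_eq := ?_, uu := ?_, Γu := ?_ }⟩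
  · intro t ht
    show mm t • (1 : Matrix α α ℂ) = 1
    simp only [mm, ContinuousMap.coe_mk]
    have h1 : max (t : ℝ) (1 / 3) = t := max_eq_left (by linarith)
    have h2 : (t : ℝ) ≠ 0 := by have : 0 < (t : ℝ) := by linarith
                                exact this.ne'
    rw [h1, mul_inv_cancel₀ h2]; simp
  · intro k l
    have h1 : star (g k * s * τ q2) * (g l * s * τ q2)
        = τ q2 * (star s * ((star (g k) * g l) * s)) * τ q2 := by
      rw [star_mul, star_mul, ← map_star, q2_star]; noncomm_ring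
    rw [h1, gg]
    split_ifs
    · rw [es', ss', Γm, ← τid, ← map_mul, ← map_mul, ← q2_key]
      congr 1; ring
    · simp
  · intro F k
    rw [Γ_apply, add_mul]
    have h1 : Λ F * (g k * s * τ q2) = ∑ j, en F j k 0 • (g j * s * τ q2) := by
      simp only [Λ, Finset.sum_mul]
      refine Finset.sum_congr rfl fun j _ => ?_
      rw [Finset.sum_eq_single k]
      · calc g j * τ (q1 * en F j k) * star (g k) * (g k * s * τ q2)
            = g j * (τ (q1 * en F j k) * ((star (g k) * g k) * s)) * τ q2 := by noncomm_ring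
          _ = _ := by
            rw [gg, if_pos rfl, es', τs]
            have : (q1 * en F j k) 0 = en F j k 0 := by
              rw [ContinuousMap.mul_apply]
              simp only [q1, ContinuousMap.coe_mk]
              norm_num
            rw [this, mul_smul_comm, smul_mul_assoc]
      · intro l _ hl
        calc g j * τ (q1 * en F j l) * star (g l) * (g k * s * τ q2)
            = g j * τ (q1 * en F j l) * (star (g l) * g k) * (s * τ q2) := by noncomm_ring
          _ = 0 := by rw [gg, if_neg hl]; simp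
      · intro h; exact absurd (Finset.mem_univ k) h
    rw [h1, Algebra.algebraMap_eq_smul_one, smul_mul_assoc, one_mul]
    have h2 : ∀ j, en F j k 0 • (g j * s * τ q2)
        = (F : C(unitInterval, Matrix α α ℂ)) 0 j k • (g j * s * τ q2)
          - if j = k then sc F • (g j * s * τ q2) else 0 := by
      intro j
      rw [en_apply, sub_smul]
      split_ifs <;> simp
    rw [Finset.sum_congr rfl fun j _ => h2 j, Finset.sum_sub_distrib,
      Finset.sum_ite_eq' Finset.univ k, if_pos (Finset.mem_univ k)]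
    abel

end Vale.Agent.P101
end
end

section

section

/-! The gluing theorem. -/

open scoped BigOperators Kronecker

namespace Vale.Agent.P101

universe u

/-- reindexing of matrices as a star-homomorphism -/
def reindexStar {m n : Type} [Fintype m] [DecidableEq m] [Fintype n] [DecidableEq n] (e : m ≃ n) :
    Matrix m m ℂ →⋆ₐ[ℂ] Matrix n n ℂ where
  toAlgHom := (Matrix.reindexAlgEquiv ℂ ℂ e).toAlgHom
  map_star' := by
    intro M
    simp [Matrix.star_eq_conjTranspose, Matrix.conjTranspose_submatrix]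

theorem continuous_reindexStar {m n : Type} [Fintype m] [DecidableEq m] [Fintype n]
    [DecidableEq n] (e : m ≃ n) : Continuous (reindexStar e) := by
  show Continuous fun M : Matrix m m ℂ => M.submatrix e.symm e.symm
  exact Continuous.matrix_submatrix continuous_id _ _

theorem glueAlg_reindex (α β β' : Type) [Fintype α] [DecidableEq α] [Fintype β] [DecidableEq β]
    [Fintype β'] [DecidableEq β'] (e : β ≃ β') :
    Nonempty (glueAlg α β →⋆ₐ[ℂ] glueAlg α β') := by
  let e' : (α × β) ≃ (α × β') := Equiv.prodCongr (Equiv.refl _) e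
  let φ₂ : C(unitInterval, Matrix (α × β) (α × β) ℂ) →⋆ₐ[ℂ]
      C(unitInterval, Matrix (α × β') (α × β') ℂ) :=
    ContinuousMap.compStarAlgHom unitInterval (reindexStar e') (continuous_reindexStar e')
  let φ : glueAlg α β →⋆ₐ[ℂ] C(unitInterval, Matrix (α × β') (α × β') ℂ) :=
    φ₂.comp (glueAlg α β).subtype
  have hφ : ∀ (f : glueAlg α β) (t : unitInterval),
      φ f t = Matrix.submatrix ((f : C(unitInterval, Matrix (α × β) (α × β) ℂ)) t)
        e'.symm e'.symm := fun f t => rfl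
  refine ⟨StarAlgHom.codRestrict φ (glueAlg α β') ?_⟩
  rintro ⟨f, ⟨x, hx⟩, ⟨y, hy⟩⟩
  refine ⟨⟨x, fun t ht => ?_⟩, ⟨y.submatrix e.symm e.symm, fun t ht => ?_⟩⟩
  · rw [hφ]
    show (f t).submatrix e'.symm e'.symm = _
    rw [hx t ht]
    ext ⟨i, j⟩ ⟨k, l⟩
    simp [e', Matrix.kroneckerMap_apply, Matrix.one_apply]
  · rw [hφ]
    show (f t).submatrix e'.symm e'.symm = _
    rw [hy t ht]
    ext ⟨i, j⟩ ⟨k, l⟩
    simp [e', Matrix.kroneckerMap_apply]

theorem glue {G : Type u} [CStarAlgebra G] {α : Type} [Fintype α] [DecidableEq α] [Nonempty α]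
    (D : GlueData α Unit G) : Nonempty (glueAlg α (Option (α × Unit)) →⋆ₐ[ℂ] G) := by
  obtain ⟨C⟩ := glueA D
  obtain ⟨Φ⟩ := glueB C
  obtain ⟨Ψ⟩ := glueC α
  obtain ⟨Θ⟩ := glueAlg_reindex α (Option (α × Unit)) (Option α)
    (Equiv.optionCongr (Equiv.prodUnique α Unit))
  exact ⟨(Φ.comp Ψ).comp Θ⟩

end Vale.Agent.P101
end
end

section

section

/-! Unital homs from all prime dimension drop algebras to the central sequence algebras. -/

open Filter Topology

namespace Vale.Agent.P101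

universe u

theorem dimDrop_hom_of_glueData {G : Type u} [CStarAlgebra G] (p q : ℕ) (hp : 0 < p) (hq : 0 < q)
    (hpq : Nat.Coprime p q) (D : GlueData (Fin (2 * (p * q)) → Bool) Unit G) :
    Nonempty (dimDrop p q →⋆ₐ[ℂ] G) := by
  have hc : Fintype.card (Fin (2 * (p * q)) → Bool) = 2 ^ (2 * (p * q)) := by
    simp
  have h1 : 2 * (p * q) ≤ Fintype.card (Fin (2 * (p * q)) → Bool) := by
    rw [hc]; exact Nat.lt_two_pow_self.le
  obtain ⟨Φ⟩ := glue D
  obtain ⟨Ψ⟩ := step9H p q hp hq hpq (Fin (2 * (p * q)) → Bool)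
    (Option ((Fin (2 * (p * q)) → Bool) × Unit)) h1 (by
      rw [Fintype.card_option, Fintype.card_prod]
      simp only [Fintype.card_unit, mul_one]
      omega)
  exact ⟨Φ.comp Ψ⟩

theorem exists_dimDrop_hom (A : Type u) [CStarAlgebra A] (ι : Type) (μ : Filter ι) [NeBot μ]
    (h : IsEmpty (Fcs A μ →⋆ₐ[ℂ] ℂ)) (p q : ℕ) (hp : 0 < p) (hq : 0 < q)
    (hpq : Nat.Coprime p q) :
    ∃ (ι' : Type) (μ' : Filter ι') (_ : NeBot μ'),
      Nonempty (dimDrop p q →⋆ₐ[ℂ] Fcs A μ') := by
  obtain ⟨ι', μ', h', ⟨D⟩⟩ := exists_glueData A ι μ h (2 * (p * q)) (by positivity)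
  exact ⟨ι', μ', h', dimDrop_hom_of_glueData p q hp hq hpq D⟩

theorem dimDrop_hom_Fcs (A : Type u) [CStarAlgebra A] [TopologicalSpace.SeparableSpace A]
    (ω : Ultrafilter ℕ) (hω : (ω : Filter ℕ) ≤ Filter.cofinite)
    (h : IsEmpty (Fcs A (ω : Filter ℕ) →⋆ₐ[ℂ] ℂ)) (p q : ℕ) (hp : 0 < p) (hq : 0 < q)
    (hpq : Nat.Coprime p q) : Nonempty (dimDrop p q →⋆ₐ[ℂ] Fcs A (ω : Filter ℕ)) := by
  obtain ⟨ι', μ', h', ⟨D⟩⟩ := exists_glueData A ℕ (ω : Filter ℕ) h (2 * (p * q)) (by positivity)
  obtain ⟨D'⟩ := glueData_descend A _ _ ι' μ' D (ω : Filter ℕ) hω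
  exact dimDrop_hom_of_glueData p q hp hq hpq D'

end Vale.Agent.P101
end
end

section

section

/-! Step 9: from the relations to a unital hom of `I(2,3)`, via the gluing lemma. -/

open scoped BigOperators Kronecker

namespace Vale.Agent.P101

universe u

namespace Step9

end Step9

end Vale.Agent.P101
end
end

section

section

/-! The `I(2,3)` version of the main theorem. -/

open Filter Topology

namespace Vale.Agent.P101

universe u

end Vale.Agent.P101
end
end

section

section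

/-! Bounded functions modulo null functions: constants, maps, lifting of unitaries. -/

open Filter Topology

namespace Vale.Agent.P101

universe u v w

open SeqQuot

/-- If `x` is almost unitary, it is close to a unitary. -/
lemma unitary_correction {B : Type u} [CStarAlgebra B] (x : B) (h1 : ‖star x * x - 1‖ < 1)
    (h2 : ‖x * star x - 1‖ < 1) : ∃ v ∈ unitary B, ‖v - x‖ ≤ ‖star x * x - 1‖ := by
  rcases subsingleton_or_nontrivial B with hB | hB
  · exact ⟨1, one_mem _, by rw [Subsingleton.elim (1 - x) 0, norm_zero]; positivity⟩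
  set a : B := star x * x with ha
  have hsa : IsSelfAdjoint a := IsSelfAdjoint.star_mul_self x
  have hua : IsUnit a := by
    have := (Units.oneSub (1 - a) (by rwa [norm_sub_rev])).isUnit
    simpa using this
  have hux' : IsUnit (x * star x) := by
    have := (Units.oneSub (1 - x * star x) (by rwa [norm_sub_rev])).isUnit
    simpa using this
  have hux : IsUnit x := by
    obtain ⟨u, hu⟩ := hua
    obtain ⟨w, hw⟩ := hux'
    have hl : (↑u⁻¹ * star x) * x = 1 := by rw [mul_assoc, ← ha, ← hu]; simp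
    have hr : x * (star x * ↑w⁻¹) = 1 := by rw [← mul_assoc, ← hw]; simp
    exact ⟨⟨x, star x * ↑w⁻¹, hr, by
      have : ↑u⁻¹ * star x = star x * ↑w⁻¹ := by
        calc ↑u⁻¹ * star x = (↑u⁻¹ * star x) * (x * (star x * ↑w⁻¹)) := by rw [hr, mul_one]
          _ = ((↑u⁻¹ * star x) * x) * (star x * ↑w⁻¹) := by simp only [mul_assoc]
          _ = star x * ↑w⁻¹ := by rw [hl, one_mul]
      rw [← this, hl]⟩, rfl⟩
  have hspec : ∀ t ∈ spectrum ℝ a, |t - 1| ≤ ‖a - 1‖ := by
    intro t ht
    have h3 : t - 1 ∈ spectrum ℝ (a - 1) := by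
      have h4 := (spectrum.add_mem_iff (R := ℝ) (a := a) (r := t - 1) (s := 1)).mp
        (by simpa using ht)
      rw [map_one] at h4
      rwa [sub_eq_neg_add a 1]
    have := spectrum.norm_le_norm_of_mem h3
    rwa [Real.norm_eq_abs] at this
  have hpos : ∀ t ∈ spectrum ℝ a, 0 < t := by
    intro t ht
    have := (hspec t ht).trans_lt h1
    rw [abs_lt] at this
    linarith [this.1]
  let g : ℝ → ℝ := fun t => (Real.sqrt t)⁻¹
  have hg : ContinuousOn g (spectrum ℝ a) := by
    apply ContinuousOn.inv₀ (by fun_prop)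
    intro t ht
    exact (Real.sqrt_pos.mpr (hpos t ht)).ne'
  have hpsa : IsSelfAdjoint (cfc g a) := cfc_predicate g a
  have hpap : cfc g a * a * cfc g a = 1 := by
    conv_lhs => rw [show cfc g a * a * cfc g a = cfc g a * cfc (fun t : ℝ => t) a * cfc g a by
      rw [cfc_id' ℝ a]]
    rw [← cfc_mul g (fun t => t) a hg (by fun_prop),
      ← cfc_mul (fun t => g t * t) g a (hg.mul (by fun_prop)) hg, ← cfc_const_one ℝ a]
    apply cfc_congr
    intro t ht
    have h3 := hpos t ht
    have h4 : Real.sqrt t ≠ 0 := (Real.sqrt_pos.mpr h3).ne'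
    have h5 := Real.mul_self_sqrt h3.le
    simp only [g]
    field_simp
    nlinarith
  have hcomm : a * cfc g a = cfc g a * a := by
    have h := cfc_commute_cfc (fun t : ℝ => t) g a
    rw [cfc_id' ℝ a] at h
    exact h.eq
  have hup : IsUnit (cfc g a) := by
    have h3 : a * cfc g a * cfc g a = 1 := by rw [hcomm]; exact hpap
    exact ⟨⟨cfc g a, a * cfc g a, by rw [← mul_assoc]; exact hpap, h3⟩, rfl⟩
  set v : B := x * cfc g a with hv
  have hvv : star v * v = 1 := by
    rw [hv, star_mul, hpsa.star_eq]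
    calc cfc g a * star x * (x * cfc g a) = cfc g a * (star x * x) * cfc g a := by
          simp only [mul_assoc]
      _ = 1 := hpap
  have huv : IsUnit v := hux.mul hup
  have hvv' : v * star v = 1 := by
    obtain ⟨w, hw⟩ := huv
    have : star v = ↑w⁻¹ := by
      calc star v = star v * (↑w * ↑w⁻¹) := by simp
        _ = (star v * v) * ↑w⁻¹ := by rw [← hw]; simp only [mul_assoc]
        _ = ↑w⁻¹ := by rw [hvv, one_mul]
    rw [this, ← hw]; simp
  refine ⟨v, Unitary.mem_iff.mpr ⟨hvv, hvv'⟩, ?_⟩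
  have hkey : star (v - x) * (v - x) = cfc (fun t => (1 - Real.sqrt t) ^ 2) a := by
    have e1 : star (v - x) * (v - x) = (cfc g a - 1) * a * (cfc g a - 1) := by
      have : v - x = x * (cfc g a - 1) := by rw [hv, mul_sub, mul_one]
      rw [this, star_mul, star_sub, hpsa.star_eq, star_one]
      simp only [mul_assoc, ha]
    have e2 : cfc g a - 1 = cfc (fun t => g t - 1) a := by
      rw [cfc_sub g _ a hg (by fun_prop), cfc_const_one ℝ a]
    rw [e1, e2]
    conv_lhs => rw [show cfc (fun t => g t - 1) a * a * cfc (fun t => g t - 1) a =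
      cfc (fun t => g t - 1) a * cfc (fun t : ℝ => t) a * cfc (fun t => g t - 1) a by
      rw [cfc_id' ℝ a]]
    have hg1 : ContinuousOn (fun t => g t - 1) (spectrum ℝ a) := hg.sub continuousOn_const
    rw [← cfc_mul (fun t => g t - 1) (fun t => t) a hg1 (by fun_prop),
      ← cfc_mul (fun t => (g t - 1) * t) (fun t => g t - 1) a (hg1.mul (by fun_prop)) hg1]
    apply cfc_congr
    intro t ht
    have h3 := hpos t ht
    have h4 : Real.sqrt t ≠ 0 := (Real.sqrt_pos.mpr h3).ne'
    have h5 := Real.mul_self_sqrt h3.le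
    simp only [g]
    have h6 : ((Real.sqrt t)⁻¹ - 1) * Real.sqrt t = 1 - Real.sqrt t := by
      field_simp
    calc ((Real.sqrt t)⁻¹ - 1) * t * ((Real.sqrt t)⁻¹ - 1)
        = (((Real.sqrt t)⁻¹ - 1) * Real.sqrt t) * (((Real.sqrt t)⁻¹ - 1) * Real.sqrt t) := by
          rw [← h5]; simp only [h5]; ring_nf; rw [← h5]; ring_nf; simp only [sq, h5]
      _ = _ := by rw [h6]; ring
  have hn : ‖v - x‖ ^ 2 ≤ ‖a - 1‖ ^ 2 := by
    rw [sq, ← CStarRing.norm_star_mul_self, hkey]
    apply norm_cfc_le (by positivity)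
    intro t ht
    have h3 := hpos t ht
    have h5 := Real.mul_self_sqrt h3.le
    have h6 := hspec t ht
    rw [Real.norm_of_nonneg (sq_nonneg _)]
    have h7 : |1 - Real.sqrt t| ≤ |t - 1| := by
      have : t - 1 = (Real.sqrt t - 1) * (Real.sqrt t + 1) := by nlinarith
      rw [this, abs_mul, abs_sub_comm]
      have h8 : 1 ≤ |Real.sqrt t + 1| := by
        rw [abs_of_nonneg (by positivity)]
        linarith [Real.sqrt_nonneg t]
      nlinarith [abs_nonneg (Real.sqrt t - 1)]
    rw [← sq_abs]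
    exact pow_le_pow_left₀ (abs_nonneg _) (h7.trans h6) 2
  exact (sq_le_sq₀ (norm_nonneg _) (norm_nonneg _)).mp hn

/-- All bounded functions. -/
def bddSeq (B : Type u) [CStarAlgebra B] (ι : Type v) : StarSubalgebra ℂ (ι → B) where
  carrier := {x | ∃ C : ℝ, ∀ i, ‖x i‖ ≤ C}
  mul_mem' := by
    rintro x y ⟨C, hC⟩ ⟨D, hD⟩
    exact ⟨C * D, fun i => (norm_mul_le _ _).trans
      (mul_le_mul (hC i) (hD i) (norm_nonneg _) ((norm_nonneg _).trans (hC i)))⟩
  add_mem' := by
    rintro x y ⟨C, hC⟩ ⟨D, hD⟩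
    exact ⟨C + D, fun i => (norm_add_le _ _).trans (add_le_add (hC i) (hD i))⟩
  algebraMap_mem' := by
    intro r
    exact ⟨‖algebraMap ℂ B r‖, fun i => le_rfl⟩
  star_mem' := by
    rintro x ⟨C, hC⟩
    exact ⟨C, fun i => by simpa using hC i⟩

lemma isSeqAlg_bddSeq (B : Type u) [CStarAlgebra B] {ι : Type v} (μ : Filter ι) :
    IsSeqAlg μ (bddSeq B ι) where
  bdd x hx := hx
  cut := by
    rintro x ⟨K, hK⟩ s hs
    refine ⟨K, fun i => ?_⟩
    by_cases hi : i ∈ s
    · rw [Set.indicator_of_mem hi]; exact hK i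
    · rw [Set.indicator_of_notMem hi, norm_zero]
      exact (norm_nonneg _).trans (hK i)
  lim := by
    intro x hx
    obtain ⟨y, ⟨K, hK⟩, hy⟩ := hx 1 one_pos
    refine ⟨1 + K, fun i => ?_⟩
    calc ‖x i‖ = ‖(x i - y i) + y i‖ := by rw [sub_add_cancel]
      _ ≤ 1 + K := (norm_add_le _ _).trans (add_le_add (hy i) (hK i))

/-- Bounded functions modulo null functions. -/
abbrev Bq (B : Type u) [CStarAlgebra B] {ι : Type v} (μ : Filter ι) : Type (max u v) :=
  (nullConG μ (bddSeq B ι) (isSeqAlg_bddSeq B μ)).Quotient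

noncomputable instance instStarRingBq (B : Type u) [CStarAlgebra B] {ι : Type v} (μ : Filter ι) :
    StarRing (Bq B μ) where
  star := Quotient.map' star (fun x y h => by
    refine Tendsto.congr (fun i => ?_) h
    show _ = ‖((star x : bddSeq B ι) : ι → B) i - ((star y : bddSeq B ι) : ι → B) i‖
    rw [show ((star x : bddSeq B ι) : ι → B) i - ((star y : bddSeq B ι) : ι → B) i
      = star ((x : ι → B) i - (y : ι → B) i) by simp, norm_star])
  star_involutive := by
    rintro ⟨x⟩
    exact congrArg (Quotient.mk'' (s₁ := (nullConG μ (bddSeq B ι)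
      (isSeqAlg_bddSeq B μ)).toSetoid)) (star_star x)
  star_mul := by
    rintro ⟨x⟩ ⟨y⟩
    exact congrArg (Quotient.mk'' (s₁ := (nullConG μ (bddSeq B ι)
      (isSeqAlg_bddSeq B μ)).toSetoid)) (star_mul x y)
  star_add := by
    rintro ⟨x⟩ ⟨y⟩
    exact congrArg (Quotient.mk'' (s₁ := (nullConG μ (bddSeq B ι)
      (isSeqAlg_bddSeq B μ)).toSetoid)) (star_add x y)

noncomputable instance instCStarBq (B : Type u) [CStarAlgebra B] {ι : Type v} (μ : Filter ι) :
    CStarAlgebra (Bq B μ) :=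
  cstar (isSeqAlg_bddSeq B μ) (nullConG μ (bddSeq B ι) (isSeqAlg_bddSeq B μ))
    (fun _ _ => Iff.rfl) inferInstance (fun _ => rfl)

namespace Bq

variable {B : Type u} [CStarAlgebra B] {ι : Type v} (μ : Filter ι)

/-- The class of a bounded function. -/
noncomputable def mk (x : bddSeq B ι) : Bq B μ :=
  ((x : bddSeq B ι) : (nullConG μ (bddSeq B ι) (isSeqAlg_bddSeq B μ)).Quotient)

lemma mk_surjective : Function.Surjective (mk (B := B) μ) :=
  (nullConG μ (bddSeq B ι) (isSeqAlg_bddSeq B μ)).mk'_surjective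

lemma mk_add (x y : bddSeq B ι) : mk μ (x + y) = mk μ x + mk μ y := rfl
lemma mk_mul (x y : bddSeq B ι) : mk μ (x * y) = mk μ x * mk μ y := rfl
lemma mk_sub (x y : bddSeq B ι) : mk μ (x - y) = mk μ x - mk μ y := rfl
lemma mk_one : mk μ (1 : bddSeq B ι) = 1 := rfl
lemma mk_star (x : bddSeq B ι) : mk μ (star x) = star (mk μ x) := rfl
lemma mk_eq_iff (x y : bddSeq B ι) : mk μ x = mk μ y ↔
    Tendsto (fun i => ‖(x : ι → B) i - (y : ι → B) i‖) μ (𝓝 0) :=
  (nullConG μ (bddSeq B ι) (isSeqAlg_bddSeq B μ)).eq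

lemma norm_mk (x : bddSeq B ι) : ‖mk μ x‖ = nrm μ (x : ι → B) :=
  qnrm_mk (isSeqAlg_bddSeq B μ) (nullConG μ (bddSeq B ι) (isSeqAlg_bddSeq B μ))
    (fun _ _ => Iff.rfl) x

lemma eventually_norm_lt (x : bddSeq B ι) {c : ℝ} (h : ‖mk μ x‖ < c) :
    ∀ᶠ i in μ, ‖(x : ι → B) i‖ < c := by
  rw [norm_mk] at h
  exact eventually_lt x.2 h

/-- Constant functions. -/
def const (b : B) : bddSeq B ι := ⟨fun _ => b, ⟨‖b‖, fun _ => le_rfl⟩⟩

/-- Constant functions, as a homomorphism. -/
noncomputable def constHom : B →⋆ₐ[ℂ] Bq B μ where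
  toFun b := mk μ (const b)
  map_one' := rfl
  map_mul' _ _ := rfl
  map_zero' := rfl
  map_add' _ _ := rfl
  commutes' _ := rfl
  map_star' _ := rfl

/-- The map induced by a homomorphism. -/
noncomputable def mapHom {A : Type w} [CStarAlgebra A] (f : A →⋆ₐ[ℂ] B) :
    Fcs A μ →⋆ₐ[ℂ] Bq B μ where
  toFun := Quotient.map' (fun x : centralSeq A μ => (⟨fun k => f ((x : ι → A) k),
      x.2.1.imp fun C hC k => (NonUnitalStarAlgHom.norm_apply_le f _).trans (hC k)⟩ :
        bddSeq B ι)) (by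
    intro x y h
    have h' : Tendsto (fun i => ‖(x : ι → A) i - (y : ι → A) i‖) μ (𝓝 0) := h
    refine squeeze_zero (fun i => norm_nonneg _) (fun i => ?_) h'
    change ‖f ((x : ι → A) i) - f ((y : ι → A) i)‖ ≤ _
    rw [← map_sub]
    exact NonUnitalStarAlgHom.norm_apply_le f _)
  map_one' := by
    refine congrArg (mk μ) (Subtype.ext (funext fun k => ?_))
    exact map_one f
  map_mul' := by
    rintro ⟨x⟩ ⟨y⟩
    refine congrArg (mk μ) (Subtype.ext (funext fun k => ?_))
    exact map_mul f _ _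
  map_zero' := by
    refine congrArg (mk μ) (Subtype.ext (funext fun k => ?_))
    exact map_zero f
  map_add' := by
    rintro ⟨x⟩ ⟨y⟩
    refine congrArg (mk μ) (Subtype.ext (funext fun k => ?_))
    exact map_add f _ _
  commutes' := by
    intro r
    refine congrArg (mk μ) (Subtype.ext (funext fun k => ?_))
    exact (f : A →ₐ[ℂ] B).commutes r
  map_star' := by
    rintro ⟨x⟩
    refine congrArg (mk μ) (Subtype.ext (funext fun k => ?_))
    exact map_star f _

/-- Lifting of unitaries. -/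
lemma exists_unitary_lift (v : Bq B μ) (hv : v ∈ unitary (Bq B μ)) :
    ∃ V : bddSeq B ι, (∀ i, (V : ι → B) i ∈ unitary B) ∧ mk μ V = v := by
  classical
  obtain ⟨x, rfl⟩ := mk_surjective μ v
  rw [Unitary.mem_iff, ← mk_star, ← mk_mul, ← mk_mul, ← mk_one, mk_eq_iff, mk_eq_iff] at hv
  obtain ⟨h1, h2⟩ := hv
  have h1' : Tendsto (fun i => ‖star ((x : ι → B) i) * (x : ι → B) i - 1‖) μ (𝓝 0) := h1
  have h2' : Tendsto (fun i => ‖(x : ι → B) i * star ((x : ι → B) i) - 1‖) μ (𝓝 0) := h2
  have hex : ∀ i, ∃ v ∈ unitary B, (‖star ((x : ι → B) i) * (x : ι → B) i - 1‖ < 1 ∧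
      ‖(x : ι → B) i * star ((x : ι → B) i) - 1‖ < 1) →
      ‖v - (x : ι → B) i‖ ≤ ‖star ((x : ι → B) i) * (x : ι → B) i - 1‖ := by
    intro i
    by_cases h : ‖star ((x : ι → B) i) * (x : ι → B) i - 1‖ < 1 ∧
      ‖(x : ι → B) i * star ((x : ι → B) i) - 1‖ < 1
    · obtain ⟨v, hv, hvn⟩ := unitary_correction _ h.1 h.2
      exact ⟨v, hv, fun _ => hvn⟩
    · exact ⟨1, one_mem _, fun h' => absurd h' h⟩
  choose V hV hVn using hex
  have hb : ∀ i, ‖V i‖ ≤ 1 := by
    intro i
    rcases subsingleton_or_nontrivial B with hB | hB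
    · rw [Subsingleton.elim (V i) 0, norm_zero]; exact zero_le_one
    · exact (CStarRing.norm_of_mem_unitary (hV i)).le
  refine ⟨⟨V, ⟨1, hb⟩⟩, hV, ?_⟩
  rw [mk_eq_iff]
  refine squeeze_zero' (Eventually.of_forall fun i => norm_nonneg _) ?_ h1'
  filter_upwards [(Metric.tendsto_nhds.mp h1') 1 one_pos,
    (Metric.tendsto_nhds.mp h2') 1 one_pos] with i hi1 hi2
  rw [dist_zero_right, norm_norm] at hi1 hi2
  exact hVn i ⟨hi1, hi2⟩

end Bq

end Vale.Agent.P101
end
end
namespace AFast210ccax1959a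
@[reducible] noncomputable def a0.{u1, u2} {x1 : Type u1} {x2 : Type u2} [x3 : CStarAlgebra x2] : Semiring ↥(Vale.Agent.P101.bddSeq x2 x1) := inferInstance
@[reducible] noncomputable def a1.{u1, u2} {x1 : Type u1} {x2 : Type u2} [x3 : CStarAlgebra x2] : Ring ↥(Vale.Agent.P101.bddSeq x2 x1) := inferInstance
@[reducible] noncomputable def a2.{u1, u2} {x1 : Type u1} {x2 : Type u2} [x3 : CStarAlgebra x2] : Distrib ↥(Vale.Agent.P101.bddSeq x2 x1) := inferInstance
@[reducible] noncomputable def a3.{u1, u2} {x1 : Type u1} {x2 : Type u2} [x3 : CStarAlgebra x2] : Mul ↥(Vale.Agent.P101.bddSeq x2 x1) := inferInstance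
@[reducible] noncomputable def a4.{u1, u2} {x1 : Type u1} {x2 : Type u2} [x3 : CStarAlgebra x2] : Add ↥(Vale.Agent.P101.bddSeq x2 x1) := inferInstance
@[reducible] noncomputable def a5.{u1, u2} {x1 : Type u1} {x2 : Type u2} [x3 : CStarAlgebra x2] : NonUnitalNonAssocSemiring ↥(Vale.Agent.P101.bddSeq x2 x1) := inferInstance
@[reducible] noncomputable def a6.{u1, u2} {x1 : Type u1} {x2 : Type u2} [x3 : CStarAlgebra x2] : NonAssocSemiring ↥(Vale.Agent.P101.bddSeq x2 x1) := inferInstance
@[reducible] noncomputable def a7.{u1, u2} {x1 : Type u1} {x2 : Type u2} [x3 : CStarAlgebra x2] : NonUnitalNonAssocRing ↥(Vale.Agent.P101.bddSeq x2 x1) := inferInstance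
@[reducible] noncomputable def a8.{u1, u2} {x1 : Type u1} [x2 : CStarAlgebra x1] {x3 : Type u2} {x4 : Filter x3} : AddCommMonoid (Vale.Agent.P101.Bq x1 x4) := inferInstance
@[reducible] noncomputable def a9.{u1, u2} {x1 : Type u1} [x2 : CStarAlgebra x1] {x3 : Type u2} {x4 : Filter x3} : MulOneClass (Vale.Agent.P101.Bq x1 x4) := inferInstance
@[reducible] noncomputable def a10.{u1, u2} {x1 : Type u1} {x2 : Type u2} [x3 : CStarAlgebra x2] : NonAssocRing ↥(Vale.Agent.P101.bddSeq x2 x1) := inferInstance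
@[reducible] noncomputable def a11.{u1, u2} {x1 : Type u1} [x2 : CStarAlgebra x1] {x3 : Type u2} {x4 : Filter x3} : MulOne (Vale.Agent.P101.Bq x1 x4) := inferInstance
@[reducible] noncomputable def a12.{u1, u2} {x1 : Type u1} {x2 : Type u2} [x3 : CStarAlgebra x2] : Star ↥(Vale.Agent.P101.bddSeq x2 x1) := inferInstance
end AFast210ccax1959a
attribute [local instance] AFast210ccax1959a.a0 AFast210ccax1959a.a1 AFast210ccax1959a.a2
  AFast210ccax1959a.a3 AFast210ccax1959a.a4 AFast210ccax1959a.a5 AFast210ccax1959a.a6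
  AFast210ccax1959a.a7 AFast210ccax1959a.a8 AFast210ccax1959a.a9 AFast210ccax1959a.a10
  AFast210ccax1959a.a11 AFast210ccax1959a.a12
namespace AFast210ccax1959b
@[reducible] noncomputable def a0.{u1, u2} {x1 : Type u1} [x2 : CStarAlgebra x1] {x3 : Type u2} {x4 : Filter x3} : StarAddMonoid (Vale.Agent.P101.Bq x1 x4) := inferInstance
@[reducible] noncomputable def a1.{u1, u2} {x1 : Type u1} [x2 : CStarAlgebra x1] {x3 : Type u2} {x4 : Filter x3} : Star (Vale.Agent.P101.Bq x1 x4) := inferInstance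
@[reducible] noncomputable def a2.{u1, u2} {x1 : Type u1} [x2 : CStarAlgebra x1] {x3 : Type u2} {x4 : Filter x3} : InvolutiveStar (Vale.Agent.P101.Bq x1 x4) := inferInstance
@[reducible] noncomputable def a3.{u1} {x1 : Type u1} [x2 : CStarAlgebra x1] {x3 : Type} {x4 : Filter x3} : StarAddMonoid (Vale.Agent.P101.Bq x1 x4) := inferInstance
@[reducible] noncomputable def a4.{u1, u2} {x1 : Type u1} [x2 : CStarAlgebra x1] {x3 : Type u2} {x4 : Filter x3} : StarMul (Vale.Agent.P101.Bq x1 x4) := inferInstance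
@[reducible] noncomputable def a5.{u1} {x1 : Type u1} [x2 : CStarAlgebra x1] {x3 : Type} {x4 : Filter x3} : StarMul (Vale.Agent.P101.Bq x1 x4) := inferInstance
end AFast210ccax1959b
attribute [local instance] AFast210ccax1959b.a0 AFast210ccax1959b.a1 AFast210ccax1959b.a2
  AFast210ccax1959b.a3 AFast210ccax1959b.a4 AFast210ccax1959b.a5

section

section

/-! Homomorphisms from an inductive limit of dimension drop algebras into a central sequence
algebra. -/

open Filter Topology

namespace Vale.Agent.P101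

universe u v w

section Rep

variable {A : Type u} [CStarAlgebra A] {ι : Type v} {μ : Filter ι}

/-- Any representative of `φ d` has norm eventually less than `r` if `‖d‖ < r`. -/
theorem rep_norm_lt {D : Type w} [CStarAlgebra D] (φ : D →⋆ₐ[ℂ] Fcs A μ) (d : D) {r : ℝ}
    (hr : ‖d‖ < r) (y : centralSeq A μ) (hy : (Quotient.mk'' y : Fcs A μ) = φ d) :
    ∀ᶠ i in μ, ‖(y : ι → A) i‖ < r := by
  rcases subsingleton_or_nontrivial A with hA | hA
  · have hr0 : 0 < r := lt_of_le_of_lt (norm_nonneg _) hr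
    exact Eventually.of_forall fun i => by
      rw [Subsingleton.elim ((y : ι → A) i) 0, norm_zero]; exact hr0
  let _ := CStarAlgebra.spectralOrder D
  have _ := CStarAlgebra.spectralOrderedRing D
  let _ := CStarAlgebra.spectralOrder A
  have _ := CStarAlgebra.spectralOrderedRing A
  obtain ⟨r₁, h1, h2⟩ := exists_between hr
  have hr1 : 0 ≤ r₁ := (norm_nonneg d).trans h1.le
  have hle : star d * d ≤ algebraMap ℝ D (r₁ ^ 2) :=
    (CStarAlgebra.star_mul_le_algebraMap_norm_sq (a := d)).trans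
      (algebraMap_mono D (pow_le_pow_left₀ (norm_nonneg d) h1.le 2))
  set x : D := algebraMap ℝ D (r₁ ^ 2) - star d * d with hx
  have hx0 : 0 ≤ x := sub_nonneg.2 hle
  have hcc : star (CFC.sqrt x) * CFC.sqrt x = x := by
    have hs : star (CFC.sqrt x) = CFC.sqrt x := (CFC.sqrt_nonneg x).isSelfAdjoint
    rw [hs, CFC.sqrt_mul_sqrt_self x hx0]
  obtain ⟨z, hz⟩ : ∃ z : centralSeq A μ, (Quotient.mk'' z : Fcs A μ) = φ (CFC.sqrt x) :=
    Quotient.exists_rep _
  have hsum : star d * d + star (CFC.sqrt x) * CFC.sqrt x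
      = algebraMap ℂ D ((r₁ ^ 2 : ℝ) : ℂ) := by
    rw [hcc, hx, add_sub_cancel]
    rw [IsScalarTower.algebraMap_apply ℝ ℂ D]
    rfl
  have hφ : (Quotient.mk'' (star y * y + star z * z) : Fcs A μ)
      = Quotient.mk'' (algebraMap ℂ (centralSeq A μ) ((r₁ ^ 2 : ℝ) : ℂ)) := by
    have h3 := congrArg φ hsum
    rw [map_add, map_mul, map_mul, map_star, map_star, AlgHomClass.commutes, ← hy, ← hz] at h3
    exact h3
  have hnull : Tendsto (fun i => ‖(star ((y : ι → A) i) * (y : ι → A) i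
      + star ((z : ι → A) i) * (z : ι → A) i) - algebraMap ℂ A ((r₁ ^ 2 : ℝ) : ℂ)‖) μ (𝓝 0) :=
    (Quotient.exact hφ : (nullCon A μ) _ _)
  have hpos : 0 < r ^ 2 - r₁ ^ 2 := by nlinarith
  filter_upwards [hnull.eventually (gt_mem_nhds hpos)] with i hi
  have h4 : ‖star ((y : ι → A) i) * (y : ι → A) i‖
      ≤ ‖star ((y : ι → A) i) * (y : ι → A) i + star ((z : ι → A) i) * (z : ι → A) i‖ :=
    CStarAlgebra.norm_le_norm_of_nonneg_of_le (star_mul_self_nonneg _)
      (le_add_of_nonneg_right (star_mul_self_nonneg _))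
  have h5 : ‖star ((y : ι → A) i) * (y : ι → A) i + star ((z : ι → A) i) * (z : ι → A) i‖
      ≤ ‖(star ((y : ι → A) i) * (y : ι → A) i
      + star ((z : ι → A) i) * (z : ι → A) i) - algebraMap ℂ A ((r₁ ^ 2 : ℝ) : ℂ)‖
      + ‖algebraMap ℂ A ((r₁ ^ 2 : ℝ) : ℂ)‖ := by
    have := norm_add_le ((star ((y : ι → A) i) * (y : ι → A) i
      + star ((z : ι → A) i) * (z : ι → A) i) - algebraMap ℂ A ((r₁ ^ 2 : ℝ) : ℂ))
      (algebraMap ℂ A ((r₁ ^ 2 : ℝ) : ℂ))
    rwa [sub_add_cancel] at this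
  have h6 : ‖algebraMap ℂ A ((r₁ ^ 2 : ℝ) : ℂ)‖ = r₁ ^ 2 := by
    rw [norm_algebraMap']
    simp
  rw [CStarRing.norm_star_mul_self] at h4
  have h7 : ‖(y : ι → A) i‖ * ‖(y : ι → A) i‖ < r ^ 2 := by
    rw [h6] at h5
    linarith
  have h8 : 0 ≤ r := (norm_nonneg _).trans hr.le
  nlinarith [norm_nonneg ((y : ι → A) i)]

/-- Representatives with bounded norm. -/
theorem exists_rep_bounded (x : Fcs A μ) (r : ℝ) (hr : 0 ≤ r)
    (h : ∀ y : centralSeq A μ, (Quotient.mk'' y : Fcs A μ) = x → ∀ᶠ i in μ, ‖(y : ι → A) i‖ < r) :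
    ∃ y : centralSeq A μ, (Quotient.mk'' y : Fcs A μ) = x ∧ ∀ i, ‖(y : ι → A) i‖ ≤ r := by
  classical
  obtain ⟨y, hy⟩ : ∃ y : centralSeq A μ, (Quotient.mk'' y : Fcs A μ) = x := Quotient.exists_rep x
  have hev := h y hy
  let y' : ι → A := fun i => if ‖(y : ι → A) i‖ ≤ r then (y : ι → A) i else 0
  have hy' : ∀ᶠ i in μ, y' i = (y : ι → A) i := by
    filter_upwards [hev] with i hi
    simp only [y', if_pos hi.le]
  have hb : ∀ i, ‖y' i‖ ≤ r := by
    intro i
    simp only [y']
    split_ifs with h1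
    · exact h1
    · simpa using hr
  have hmem : y' ∈ centralSeq A μ := by
    refine ⟨⟨r, hb⟩, fun a => ?_⟩
    refine (y.2.2 a).congr' ?_
    filter_upwards [hy'] with i hi
    rw [hi]
  refine ⟨⟨y', hmem⟩, ?_, hb⟩
  rw [← hy]
  refine Quotient.sound (?_ : (nullCon A μ) _ _)
  show Tendsto (fun i => ‖y' i - (y : ι → A) i‖) μ (𝓝 0)
  refine tendsto_const_nhds.congr' ?_
  filter_upwards [hy'] with i hi
  rw [hi, sub_self, norm_zero]

end Rep

section Limit

variable {A : Type u} [CStarAlgebra A] {Z : Type v} [CStarAlgebra Z]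

/-- a `*`-homomorphism on a `*`-subalgebra of `Z` which is contractive in the sense of
representatives -/
def ContractiveRep {ι : Type w} {μ : Filter ι} {S : StarSubalgebra ℂ Z}
    (φ : S →⋆ₐ[ℂ] Fcs A μ) : Prop :=
  ∀ (s : S) (r : ℝ), ‖(s : Z)‖ < r → ∀ y : centralSeq A μ, (Quotient.mk'' y : Fcs A μ) = φ s →
    ∀ᶠ i in μ, ‖(y : ι → A) i‖ < r

theorem exists_hom_of_contractive {S : ℕ → StarSubalgebra ℂ Z} (hmono : Monotone S)
    (hdense : Dense (⋃ n, (S n : Set Z))) {ι : ℕ → Type w} {μ : ∀ n, Filter (ι n)}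
    (hμ : ∀ n, NeBot (μ n)) (φ : ∀ n, S n →⋆ₐ[ℂ] Fcs A (μ n))
    (hφ : ∀ n, ContractiveRep (φ n)) :
    ∃ (ν : Filter (Σ n, ι n)) (_ : NeBot ν), Nonempty (Z →⋆ₐ[ℂ] Fcs A ν) := by
  classical
  let ν : Filter (Σ n, ι n) := atTop.bind (fun n => (μ n).map (Sigma.mk n))
  have hev : ∀ p : (Σ n, ι n) → Prop,
      (∀ᶠ x in ν, p x) ↔ ∀ᶠ n in atTop, ∀ᶠ i in μ n, p ⟨n, i⟩ := fun p => by
    simp only [ν, eventually_bind, eventually_map]
  have hν : NeBot ν := by
    refine ⟨fun h => ?_⟩
    have h1 : ∀ᶠ x in ν, False := by rw [h]; trivial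
    rw [hev] at h1
    obtain ⟨n, hn⟩ := h1.exists
    obtain ⟨_, hi⟩ := hn.exists
    exact hi
  -- the relation defining the homomorphism
  let Rel : Z → centralSeq A ν → Prop := fun z w =>
    ∃ s : ∀ n, S n, Tendsto (fun n => (s n : Z)) atTop (𝓝 z) ∧
      ∀ n, ∃ y : centralSeq A (μ n), (Quotient.mk'' y : Fcs A (μ n)) = φ n (s n) ∧
        ∀ i, (w : (Σ n, ι n) → A) ⟨n, i⟩ = (y : ι n → A) i
  have hadd : ∀ z z' w w', Rel z w → Rel z' w' → Rel (z + z') (w + w') := by
    rintro z z' w w' ⟨s, hs, h⟩ ⟨s', hs', h'⟩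
    refine ⟨fun n => s n + s' n, hs.add hs', fun n => ?_⟩
    obtain ⟨y, hy, e⟩ := h n
    obtain ⟨y', hy', e'⟩ := h' n
    refine ⟨y + y', ?_, fun i => ?_⟩
    · rw [map_add, ← hy, ← hy']; rfl
    · show (w : (Σ n, ι n) → A) ⟨n, i⟩ + (w' : (Σ n, ι n) → A) ⟨n, i⟩ = _
      rw [e, e']; rfl
  have hmul : ∀ z z' w w', Rel z w → Rel z' w' → Rel (z * z') (w * w') := by
    rintro z z' w w' ⟨s, hs, h⟩ ⟨s', hs', h'⟩
    refine ⟨fun n => s n * s' n, hs.mul hs', fun n => ?_⟩
    obtain ⟨y, hy, e⟩ := h n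
    obtain ⟨y', hy', e'⟩ := h' n
    refine ⟨y * y', ?_, fun i => ?_⟩
    · rw [map_mul, ← hy, ← hy']; rfl
    · show (w : (Σ n, ι n) → A) ⟨n, i⟩ * (w' : (Σ n, ι n) → A) ⟨n, i⟩ = _
      rw [e, e']; rfl
  have hstar : ∀ z w, Rel z w → Rel (star z) (star w) := by
    rintro z w ⟨s, hs, h⟩
    refine ⟨fun n => star (s n), hs.star, fun n => ?_⟩
    obtain ⟨y, hy, e⟩ := h n
    refine ⟨star y, ?_, fun i => ?_⟩
    · rw [map_star, ← hy]; rfl
    · show star ((w : (Σ n, ι n) → A) ⟨n, i⟩) = _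
      rw [e]; rfl
  have halg : ∀ c : ℂ, Rel (algebraMap ℂ Z c) (algebraMap ℂ (centralSeq A ν) c) := by
    intro c
    refine ⟨fun n => algebraMap ℂ (S n) c, tendsto_const_nhds, fun n => ?_⟩
    refine ⟨algebraMap ℂ (centralSeq A (μ n)) c, ?_, fun i => rfl⟩
    rw [AlgHomClass.commutes]; rfl
  have huniq : ∀ z w w', Rel z w → Rel z w' →
      (Quotient.mk'' w : Fcs A ν) = Quotient.mk'' w' := by
    rintro z w w' ⟨s, hs, h⟩ ⟨s', hs', h'⟩
    refine Quotient.sound (?_ : (nullCon A ν) _ _)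
    show Tendsto (fun x => ‖(w : (Σ n, ι n) → A) x - (w' : (Σ n, ι n) → A) x‖) ν (𝓝 0)
    rw [Metric.tendsto_nhds]
    intro ε hε
    rw [hev]
    have hdiff : Tendsto (fun n => ‖(s n : Z) - (s' n : Z)‖) atTop (𝓝 0) := by
      have := (hs.sub hs').norm
      rwa [sub_self, norm_zero] at this
    filter_upwards [hdiff.eventually (gt_mem_nhds hε)] with n hn
    obtain ⟨y, hy, e⟩ := h n
    obtain ⟨y', hy', e'⟩ := h' n
    have h1 := hφ n (s n - s' n) ε hn (y - y') (by rw [map_sub, ← hy, ← hy']; rfl)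
    filter_upwards [h1] with i hi
    rw [e, e', dist_zero_right, norm_norm]
    exact hi
  have hex : ∀ z, ∃ w, Rel z w := by
    intro z
    have h1 : ∀ n, ∃ s : S n, dist z (s : Z) < Metric.infDist z (S n : Set Z) + 1 / ((n : ℝ) + 1) := by
      intro n
      have hne : (S n : Set Z).Nonempty := ⟨0, zero_mem _⟩
      have hlt : Metric.infDist z (S n : Set Z)
          < Metric.infDist z (S n : Set Z) + 1 / ((n : ℝ) + 1) := by
        have : (0 : ℝ) < 1 / ((n : ℝ) + 1) := by positivity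
        linarith
      obtain ⟨y, hy, hd⟩ := (Metric.infDist_lt_iff hne).1 hlt
      exact ⟨⟨y, hy⟩, hd⟩
    choose s hs using h1
    have hconv : Tendsto (fun n => (s n : Z)) atTop (𝓝 z) := by
      rw [Metric.tendsto_atTop]
      intro ε hε
      obtain ⟨y, hy, hyz⟩ := Metric.dense_iff.1 hdense z (ε / 2) (by linarith)
      obtain ⟨m, hm⟩ := Set.mem_iUnion.1 hyz
      obtain ⟨k, hk⟩ := exists_nat_one_div_lt (show (0 : ℝ) < ε / 2 by linarith)
      refine ⟨max m k, fun n hn => ?_⟩
      have hmn : (y : Z) ∈ (S n : Set Z) := hmono ((le_max_left m k).trans hn) hm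
      have h2 : Metric.infDist z (S n : Set Z) ≤ dist z y := Metric.infDist_le_dist_of_mem hmn
      have h3 : dist z y < ε / 2 := by rw [dist_comm]; exact hy
      have h4 : 1 / ((n : ℝ) + 1) ≤ 1 / ((k : ℝ) + 1) := by
        apply one_div_le_one_div_of_le (by positivity)
        have : (k : ℝ) ≤ n := by exact_mod_cast (le_max_right m k).trans hn
        linarith
      have h5 := hs n
      rw [dist_comm]
      linarith
    -- uniform bound
    obtain ⟨C, hC⟩ : ∃ C : ℝ, ∀ n, ‖(s n : Z)‖ < C := by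
      obtain ⟨C, hC⟩ := (Metric.isBounded_range_of_tendsto _ hconv).exists_norm_le
      exact ⟨C + 1, fun n => lt_of_le_of_lt (hC _ ⟨n, rfl⟩) (by linarith)⟩
    have hC0 : 0 ≤ C := (norm_nonneg _).trans (hC 0).le
    have h2 : ∀ n, ∃ y : centralSeq A (μ n), (Quotient.mk'' y : Fcs A (μ n)) = φ n (s n) ∧
        ∀ i, ‖(y : ι n → A) i‖ ≤ C := fun n =>
      exists_rep_bounded _ C hC0 (fun y hy => hφ n (s n) C (hC n) y hy)
    choose y hy hyC using h2
    let w : (Σ n, ι n) → A := fun x => (y x.1 : ι x.1 → A) x.2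
    have hw : w ∈ centralSeq A ν := by
      refine ⟨⟨C, fun x => hyC _ _⟩, fun a => ?_⟩
      rw [Metric.tendsto_nhds]
      intro ε hε
      rw [hev]
      refine Eventually.of_forall fun n => ?_
      have h3 := (Metric.tendsto_nhds.1 ((y n).2.2 a)) ε hε
      exact h3
    exact ⟨⟨w, hw⟩, s, hconv, fun n => ⟨y n, hy n, fun i => rfl⟩⟩
  choose W hW using hex
  refine ⟨ν, hν, ⟨{
    toFun := fun z => (Quotient.mk'' (W z) : Fcs A ν)
    map_one' := ?_
    map_mul' := fun z z' => ?_
    map_zero' := ?_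
    map_add' := fun z z' => ?_
    commutes' := fun c => ?_
    map_star' := fun z => ?_ }⟩⟩
  · have h1 := halg 1
    rw [map_one, map_one] at h1
    exact huniq _ _ _ (hW 1) h1
  · exact huniq _ _ _ (hW (z * z')) (hmul _ _ _ _ (hW z) (hW z'))
  · have h1 := halg 0
    rw [map_zero, map_zero] at h1
    exact huniq _ _ _ (hW 0) h1
  · exact huniq _ _ _ (hW (z + z')) (hadd _ _ _ _ (hW z) (hW z'))
  · exact huniq _ _ _ (hW _) (halg c)
  · exact huniq _ _ _ (hW (star z)) (hstar _ _ (hW z))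

end Limit

section DimDrop

open scoped Matrix.Norms.L2Operator

theorem contractiveRep_of_equiv {A : Type u} [CStarAlgebra A] {Z : Type v} [CStarAlgebra Z]
    {ι : Type w} {μ : Filter ι} {S : StarSubalgebra ℂ Z} (p q : ℕ)
    (e : dimDrop p q ≃⋆ₐ[ℂ] S) (φ : dimDrop p q →⋆ₐ[ℂ] Fcs A μ) :
    ContractiveRep (φ.comp (e.symm : S →⋆ₐ[ℂ] dimDrop p q)) := by
  intro s r hr y hy
  have : IsClosed ((dimDrop p q : StarSubalgebra ℂ
      C(unitInterval, Matrix (Fin p × Fin q) (Fin p × Fin q) ℂ)) :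
      Set C(unitInterval, Matrix (Fin p × Fin q) (Fin p × Fin q) ℂ)) :=
    sepAux_isClosed_dimDrop p q
  let _ : CStarAlgebra (dimDrop p q) := StarSubalgebra.cstarAlgebra (dimDrop p q)
  let j : dimDrop p q →⋆ₐ[ℂ] Z := S.subtype.comp (e : dimDrop p q →⋆ₐ[ℂ] S)
  have hj : Function.Injective j := fun a b hab => e.injective (Subtype.ext hab)
  have hnorm : ‖e.symm s‖ = ‖(s : Z)‖ := by
    have h1 := NonUnitalStarAlgHom.norm_map j hj (e.symm s)
    have h2 : j (e.symm s) = (s : Z) := by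
      show ((e (e.symm s) : S) : Z) = s
      rw [e.apply_symm_apply]
    rw [h2] at h1
    exact h1.symm
  exact rep_norm_lt φ (e.symm s) (by rw [hnorm]; exact hr) y hy

end DimDrop

theorem exists_hom_of_limit {A Z : Type u} [CStarAlgebra A] [CStarAlgebra Z] (hZ : IsJiangSu Z)
    (hA : ∀ p q : ℕ, 0 < p → 0 < q → Nat.Coprime p q →
      ∃ (ι : Type) (μ : Filter ι) (_ : NeBot μ), Nonempty (dimDrop p q →⋆ₐ[ℂ] Fcs A μ)) :
    ∃ (ι : Type) (ν : Filter ι) (_ : NeBot ν), Nonempty (Z →⋆ₐ[ℂ] Fcs A ν) := by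
  obtain ⟨p, q, S, hmono, hS, hdense⟩ := hZ.limit
  have h1 : ∀ n, ∃ (ι : Type) (μ : Filter ι) (_ : NeBot μ) (φ : S n →⋆ₐ[ℂ] Fcs A μ),
      ContractiveRep φ := by
    intro n
    obtain ⟨hp, hq, hpq, ⟨e⟩⟩ := hS n
    obtain ⟨ι, μ, hμ, ⟨φ⟩⟩ := hA (p n) (q n) hp hq hpq
    exact ⟨ι, μ, hμ, φ.comp (e.symm : S n →⋆ₐ[ℂ] dimDrop (p n) (q n)),
      contractiveRep_of_equiv (p n) (q n) e φ⟩
  choose ι μ hμ φ hφ using h1
  obtain ⟨ν, hν, h⟩ := exists_hom_of_contractive hmono hdense hμ φ hφ
  exact ⟨Σ n, ι n, ν, hν, h⟩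

end Vale.Agent.P101
end
end

section

section

/-! The unitaries needed for the intertwining argument. -/

open Filter Topology
open scoped TensorProduct

namespace Vale.Agent.P101

universe u v

open SeqQuot

theorem unitaries {A Z B : Type u} [CStarAlgebra A] [CStarAlgebra Z] [CStarAlgebra B]
    (hZ : IsJiangSu Z) (i : A →⋆ₐ[ℂ] B) (j : Z →⋆ₐ[ℂ] B) (h : IsCStarTensor i j)
    (hA : ∀ p q : ℕ, 0 < p → 0 < q → Nat.Coprime p q →
      ∃ (ι : Type) (μ : Filter ι) (_ : NeBot μ), Nonempty (dimDrop p q →⋆ₐ[ℂ] Fcs A μ))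
    (S : Finset A) (T : Finset B) (ε : ℝ) (hε : 0 < ε) :
    ∃ v ∈ unitary B, (∀ a ∈ S, ‖v * i a - i a * v‖ < ε) ∧
      ∀ b ∈ T, ∃ a, ‖star v * b * v - i a‖ < ε := by
  classical
  obtain ⟨ι, μ, hμ, ⟨Ψ⟩⟩ := exists_hom_of_limit hZ hA
  -- homomorphisms into the big algebra
  let Ψ2 : Z →⋆ₐ[ℂ] Bq B μ := (Bq.mapHom μ i).comp Ψ
  let Ψ1 : Z →⋆ₐ[ℂ] Bq B μ := (Bq.constHom μ).comp j
  let κ : A →⋆ₐ[ℂ] Bq B μ := (Bq.constHom μ).comp i
  have hκ1 : ∀ a z, κ a * Ψ1 z = Ψ1 z * κ a := by
    intro a z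
    change Bq.constHom μ (i a) * Bq.constHom μ (j z) = Bq.constHom μ (j z) * Bq.constHom μ (i a)
    rw [← map_mul, ← map_mul, (h.comm a z).eq]
  have hκmap : ∀ a (w : Fcs A μ), κ a * Bq.mapHom μ i w = Bq.mapHom μ i w * κ a := by
    rintro a ⟨w⟩
    refine (Bq.mk_eq_iff μ (Bq.const (i a) * ⟨fun k => i ((w : ι → A) k), _⟩)
      (⟨fun k => i ((w : ι → A) k), _⟩ * Bq.const (i a))).mpr ?_
    refine squeeze_zero (fun k => norm_nonneg _) (fun k => ?_) (w.2.2 a)
    change ‖i a * i ((w : ι → A) k) - i ((w : ι → A) k) * i a‖ ≤ _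
    rw [← map_mul, ← map_mul, ← map_sub, norm_sub_rev ((w : ι → A) k * a)]
    exact NonUnitalStarAlgHom.norm_apply_le i _
  have hκ2 : ∀ a z, κ a * Ψ2 z = Ψ2 z * κ a := fun a z => hκmap a (Ψ z)
  have h12 : ∀ x y, Ψ2 x * Ψ1 y = Ψ1 y * Ψ2 x := by
    intro x y
    have : ∀ (w : Fcs A μ), Bq.mapHom μ i w * Bq.constHom μ (j y) =
        Bq.constHom μ (j y) * Bq.mapHom μ i w := by
      rintro ⟨w⟩
      refine congrArg (Bq.mk μ) (Subtype.ext (funext fun k => ?_))
      exact (h.comm _ _).eq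
    exact this (Ψ x)
  -- the relative commutant
  let C : StarSubalgebra ℂ (Bq B μ) := StarSubalgebra.centralizer ℂ (Set.range κ)
  have hCmem : ∀ z : Bq B μ, z ∈ C ↔ ∀ a, κ a * z = z * κ a := by
    intro z
    rw [StarSubalgebra.mem_centralizer_iff]
    constructor
    · intro hz a
      exact (hz _ ⟨a, rfl⟩).1
    · rintro hz _ ⟨a, rfl⟩
      refine ⟨hz a, ?_⟩
      rw [← map_star]
      exact hz (star a)
  have hCcl : IsClosed (C : Set (Bq B μ)) := by
    have : (C : Set (Bq B μ)) = ⋂ a, {z | κ a * z = z * κ a} := by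
      ext z
      simp only [Set.mem_iInter]
      exact hCmem z
    rw [this]
    exact isClosed_iInter fun a => isClosed_eq (by fun_prop) (by fun_prop)
  let _ : CStarAlgebra C := StarSubalgebra.cstarAlgebra _ (h_closed := hCcl)
  let Φ1 : Z →⋆ₐ[ℂ] C := Ψ1.codRestrict C (fun z => (hCmem _).mpr fun a => hκ1 a z)
  let Φ2 : Z →⋆ₐ[ℂ] C := Ψ2.codRestrict C (fun z => (hCmem _).mpr fun a => hκ2 a z)
  have hflip := hZ.half_flip C Φ2 Φ1 (fun x y => Subtype.ext (h12 x y))
  -- approximations of the elements of `T`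
  have hT : ∀ b : B, ∃ s : Finset (A × Z), ‖b - ∑ m ∈ s, i m.1 * j m.2‖ < ε / 2 := by
    intro b
    obtain ⟨t, ht⟩ := (Metric.denseRange_iff.mp h.dense) b (ε / 2) (by positivity)
    obtain ⟨s, rfl⟩ := TensorProduct.exists_finset t
    refine ⟨s, ?_⟩
    rw [dist_eq_norm, map_sum] at ht
    simpa using ht
  choose s hs using hT
  set M : ℝ := ∑ b ∈ T, ∑ m ∈ s b, ‖m.1‖ with hM
  have hM0 : 0 ≤ M := Finset.sum_nonneg fun b _ => Finset.sum_nonneg fun m _ => norm_nonneg _
  obtain ⟨v', hv', hv'S⟩ := hflip (T.biUnion fun b => (s b).image Prod.snd)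
    (ε / (2 * (M + 1))) (by positivity)
  set v : Bq B μ := (v' : Bq B μ) with hvdef
  have hv : v ∈ unitary (Bq B μ) := by
    rw [Unitary.mem_iff] at hv' ⊢
    exact ⟨congrArg Subtype.val hv'.1, congrArg Subtype.val hv'.2⟩
  have hvκ : ∀ a, κ a * v = v * κ a := (hCmem v).mp v'.2
  have hvS : ∀ b ∈ T, ∀ m ∈ s b, ‖v * Ψ2 m.2 * star v - Ψ1 m.2‖ < ε / (2 * (M + 1)) := by
    intro b hb m hm
    exact hv'S m.2 (Finset.mem_biUnion.mpr ⟨b, hb, Finset.mem_image.mpr ⟨m, hm, rfl⟩⟩)
  have hvv : star v * v = 1 := (Unitary.mem_iff.mp hv).1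
  have hsv : star v ∈ unitary (Bq B μ) := Unitary.star_mem hv
  -- key estimate in the big algebra
  have hbig : ∀ b ∈ T, ‖star v * Bq.constHom μ b * v - ∑ m ∈ s b, κ m.1 * Ψ2 m.2‖ < ε := by
    intro b hb
    have e1 : star v * Bq.constHom μ b * v - ∑ m ∈ s b, κ m.1 * Ψ2 m.2 =
        star v * Bq.constHom μ (b - ∑ m ∈ s b, i m.1 * j m.2) * v +
        ∑ m ∈ s b, κ m.1 * (star v * (Ψ1 m.2 - v * Ψ2 m.2 * star v) * v) := by
      have e2 : ∀ m : A × Z, κ m.1 * (star v * (Ψ1 m.2 - v * Ψ2 m.2 * star v) * v) =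
          star v * (κ m.1 * Ψ1 m.2) * v - κ m.1 * Ψ2 m.2 := by
        intro m
        have e3 : κ m.1 * star v = star v * κ m.1 := by
          have := hvκ (star m.1)
          have h4 := congrArg star this
          rw [star_mul, star_mul, map_star, star_star] at h4
          exact h4.symm
        calc κ m.1 * (star v * (Ψ1 m.2 - v * Ψ2 m.2 * star v) * v)
            = (κ m.1 * star v) * Ψ1 m.2 * v - κ m.1 * ((star v * v) * Ψ2 m.2 * (star v * v)) := by
              noncomm_ring
          _ = star v * (κ m.1 * Ψ1 m.2) * v - κ m.1 * Ψ2 m.2 := by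
              rw [hvv, e3]; noncomm_ring
      simp only [e2, Finset.sum_sub_distrib]
      have e5 : Bq.constHom μ (b - ∑ m ∈ s b, i m.1 * j m.2) =
          Bq.constHom μ b - ∑ m ∈ s b, κ m.1 * Ψ1 m.2 := by
        rw [map_sub, map_sum]
        congr 1
      rw [e5, mul_sub, sub_mul, Finset.mul_sum, Finset.sum_mul]
      abel
    rw [e1]
    have n1 : ‖star v * Bq.constHom μ (b - ∑ m ∈ s b, i m.1 * j m.2) * v‖ < ε / 2 := by
      rw [CStarRing.norm_mul_mem_unitary _ hv, CStarRing.norm_mem_unitary_mul _ hsv]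
      exact (NonUnitalStarAlgHom.norm_apply_le (Bq.constHom (B := B) μ) _).trans_lt (hs b)
    have n2 : ‖∑ m ∈ s b, κ m.1 * (star v * (Ψ1 m.2 - v * Ψ2 m.2 * star v) * v)‖ ≤
        ∑ m ∈ s b, ‖m.1‖ * (ε / (2 * (M + 1))) := by
      refine (norm_sum_le _ _).trans (Finset.sum_le_sum fun m hm => ?_)
      refine (norm_mul_le _ _).trans (mul_le_mul (NonUnitalStarAlgHom.norm_apply_le κ _) ?_
        (norm_nonneg _) (norm_nonneg _))
      rw [CStarRing.norm_mul_mem_unitary _ hv, CStarRing.norm_mem_unitary_mul _ hsv, norm_sub_rev]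
      exact (hvS b hb m hm).le
    rw [← Finset.sum_mul] at n2
    have n3 : ∑ m ∈ s b, ‖m.1‖ ≤ M :=
      Finset.single_le_sum (f := fun b => ∑ m ∈ s b, ‖m.1‖)
        (fun b _ => Finset.sum_nonneg fun m _ => norm_nonneg _) hb
    have n4 : (∑ m ∈ s b, ‖m.1‖) * (ε / (2 * (M + 1))) ≤ ε / 2 := by
      calc (∑ m ∈ s b, ‖m.1‖) * (ε / (2 * (M + 1))) ≤ (M + 1) * (ε / (2 * (M + 1))) :=
            mul_le_mul_of_nonneg_right (by linarith) (by positivity)
        _ = ε / 2 := by field_simp
    refine (norm_add_le _ _).trans_lt ?_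
    linarith
  -- lift to sequences
  obtain ⟨V, hVu, hVv⟩ := Bq.exists_unitary_lift μ v hv
  choose y hy using fun z => Descend.quo_surjective μ (Ψ z)
  have hΨ2 : ∀ z, ∃ hb, Ψ2 z = Bq.mk μ ⟨fun k => i ((y z : ι → A) k), hb⟩ := by
    intro z
    refine ⟨(y z).2.1.imp fun K hK k => (NonUnitalStarAlgHom.norm_apply_le i _).trans (hK k), ?_⟩
    change Bq.mapHom μ i (Ψ z) = _
    rw [← hy z]
    rfl
  have hev1 : ∀ a ∈ S, ∀ᶠ k in μ, ‖(V : ι → B) k * i a - i a * (V : ι → B) k‖ < ε := by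
    intro a _
    have h0 : ‖Bq.mk μ (V * Bq.const (i a) - Bq.const (i a) * V)‖ < ε := by
      have : Bq.mk μ (V * Bq.const (i a) - Bq.const (i a) * V) = 0 := by
        rw [Bq.mk_sub, Bq.mk_mul, Bq.mk_mul, hVv]
        exact sub_eq_zero.mpr (hvκ a).symm
      rw [this, norm_zero]
      exact hε
    exact Bq.eventually_norm_lt μ _ h0
  have hev2 : ∀ b ∈ T, ∀ᶠ k in μ, ‖star ((V : ι → B) k) * b * (V : ι → B) k -
      i (∑ m ∈ s b, m.1 * (y m.2 : ι → A) k)‖ < ε := by
    intro b hb
    have hYb : ∃ K : ℝ, ∀ k, ‖i (∑ m ∈ s b, m.1 * (y m.2 : ι → A) k)‖ ≤ K := by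
      choose K hK using fun z => (y z).2.1
      refine ⟨∑ m ∈ s b, ‖m.1‖ * K m.2, fun k => ?_⟩
      refine (NonUnitalStarAlgHom.norm_apply_le i _).trans ((norm_sum_le _ _).trans
        (Finset.sum_le_sum fun m _ => ?_))
      exact (norm_mul_le _ _).trans (mul_le_mul_of_nonneg_left (hK _ _) (norm_nonneg _))
    let Y : bddSeq B ι := ⟨fun k => i (∑ m ∈ s b, m.1 * (y m.2 : ι → A) k), hYb⟩
    have hY : Bq.mk μ Y = ∑ m ∈ s b, κ m.1 * Ψ2 m.2 := by
      choose hb' hΨ using hΨ2
      simp only [hΨ]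
      have : ∀ m : A × Z, κ m.1 * Bq.mk μ ⟨fun k => i ((y m.2 : ι → A) k), hb' m.2⟩ =
          Bq.mk μ (Bq.const (i m.1) * ⟨fun k => i ((y m.2 : ι → A) k), hb' m.2⟩) :=
        fun m => rfl
      simp only [this]
      have h7 : ∀ (s : Finset (A × Z)) (f : A × Z → bddSeq B ι),
          ∑ m ∈ s, Bq.mk μ (f m) = Bq.mk μ (∑ m ∈ s, f m) := by
        intro s f
        induction s using Finset.induction_on with
        | empty => rfl
        | insert a s ha ih => rw [Finset.sum_insert ha, Finset.sum_insert ha, ih, Bq.mk_add]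
      rw [h7]
      congr 1
      apply Subtype.ext
      funext k
      change i (∑ m ∈ s b, m.1 * (y m.2 : ι → A) k) = _
      rw [map_sum]
      simp only [AddSubmonoidClass.coe_finsetSum, Finset.sum_apply]
      refine Finset.sum_congr rfl fun m _ => ?_
      rw [map_mul]
      rfl
    have h0 : ‖Bq.mk μ (star V * Bq.const b * V - Y)‖ < ε := by
      rw [Bq.mk_sub, hY, Bq.mk_mul, Bq.mk_mul, Bq.mk_star, hVv]
      exact hbig b hb
    exact Bq.eventually_norm_lt μ _ h0
  obtain ⟨k, hk1, hk2⟩ := (((Finset.eventually_all S).mpr hev1).and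
    ((Finset.eventually_all T).mpr hev2)).exists
  exact ⟨(V : ι → B) k, hVu k, hk1, fun b hb => ⟨_, hk2 b hb⟩⟩

end Vale.Agent.P101
end
end

section

section

/-! The dimension drop version of the main theorem. -/

open Filter Topology

namespace Vale.Agent.P101

universe u

theorem dimDropMaps_of_hom (A : Type u) [CStarAlgebra A] (ω : Filter ℕ) (p q : ℕ)
    (φ : dimDrop p q →⋆ₐ[ℂ] Fcs A ω) : DimDropMaps A ω p q := by
  have hsurj : ∀ y : Fcs A ω, ∃ x : centralSeq A ω, (x : Fcs A ω) = y := fun y =>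
    Quotient.mk''_surjective (s₁ := (nullCon A ω).toSetoid) y
  choose r hr using hsurj
  have key : ∀ x y : centralSeq A ω, (x : Fcs A ω) = (y : Fcs A ω) →
      Tendsto (fun n => ‖(x : ℕ → A) n - (y : ℕ → A) n‖) ω (𝓝 0) :=
    fun x y h => (RingCon.eq _).1 h
  refine ⟨⟨dimDrop p q, fun f => (r (φ f) : ℕ → A), fun f => Iff.rfl, ?_⟩⟩
  refine ⟨fun f => (isCentral_iff ω _).2 (r (φ f)).2, ?_, ?_, ?_, ?_, ?_⟩
  · refine key (r (φ 1)) 1 ?_
    rw [hr, map_one]; rfl
  · intro f g
    refine key (r (φ (f + g))) (r (φ f) + r (φ g)) ?_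
    have h : (((r (φ f) + r (φ g) : centralSeq A ω)) : Fcs A ω)
      = (r (φ f) : Fcs A ω) + (r (φ g) : Fcs A ω) := rfl
    rw [h, hr, hr, hr, map_add]
  · intro f g
    refine key (r (φ (f * g))) (r (φ f) * r (φ g)) ?_
    have h : (((r (φ f) * r (φ g) : centralSeq A ω)) : Fcs A ω)
      = (r (φ f) : Fcs A ω) * (r (φ g) : Fcs A ω) := rfl
    rw [h, hr, hr, hr, map_mul]
  · intro c f
    refine key (r (φ (c • f))) (c • r (φ f)) ?_
    have h : (((c • r (φ f) : centralSeq A ω)) : Fcs A ω)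
      = c • (r (φ f) : Fcs A ω) := rfl
    rw [h, hr, hr, map_smul]
  · intro f
    refine key (r (φ (star f))) (star (r (φ f))) ?_
    have h : (((star (r (φ f)) : centralSeq A ω)) : Fcs A ω)
      = star (r (φ f) : Fcs A ω) := rfl
    rw [h, hr, hr, map_star]

theorem IsCharacter.congr {A : Type u} [CStarAlgebra A] {ω : Filter ℕ} {χ : (ℕ → A) → ℂ}
    (hχ : IsCharacter ω χ) {x y : ℕ → A} (hx : IsCentral ω x) (hy : IsCentral ω y)
    (h : Tendsto (fun n => ‖x n - y n‖) ω (𝓝 0)) : χ x = χ y := by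
  have hd : IsCentral ω (x - y) :=
    (isCentral_iff ω _).2 (sub_mem ((isCentral_iff ω _).1 hx) ((isCentral_iff ω _).1 hy))
  have h0 := hχ.null (x - y) hd h
  have h1 := hχ.add (x - y) y hd hy
  rw [sub_add_cancel, h0, zero_add] at h1
  exact h1

theorem not_char_of_dimDropMaps {A : Type u} [CStarAlgebra A] {ω : Filter ℕ}
    (h : DimDropMaps A ω 2 3) : ¬ ∃ χ : (ℕ → A) → ℂ, IsCharacter ω χ := by
  rintro ⟨χ, hχ⟩
  obtain ⟨S, Φ, hS, hΦ⟩ := h.hom
  have hS' : S = dimDrop 2 3 := by
    ext f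
    rw [hS f]
    rfl
  subst hS'
  have c : ∀ {x : ℕ → A}, x ∈ centralSeq A ω → IsCentral ω x := fun h => (isCentral_iff ω _).2 h
  have c' : ∀ {x : ℕ → A}, IsCentral ω x → x ∈ centralSeq A ω := fun h => (isCentral_iff ω _).1 h
  have hone : χ (Φ 1) = 1 := by
    rw [hχ.congr (hΦ.central 1) (c (one_mem _)) (y := 1) hΦ.one, hχ.one]
  have hadd : ∀ f g, χ (Φ (f + g)) = χ (Φ f) + χ (Φ g) := fun f g => by
    rw [hχ.congr (hΦ.central (f + g)) (c (add_mem (c' (hΦ.central f)) (c' (hΦ.central g))))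
      (hΦ.add f g), hχ.add _ _ (hΦ.central f) (hΦ.central g)]
  have hmul : ∀ f g, χ (Φ (f * g)) = χ (Φ f) * χ (Φ g) := fun f g => by
    rw [hχ.congr (hΦ.central (f * g)) (c (mul_mem (c' (hΦ.central f)) (c' (hΦ.central g))))
      (hΦ.mul f g), hχ.mul _ _ (hΦ.central f) (hΦ.central g)]
  have hsmul : ∀ (a : ℂ) f, χ (Φ (a • f)) = a * χ (Φ f) := fun a f => by
    rw [hχ.congr (hΦ.central (a • f)) (c ((centralSeq A ω).smul_mem (c' (hΦ.central f)) a))
      (hΦ.smul a f), hχ.smul _ _ (hΦ.central f)]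
  have hstar : ∀ f, χ (Φ (star f)) = star (χ (Φ f)) := fun f => by
    rw [hχ.congr (hΦ.central (star f)) (c (star_mem (c' (hΦ.central f)))) (hΦ.star f),
      hχ.star _ (hΦ.central f)]
  have hzero : χ (Φ 0) = 0 := by
    have := hsmul 0 0
    rwa [zero_smul, zero_mul] at this
  refine (NoChar.isEmpty 2 3 le_rfl (by norm_num)).false
    { toFun := fun f => χ (Φ f)
      map_one' := hone
      map_mul' := hmul
      map_zero' := hzero
      map_add' := hadd
      commutes' := fun a => ?_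
      map_star' := hstar }
  rw [Algebra.algebraMap_eq_smul_one, hsmul, hone, mul_one]
  rfl

theorem main_hom (A : Type u) [CStarAlgebra A] [TopologicalSpace.SeparableSpace A]
    (ω : Ultrafilter ℕ) (hω : (ω : Filter ℕ) ≤ Filter.cofinite) :
    ((¬ ∃ χ : (ℕ → A) → ℂ, IsCharacter (ω : Filter ℕ) χ) ↔
      DimDropMaps A (ω : Filter ℕ) 2 3) ∧
    ((¬ ∃ χ : (ℕ → A) → ℂ, IsCharacter (ω : Filter ℕ) χ) ↔
      ∀ p q : ℕ, 0 < p → 0 < q → Nat.Coprime p q → DimDropMaps A (ω : Filter ℕ) p q) := by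
  have h1 : (¬ ∃ χ : (ℕ → A) → ℂ, IsCharacter (ω : Filter ℕ) χ) →
      ∀ p q : ℕ, 0 < p → 0 < q → Nat.Coprime p q → DimDropMaps A (ω : Filter ℕ) p q := by
    intro h p q hp hq hpq
    obtain ⟨φ⟩ := dimDrop_hom_Fcs A ω hω (isEmpty_of_not_char A (ω : Filter ℕ) h) p q hp hq hpq
    exact dimDropMaps_of_hom A (ω : Filter ℕ) p q φ
  refine ⟨⟨fun h => h1 h 2 3 (by norm_num) (by norm_num) (by norm_num), fun h =>
    not_char_of_dimDropMaps h⟩, ⟨h1, fun h => not_char_of_dimDropMaps
      (h 2 3 (by norm_num) (by norm_num) (by norm_num))⟩⟩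

end Vale.Agent.P101
end
end

section

section

/-! The literal version of the main theorem. -/

open Filter Topology
open scoped TensorProduct

namespace Vale.Agent.P101

universe u

theorem nontrivial_of_isJiangSu {Z : Type u} [CStarAlgebra Z] (hZ : IsJiangSu Z) :
    Nontrivial Z := by
  obtain ⟨p, q, S, -, h, -⟩ := hZ.limit
  obtain ⟨hp, hq, -, ⟨e⟩⟩ := h 0
  by_contra hc
  rw [not_nontrivial_iff_subsingleton] at hc
  have h1 : (1 : dimDrop (p 0) (q 0)) = 0 := by
    apply e.injective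
    apply Subtype.ext
    exact Subsingleton.elim _ _
  have h2 := congrArg (fun f : dimDrop (p 0) (q 0) =>
    (f : C(unitInterval, Matrix (Fin (p 0) × Fin (q 0)) (Fin (p 0) × Fin (q 0)) ℂ)) 0
      (⟨0, hp⟩, ⟨0, hq⟩) (⟨0, hp⟩, ⟨0, hq⟩)) h1
  simp at h2

theorem injective_of_isCStarTensor {A Z B : Type u} [CStarAlgebra A] [CStarAlgebra Z]
    [CStarAlgebra B] [Nontrivial Z] (i : A →⋆ₐ[ℂ] B) (j : Z →⋆ₐ[ℂ] B) (hT : IsCStarTensor i j) :
    Function.Injective i := by
  have h1 : Function.Injective (algebraMap ℂ Z) := (algebraMap ℂ Z).injective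
  have h2 : Function.Injective
      (Algebra.TensorProduct.includeLeft : A →ₐ[ℂ] A ⊗[ℂ] Z) :=
    Algebra.TensorProduct.includeLeft_injective h1
  intro a b hab
  apply h2
  apply hT.inj
  rw [Algebra.TensorProduct.includeLeft_apply, Algebra.TensorProduct.includeLeft_apply,
    Algebra.TensorProduct.lift_tmul, Algebra.TensorProduct.lift_tmul]
  show i a * j 1 = i b * j 1
  rw [hab]

theorem iso_of_noChar {A Z B : Type u} [CStarAlgebra A] [CStarAlgebra Z] [CStarAlgebra B]
    [TopologicalSpace.SeparableSpace A] (ι : Type) (μ : Filter ι) [NeBot μ]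
    (h : IsEmpty (Fcs A μ →⋆ₐ[ℂ] ℂ)) (hZ : IsJiangSu Z) (i : A →⋆ₐ[ℂ] B) (j : Z →⋆ₐ[ℂ] B)
    (hT : IsCStarTensor i j) : Nonempty (A ≃⋆ₐ[ℂ] B) := by
  have _ : TopologicalSpace.SeparableSpace Z := separable_dimDrop_closure hZ
  have _ : TopologicalSpace.SeparableSpace B := separable_tensor i j hT
  have _ : Nontrivial Z := nontrivial_of_isJiangSu hZ
  exact elliott i (injective_of_isCStarTensor i j hT) (unitaries hZ i j hT fun p q hp hq hpq =>
    exists_dimDrop_hom A ι μ h p q hp hq hpq)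

theorem main_literal (A Z B : Type u) [CStarAlgebra A] [CStarAlgebra Z] [CStarAlgebra B]
    [TopologicalSpace.SeparableSpace A] (ω : Ultrafilter ℕ)
    (h : ¬ ∃ χ : (ℕ → A) → ℂ, IsCharacter (ω : Filter ℕ) χ) (hZ : IsJiangSuAlgebra Z)
    (i : A →⋆ₐ[ℂ] B) (j : Z →⋆ₐ[ℂ] B) (hT : IsTensorCompletion i j) : Nonempty (A ≃⋆ₐ[ℂ] B) :=
  iso_of_noChar ℕ (ω : Filter ℕ) (isEmpty_of_not_char A (ω : Filter ℕ) h) hZ.isJiangSu i j
    hT.isCStarTensor

end Vale.Agent.P101
end
end

section

section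

/-! The combined main theorem. -/

open Filter Topology

namespace Vale.Agent.P101

universe u

theorem main_all (A : Type u) [CStarAlgebra A] [TopologicalSpace.SeparableSpace A]
    (ω : Ultrafilter ℕ) (hω : (ω : Filter ℕ) ≤ Filter.cofinite) :
    ((¬ ∃ χ : (ℕ → A) → ℂ, IsCharacter (ω : Filter ℕ) χ) → IsZStable A) ∧
    ((¬ ∃ χ : (ℕ → A) → ℂ, IsCharacter (ω : Filter ℕ) χ) ↔
      DimDropMaps A (ω : Filter ℕ) 2 3) ∧
    ((¬ ∃ χ : (ℕ → A) → ℂ, IsCharacter (ω : Filter ℕ) χ) ↔
      ∀ p q : ℕ, 0 < p → 0 < q → Nat.Coprime p q → DimDropMaps A (ω : Filter ℕ) p q) :=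
  ⟨fun h => ⟨fun Z B _ _ hZ => ⟨fun i j hij => main_literal A Z B ω h hZ i j hij⟩⟩,
    main_hom A ω hω⟩

end Vale.Agent.P101
end
end
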